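import Vale.Agent.P334.LP

/-!
The rounding algorithm with integer arithmetic: definitions and polynomial time.
-/

namespace Vale.Agent.P334

open Vale.Agent.Lib.PolyTime

namespace Alg

/-- The static data of a run. -/
structure Cfg where
  /-- the distance matrix -/
  D : List (List ℕ)
  /-- the facilities -/
  F : List ℕ
  /-- the denominator of masses and kernels -/
  N : ℕ
  /-- the outer scale of the distances -/
  M : ℕ
  /-- the outer scale for the cap of the radii -/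
  Ms : ℕ
  /-- the inner scale of the distances -/
  W : ℕ
  /-- the step of the grid of levels -/
  u : ℕ
  /-- the cap for the killed mass -/
  L : ℕ
  /-- the inverse of the bias -/
  E : ℕ
  /-- the denominator of slopes -/
  m : ℕ
  /-- the time at which the clock stops -/
  T : ℕ
  /-- a quarter of the number of outcomes of one step -/
  q : ℕ
  /-- an upper bound for the weights of the facilities -/
  Λ : ℕ
  /-- the table of slopes -/
  tab : List ℕ

/-- States: masses, open facilities, clock. -/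
abbrev St : Type := List ℕ × List ℕ × ℕ

/-- The rounded kernel. -/
def jk (N m κ r v : ℕ) : ℕ := min N (N * κ * (v - r) / (m * v))

namespace Cfg

variable (c : Cfg)

/-- The scaled distance. -/
def dd (a b : ℕ) : ℕ := c.M * (c.W * dm c.D a b + c.u)

/-- The number of levels. -/
def smax : ℕ := c.M * (c.W + 1)

/-- The slope at a given clock. -/
def slope (th : ℕ) : ℕ := c.tab.getD (th * c.m / c.q) 0

/-- The budget of `i` at the radius `v`. -/
def bud (Y : List ℕ) (κ i v : ℕ) : ℕ :=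
  (c.F.map fun e => Y.getD e 0 * jk c.N c.m κ (c.dd i e) v).sum

/-- The least level at which the budget is reached. -/
def lv (Y : List ℕ) (κ i : ℕ) : ℕ :=
  amin (fun s => s) c.smax ((List.range c.smax).filter fun s => c.N ^ 2 ≤ c.bud Y κ i (c.u * s))

/-- The radius of `i`. -/
def rad (s : St) (i : ℕ) : ℕ :=
  min (c.Ms * (c.W * dl (dm c.D) i s.2.1 + c.u)) (c.u * c.lv s.1 (c.slope s.2.2) i)

/-- The kernel in the state `s`. -/
def jj (s : St) (i e : ℕ) : ℕ := jk c.N c.m (c.slope s.2.2) (c.dd i e) (c.rad s i)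

/-- The mass killed by `e`. -/
def kc (s : St) (e : ℕ) : ℕ := (c.F.map fun i => s.1.getD i 0 * c.jj s i e).sum

/-- The capping factor. -/
def cap (s : St) (e : ℕ) : ℕ := max (c.L * c.N ^ 2) (c.kc s e)

/-- The number of outcomes in which `e` opens. -/
def wt (s : St) (e : ℕ) : ℕ :=
  s.1.getD e 0 * c.cap s e * ((c.E - 1) * c.N ^ 2 + min (2 * c.N ^ 2) (c.kc s e))

/-- Decay. -/
def decay (s : St) : St :=
  ((List.range c.D.length).map fun i => s.1.getD i 0 - s.1.getD i 0 *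
    (c.N ^ 2 - c.bud s.1 (c.slope s.2.2) i (c.rad s i)) * (c.N ^ 3 * c.L * c.E) / c.q, s.2)

/-- A tick of the clock. -/
def tick (s : St) : St := (s.1, s.2.1, min (s.2.2 + c.N ^ 5 * c.L * c.E) (c.T * c.q))

/-- The facility `e` opens. -/
def ring (s : St) (e : ℕ) : St :=
  ((List.range c.D.length).map fun i =>
    s.1.getD i 0 - s.1.getD i 0 * c.jj s i e * (c.L * c.N) / c.cap s e, e :: s.2.1, s.2.2)

/-- One step with the outcome `ω < 4 q`. -/
def step (s : St) (ω : ℕ) : St :=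
  if ω < c.q then c.decay s else if ω < 2 * c.q then c.tick s
  else if (ω - 2 * c.q) / c.Λ < c.F.length ∧
      (ω - 2 * c.q) % c.Λ < c.wt s (c.F.getD ((ω - 2 * c.q) / c.Λ) 0) then
    c.ring s (c.F.getD ((ω - 2 * c.q) / c.Λ) 0)
  else s

end Cfg

/-- One step of a process which reads `B` coins. -/
def coin {σ : Type} (f : σ → ℕ → σ) (B : ℕ) (p : σ × List Bool) : σ × List Bool :=
  (f p.1 (val (p.2.take B)), p.2.drop B)

/-- `n` steps of such a process. -/
def run {σ : Type} (f : σ → ℕ → σ) (B n : ℕ) (s : σ) (ρ : List Bool) : σ :=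
  ((coin f B)^[n] (s, ρ)).1

/-! ### Polynomial time -/

variable {α β : Type} [Enc α] [Enc β]

/-- The static data are computed in polynomial time. -/
structure CPT (c : α → Cfg) : Prop where
  D : PT ∅ fun a => (c a).D
  F : PT ∅ fun a => (c a).F
  N : PT ∅ fun a => (c a).N
  M : PT ∅ fun a => (c a).M
  Ms : PT ∅ fun a => (c a).Ms
  W : PT ∅ fun a => (c a).W
  u : PT ∅ fun a => (c a).u
  L : PT ∅ fun a => (c a).L
  E : PT ∅ fun a => (c a).E
  m : PT ∅ fun a => (c a).m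
  T : PT ∅ fun a => (c a).T
  q : PT ∅ fun a => (c a).q
  Λ : PT ∅ fun a => (c a).Λ
  tab : PT ∅ fun a => (c a).tab
  Mb : PBd fun a => (c a).M
  Wb : PBd fun a => (c a).W

theorem CPT.comp {c : α → Cfg} (h : CPT c) {g : β → α} (hg : PT ∅ g) : CPT fun b => c (g b) :=
  ⟨h.D.comp hg, h.F.comp hg, h.N.comp hg, h.M.comp hg, h.Ms.comp hg, h.W.comp hg, h.u.comp hg,
    h.L.comp hg, h.E.comp hg, h.m.comp hg, h.T.comp hg, h.q.comp hg, h.Λ.comp hg, h.tab.comp hg,
    h.Mb.comp hg, h.Wb.comp hg⟩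

theorem CPT.fst {c : α → Cfg} (h : CPT c) : CPT fun p : α × β => c p.1 := h.comp PT.fst'

theorem pt_jk {N m κ r v : α → ℕ} (hN : PT ∅ N) (hm : PT ∅ m) (hκ : PT ∅ κ) (hr : PT ∅ r)
    (hv : PT ∅ v) : PT ∅ fun a => jk (N a) (m a) (κ a) (r a) (v a) :=
  PT.min hN (((hN.mul hκ).mul (hv.sub hr)).div (hm.mul hv))

variable {c : α → Cfg} (hc : CPT c)

include hc

theorem pt_dd {x y : α → ℕ} (hx : PT ∅ x) (hy : PT ∅ y) : PT ∅ fun a => (c a).dd (x a) (y a) :=
  hc.M.mul ((hc.W.mul (pt_dm hc.D hx hy)).add hc.u)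

theorem pt_smax : PT ∅ fun a => (c a).smax := hc.M.mul (hc.W.add (PT.const 1))

theorem pbd_smax : PBd fun a => (c a).smax := hc.Mb.mul (hc.Wb.add (PBd.const 1))

theorem pt_slope {t : α → ℕ} (ht : PT ∅ t) : PT ∅ fun a => (c a).slope (t a) :=
  PT.getD hc.tab ((ht.mul hc.m).div hc.q) (PT.const 0)

theorem pt_bud {Y : α → List ℕ} {κ i v : α → ℕ} (hY : PT ∅ Y) (hκ : PT ∅ κ) (hi : PT ∅ i)
    (hv : PT ∅ v) : PT ∅ fun a => (c a).bud (Y a) (κ a) (i a) (v a) :=
  PT.sum (PT.map hc.F ((PT.getD (hY.comp PT.fst') PT.snd' (PT.const 0)).mul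
    (pt_jk hc.fst.N hc.fst.m (hκ.comp PT.fst') (pt_dd hc.fst (hi.comp PT.fst') PT.snd')
      (hv.comp PT.fst'))))

theorem pt_lv {Y : α → List ℕ} {κ i : α → ℕ} (hY : PT ∅ Y) (hκ : PT ∅ κ) (hi : PT ∅ i) :
    PT ∅ fun a => (c a).lv (Y a) (κ a) (i a) :=
  pt_amin (f := fun _ s => s) PT.snd' (pt_smax hc) (PT.filter (PT.range (pt_smax hc)
    (pbd_smax hc)) ((hc.fst.N.powConst 2).le (pt_bud hc.fst (hY.comp PT.fst') (hκ.comp PT.fst')
      (hi.comp PT.fst') (hc.fst.u.mul PT.snd'))))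

theorem pt_rad {s : α → St} {i : α → ℕ} (hs : PT ∅ s) (hi : PT ∅ i) :
    PT ∅ fun a => (c a).rad (s a) (i a) :=
  PT.min (hc.Ms.mul ((hc.W.mul (pt_dl hc.D hi hs.snd.fst)).add hc.u))
    (hc.u.mul (pt_lv hc hs.fst (pt_slope hc hs.snd.snd) hi))

theorem pt_jj {s : α → St} {i e : α → ℕ} (hs : PT ∅ s) (hi : PT ∅ i) (he : PT ∅ e) :
    PT ∅ fun a => (c a).jj (s a) (i a) (e a) :=
  pt_jk hc.N hc.m (pt_slope hc hs.snd.snd) (pt_dd hc hi he) (pt_rad hc hs hi)

theorem pt_kc {s : α → St} {e : α → ℕ} (hs : PT ∅ s) (he : PT ∅ e) :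
    PT ∅ fun a => (c a).kc (s a) (e a) :=
  PT.sum (PT.map hc.F ((PT.getD (hs.comp PT.fst').fst PT.snd' (PT.const 0)).mul
    (pt_jj hc.fst (hs.comp PT.fst') PT.snd' (he.comp PT.fst'))))

theorem pt_cap {s : α → St} {e : α → ℕ} (hs : PT ∅ s) (he : PT ∅ e) :
    PT ∅ fun a => (c a).cap (s a) (e a) :=
  PT.max (hc.L.mul (hc.N.powConst 2)) (pt_kc hc hs he)

theorem pt_wt {s : α → St} {e : α → ℕ} (hs : PT ∅ s) (he : PT ∅ e) :
    PT ∅ fun a => (c a).wt (s a) (e a) :=
  ((PT.getD hs.fst he (PT.const 0)).mul (pt_cap hc hs he)).mul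
    (((hc.E.sub (PT.const 1)).mul (hc.N.powConst 2)).add
      (PT.min ((PT.const 2).mul (hc.N.powConst 2)) (pt_kc hc hs he)))

theorem pt_ids : PT ∅ fun a => List.range (c a).D.length :=
  PT.range hc.D.length (PBd.length hc.D)

theorem pt_decay {s : α → St} (hs : PT ∅ s) : PT ∅ fun a => (c a).decay (s a) := by
  have h1 : PT ∅ fun p : α × ℕ => s p.1 := hs.comp PT.fst'
  have h2 : PT ∅ fun p : α × ℕ => (s p.1).1.getD p.2 0 := PT.getD h1.fst PT.snd' (PT.const 0)
  exact (PT.map (pt_ids hc) (h2.sub (((h2.mul ((hc.fst.N.powConst 2).sub (pt_bud hc.fst h1.fst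
    (pt_slope hc.fst h1.snd.snd) PT.snd' (pt_rad hc.fst h1 PT.snd')))).mul
      (((hc.fst.N.powConst 3).mul hc.fst.L).mul hc.fst.E)).div hc.fst.q))).pair hs.snd

theorem pt_tick {s : α → St} (hs : PT ∅ s) : PT ∅ fun a => (c a).tick (s a) :=
  hs.fst.pair (hs.snd.fst.pair (PT.min (hs.snd.snd.add (((hc.N.powConst 5).mul hc.L).mul hc.E))
    (hc.T.mul hc.q)))

theorem pt_ring {s : α → St} {e : α → ℕ} (hs : PT ∅ s) (he : PT ∅ e) :
    PT ∅ fun a => (c a).ring (s a) (e a) := by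
  have h1 : PT ∅ fun p : α × ℕ => s p.1 := hs.comp PT.fst'
  have h2 : PT ∅ fun p : α × ℕ => (s p.1).1.getD p.2 0 := PT.getD h1.fst PT.snd' (PT.const 0)
  have h3 : PT ∅ fun p : α × ℕ => e p.1 := he.comp PT.fst'
  exact (PT.map (pt_ids hc) (h2.sub (((h2.mul (pt_jj hc.fst h1 PT.snd' h3)).mul
    (hc.fst.L.mul hc.fst.N)).div (pt_cap hc.fst h1 h3)))).pair
      ((he.cons hs.snd.fst).pair hs.snd.snd)

theorem pt_step {s : α → St} {ω : α → ℕ} (hs : PT ∅ s) (hω : PT ∅ ω) :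
    PT ∅ fun a => (c a).step (s a) (ω a) := by
  have h1 : PT ∅ fun a => ω a - 2 * (c a).q := hω.sub ((PT.const 2).mul hc.q)
  have h2 : PT ∅ fun a => (c a).F.getD ((ω a - 2 * (c a).q) / (c a).Λ) 0 :=
    PT.getD hc.F (h1.div hc.Λ) (PT.const 0)
  exact PT.ite (hω.lt hc.q) (pt_decay hc hs) (PT.ite (hω.lt ((PT.const 2).mul hc.q))
    (pt_tick hc hs) (PT.ite (PT.decide_and ((h1.div hc.Λ).lt hc.F.length)
      ((h1.mod hc.Λ).lt (pt_wt hc hs h2))) (pt_ring hc hs h2) hs))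

omit hc in
/-- The size of the states. -/
theorem step_bound (c : Cfg) (s : St) (ω : ℕ) {A : ℕ} (h1 : s.1.length ≤ c.D.length)
    (h2 : ∀ i, s.1.getD i 0 ≤ A) : (c.step s ω).1.length ≤ c.D.length ∧
      (∀ i, (c.step s ω).1.getD i 0 ≤ A) ∧
      esize (c.step s ω).2.1 ≤ esize s.2.1 + (2 * esize c.F + 1) ∧
      (c.step s ω).2.2 ≤ max s.2.2 (c.T * c.q) := by
  unfold Cfg.step
  split_ifs with ha hb hd
  · exact ⟨by simp [Cfg.decay], fun i => (LP.getD_map_range_le _ _ i).trans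
      ((Nat.sub_le _ _).trans (h2 i)), Nat.le_add_right _ _, le_max_left _ _⟩
  · exact ⟨h1, h2, Nat.le_add_right _ _, (min_le_right _ _).trans (le_max_right _ _)⟩
  · refine ⟨by simp [Cfg.ring], fun i => (LP.getD_map_range_le _ _ i).trans
      ((Nat.sub_le _ _).trans (h2 i)), ?_, le_max_left _ _⟩
    have h3 : esize (c.F.getD ((ω - 2 * c.q) / c.Λ) 0) ≤ esize c.F := by
      rw [List.getD_eq_getElem _ _ hd.1]
      exact esize_le_of_mem (List.getElem_mem _)
    change esize (_ :: s.2.1) ≤ _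
    rw [esize_list_cons]
    omega
  · exact ⟨h1, h2, Nat.le_add_right _ _, le_max_left _ _⟩

theorem pt_run {B n A : α → ℕ} {s : α → St} {ρ : α → List Bool} (hB : PT ∅ B) (hn : PT ∅ n)
    (hnb : PBd n) (hs : PT ∅ s) (hρ : PT ∅ ρ) (hA : PT ∅ A)
    (h1 : ∀ a, (s a).1.length ≤ (c a).D.length) (h2 : ∀ a i, (s a).1.getD i 0 ≤ A a) :
    PT ∅ fun a => run (c a).step (B a) (n a) (s a) (ρ a) := by
  have hb : PBd fun a => 2 * (2 * ((c a).D.length * (2 * esize (A a) + 1)) +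
      (2 * (esize (s a).2.1 + n a * (2 * esize (c a).F + 1)) +
        esize (max (s a).2.2 ((c a).T * (c a).q)) + 1) + 1) + esize (ρ a) + 1 :=
    (((PBd.const 2).mul ((((PBd.const 2).mul ((PBd.length hc.D).mul (((PBd.const 2).mul
      hA.pbd).add (PBd.const 1)))).add ((((PBd.const 2).mul (hs.snd.fst.pbd.add (hnb.mul
        (((PBd.const 2).mul hc.F.pbd).add (PBd.const 1))))).add
          (PT.max hs.snd.snd (hc.T.mul hc.q)).pbd).add (PBd.const 1))).add (PBd.const 1))).add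
            hρ.pbd).add (PBd.const 1)
  refine (PT.iterate' (step := fun a p => coin (c a).step (B a) p) hn hnb (hs.pair hρ)
    ((pt_step hc.fst PT.snd'.fst (PT.valList (PT.take PT.snd'.snd (hB.comp PT.fst')))).pair
      (PT.drop PT.snd'.snd (hB.comp PT.fst'))) hb fun a t ht => ?_).fst
  have key : ∀ t, ((coin (c a).step (B a))^[t] (s a, ρ a)).1.1.length ≤ (c a).D.length ∧
      (∀ i, ((coin (c a).step (B a))^[t] (s a, ρ a)).1.1.getD i 0 ≤ A a) ∧
      esize ((coin (c a).step (B a))^[t] (s a, ρ a)).1.2.1 ≤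
        esize (s a).2.1 + t * (2 * esize (c a).F + 1) ∧
      ((coin (c a).step (B a))^[t] (s a, ρ a)).1.2.2 ≤ max (s a).2.2 ((c a).T * (c a).q) ∧
      esize ((coin (c a).step (B a))^[t] (s a, ρ a)).2 ≤ esize (ρ a) := by
    intro t
    induction t with
    | zero => exact ⟨h1 a, h2 a, by simp, le_max_left _ _, le_rfl⟩
    | succ t ih =>
      rw [Function.iterate_succ_apply']
      obtain ⟨k1, k2, k3, k4, k5⟩ := ih
      obtain ⟨l1, l2, l3, l4⟩ := step_bound (c a) _ (val (((coin (c a).step (B a))^[t]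
        (s a, ρ a)).2.take (B a))) k1 k2
      refine ⟨l1, l2, l3.trans ?_, l4.trans (max_le k4 (le_max_right _ _)),
        (esize_drop_le _ _).trans k5⟩
      rw [add_mul, one_mul]
      omega
  obtain ⟨k1, k2, k3, k4, k5⟩ := key t
  set p := (coin (c a).step (B a))^[t] (s a, ρ a)
  have e1 := (LP.esize_le_of_getD k2).trans (Nat.mul_le_mul_right _ k1)
  have e2 := esize_nat_mono k4
  have e3 := Nat.mul_le_mul_right (2 * esize (c a).F + 1) ht
  rw [show p = ((p.1.1, p.1.2.1, p.1.2.2), p.2) from rfl, esize_pair, esize_pair, esize_pair]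
  omega

end Alg

end Vale.Agent.P334
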