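import Vale.Agent.P334.Alg
import Vale.Agent.Lib.PCP.RandHard

/-!
Processes which read a block of coins in each step: potentials bound the frequency of bad outcomes.
-/

namespace Vale.Agent.P334

open Vale.Agent.Lib.PolyTime Vale.Agent.Lib.PTM Finset

namespace Alg

theorem sum_range_two_mul (g : ℕ → ℝ) (n : ℕ) :
    ∑ ω ∈ range (2 * n), g ω = ∑ ω ∈ range n, g (2 * ω) + ∑ ω ∈ range n, g (2 * ω + 1) := by
  induction n with
  | zero => simp
  | succ n ih =>
    rw [show 2 * (n + 1) = 2 * n + 1 + 1 by ring, sum_range_succ, sum_range_succ, ih,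
      sum_range_succ, sum_range_succ]
    ring

/-- The first block of coins is a uniformly distributed number. -/
theorem frq_block (B M : ℕ) (P : ℕ → List Bool → Prop) :
    frq (B + M) (fun ρ => P (val (ρ.take B)) (ρ.drop B)) =
      (∑ ω ∈ range (2 ^ B), frq M (P ω)) / 2 ^ B := by
  induction B generalizing P with
  | zero => simp
  | succ B ih =>
    rw [show B + 1 + M = B + M + 1 by ring, frq_succ]
    have h0 := ih fun ω => P (2 * ω)
    have h1 := ih fun ω => P (2 * ω + 1)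
    rw [pow_succ 2 B, mul_comm, sum_range_two_mul]
    simp only [List.take_succ_cons, List.drop_succ_cons, val_cons, Bool.toNat_false,
      Bool.toNat_true, zero_add, add_comm 1]
    rw [h0, h1, pow_succ]
    field_simp

theorem run_zero {σ : Type} (f : σ → ℕ → σ) (B : ℕ) (s : σ) (ρ : List Bool) :
    run f B 0 s ρ = s := rfl

theorem run_succ {σ : Type} (f : σ → ℕ → σ) (B n : ℕ) (s : σ) (ρ : List Bool) :
    run f B (n + 1) s ρ = run f B n (f s (val (ρ.take B))) (ρ.drop B) := rfl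

/-- Invariants. -/
theorem run_inv {σ : Type} {f : σ → ℕ → σ} {Inv : σ → Prop} (hinv : ∀ s, Inv s → ∀ ω, Inv (f s ω))
    (B n : ℕ) {s : σ} (hs : Inv s) (ρ : List Bool) : Inv (run f B n s ρ) := by
  induction n generalizing s ρ with
  | zero => exact hs
  | succ n ih => exact ih (hinv s hs _) _

/-- A potential, depending on the number of remaining steps, bounds the frequency of the bad final
states. -/
theorem run_frq_le {σ : Type} {f : σ → ℕ → σ} {B : ℕ} {Inv Bad : σ → Prop} {Ψ : ℕ → σ → ℝ}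
    (hinv : ∀ s, Inv s → ∀ ω, Inv (f s ω)) (h0 : ∀ s, Inv s → 0 ≤ Ψ 0 s)
    (h1 : ∀ s, Inv s → Bad s → 1 ≤ Ψ 0 s)
    (hstep : ∀ t s, Inv s → (∑ ω ∈ range (2 ^ B), Ψ t (f s ω)) / 2 ^ B ≤ Ψ (t + 1) s)
    (n : ℕ) {m : ℕ} (hm : n * B ≤ m) {s : σ} (hs : Inv s) :
    frq m (fun ρ => Bad (run f B n s ρ)) ≤ Ψ n s := by
  induction n generalizing s m with
  | zero =>
    simp only [run_zero]
    rw [frq_const, ind]
    split_ifs with h
    · exact h1 s hs h
    · exact h0 s hs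
  | succ n ih =>
    obtain ⟨M, rfl⟩ : ∃ M, m = B + M := ⟨m - B, by rw [add_mul, one_mul] at hm; omega⟩
    have hM : n * B ≤ M := by rw [add_mul, one_mul] at hm; omega
    simp only [run_succ]
    rw [frq_block B M fun ω ρ => Bad (run f B n (f s ω) ρ)]
    exact le_trans (div_le_div_of_nonneg_right (sum_le_sum fun ω _ => ih hM (hinv s hs ω))
      (by positivity)) (hstep n s hs)

/-- The same for the good final states. -/
theorem le_run_frq {σ : Type} {f : σ → ℕ → σ} {B : ℕ} {Inv Gd : σ → Prop} {Ψ : ℕ → σ → ℝ}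
    (hinv : ∀ s, Inv s → ∀ ω, Inv (f s ω)) (h0 : ∀ s, Inv s → 0 ≤ Ψ 0 s)
    (h1 : ∀ s, Inv s → Ψ 0 s < 1 → Gd s)
    (hstep : ∀ t s, Inv s → (∑ ω ∈ range (2 ^ B), Ψ t (f s ω)) / 2 ^ B ≤ Ψ (t + 1) s)
    (n : ℕ) {m : ℕ} (hm : n * B ≤ m) {s : σ} (hs : Inv s) :
    1 - Ψ n s ≤ frq m fun ρ => Gd (run f B n s ρ) := by
  have h2 := run_frq_le (Bad := fun s => ¬ Gd s) hinv h0
    (fun s hs h => not_lt.1 fun h' => h (h1 s hs h')) hstep n hm hs
  rw [Lib.PCP.frq_not m fun ρ => Gd (run f B n s ρ)] at h2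
  linarith

/-- The form used in the assembly. -/
theorem chain {σ : Type} (f : σ → ℕ → σ) (B : ℕ) (Inv : σ → Prop)
    (hinv : ∀ s w, Inv s → Inv (f s w)) (V : ℕ → σ → ℝ) (P : σ → Prop)
    (h0 : ∀ s, Inv s → 0 ≤ V 0 s) (h1 : ∀ s, Inv s → ¬ P s → 1 ≤ V 0 s)
    (hstep : ∀ n s, Inv s → (∑ w ∈ range (2 ^ B), V n (f s w)) / 2 ^ B ≤ V (n + 1) s)
    (n : ℕ) (s : σ) (hs : Inv s) (m : ℕ) (hm : n * B ≤ m) :
    1 - V n s ≤ frq m fun ρ => Inv (run f B n s ρ) ∧ P (run f B n s ρ) :=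
  le_run_frq (Gd := fun s => Inv s ∧ P s) (fun s hs w => hinv s w hs) h0
    (fun s hs h => ⟨hs, by_contra fun h' => absurd (h1 s hs h') (not_le.2 h)⟩) hstep n hm hs

theorem sum_range_mul_div (g : ℕ → ℕ → ℝ) {Λ : ℕ} (hΛ : 0 < Λ) (n : ℕ) :
    ∑ ω ∈ range (n * Λ), g (ω / Λ) (ω % Λ) = ∑ a ∈ range n, ∑ b ∈ range Λ, g a b := by
  induction n with
  | zero => simp
  | succ n ih =>
    rw [add_mul, one_mul, sum_range_add, ih, sum_range_succ]
    congr 1
    refine sum_congr rfl fun b hb => ?_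
    have hb' := mem_range.1 hb
    rw [add_comm, Nat.add_mul_div_right _ _ hΛ, Nat.add_mul_mod_self_right, Nat.div_eq_of_lt hb',
      Nat.mod_eq_of_lt hb', zero_add]

theorem sum_range_ite (a : ℝ) {w Λ : ℕ} (h : w ≤ Λ) :
    ∑ b ∈ range Λ, (if b < w then a else 0) = w * a := by
  obtain ⟨r, rfl⟩ := Nat.exists_eq_add_of_le h
  rw [sum_range_add, sum_congr rfl fun b hb => if_pos (mem_range.1 hb),
    sum_congr rfl fun b _ => if_neg (by omega)]
  simp

theorem sum_map_eq_range (g : ℕ → ℝ) (F : List ℕ) :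
    (F.map g).sum = ∑ a ∈ range F.length, g (F.getD a 0) := by
  induction F with
  | nil => simp
  | cons x F ih =>
    rw [List.map_cons, List.sum_cons, List.length_cons, sum_range_succ', ih, add_comm]
    rfl

/-- The sum of a function of the state over all outcomes of one step. -/
theorem sum_step (c : Cfg) (s : St) (Ψ : St → ℝ) (hF : c.F.Nodup) (hΛ : 0 < c.Λ)
    (h1 : c.F.length * c.Λ ≤ 2 * c.q) (h2 : ∀ e ∈ c.F, c.wt s e ≤ c.Λ) :
    ∑ ω ∈ range (4 * c.q), Ψ (c.step s ω) = 4 * c.q * Ψ s + c.q * (Ψ (c.decay s) - Ψ s) +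
      c.q * (Ψ (c.tick s) - Ψ s) +
      ∑ e ∈ c.F.toFinset, (c.wt s e : ℝ) * (Ψ (c.ring s e) - Ψ s) := by
  obtain ⟨r, hr⟩ := Nat.exists_eq_add_of_le h1
  have e0 : ∑ ω ∈ range (4 * c.q), Ψ (c.step s ω) =
      4 * c.q * Ψ s + ∑ ω ∈ range (4 * c.q), (Ψ (c.step s ω) - Ψ s) := by
    rw [sum_sub_distrib, sum_const, card_range, nsmul_eq_mul]
    push_cast
    ring
  have e1 : ∑ ω ∈ range c.q, (Ψ (c.step s ω) - Ψ s) = c.q * (Ψ (c.decay s) - Ψ s) := by
    rw [sum_congr rfl fun ω hω => by rw [Cfg.step, if_pos (mem_range.1 hω)], sum_const, card_range,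
      nsmul_eq_mul]
  have e2 : ∑ ω ∈ range c.q, (Ψ (c.step s (c.q + ω)) - Ψ s) = c.q * (Ψ (c.tick s) - Ψ s) := by
    rw [sum_congr rfl fun ω hω => by
      rw [Cfg.step, if_neg (by omega), if_pos (by have := mem_range.1 hω; omega)], sum_const,
      card_range, nsmul_eq_mul]
  have e3 : ∀ ω, Ψ (c.step s (c.q + c.q + ω)) - Ψ s =
      if ω / c.Λ < c.F.length ∧ ω % c.Λ < c.wt s (c.F.getD (ω / c.Λ) 0) then
        Ψ (c.ring s (c.F.getD (ω / c.Λ) 0)) - Ψ s else 0 := fun ω => by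
    rw [Cfg.step, if_neg (by omega), if_neg (by omega),
      show c.q + c.q + ω - 2 * c.q = ω by omega]
    split_ifs <;> simp
  have e4 : ∑ ω ∈ range r, (Ψ (c.step s (c.q + c.q + (c.F.length * c.Λ + ω))) - Ψ s) = 0 :=
    sum_eq_zero fun ω _ => by
      rw [e3, if_neg fun h => absurd h.1 (not_lt.2 ((Nat.le_div_iff_mul_le hΛ).2
        (Nat.le_add_right _ _)))]
  have e5 : ∑ ω ∈ range (c.F.length * c.Λ), (Ψ (c.step s (c.q + c.q + ω)) - Ψ s) =
      ∑ e ∈ c.F.toFinset, (c.wt s e : ℝ) * (Ψ (c.ring s e) - Ψ s) := by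
    rw [sum_congr rfl fun ω _ => e3 ω, sum_range_mul_div (fun a b =>
      if a < c.F.length ∧ b < c.wt s (c.F.getD a 0) then Ψ (c.ring s (c.F.getD a 0)) - Ψ s else 0)
      hΛ, List.sum_toFinset _ hF, sum_map_eq_range]
    refine sum_congr rfl fun a ha => ?_
    have ha' := mem_range.1 ha
    simp only [ha', true_and]
    refine sum_range_ite _ (h2 _ ?_)
    rw [List.getD_eq_getElem _ _ ha']
    exact List.getElem_mem _
  rw [e0, show 4 * c.q = c.q + c.q + (c.F.length * c.Λ + r) by omega, sum_range_add, sum_range_add,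
    sum_range_add, e1, e2, e4, e5]
  ring

end Alg

end Vale.Agent.P334
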