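import Vale.Agent.Lib.MathlibUsed

/-!
The rounding process in abstract form: parameters, views of states, one step, the drift of a
function of the state, and the potentials of a client.
-/

namespace Vale.Agent.P334.Proc

open Finset

/-- The kernel with slope `K`, at distance `d` and level `v`. -/
noncomputable def ker (K d v : ℝ) : ℝ := max 0 (min 1 (K * (v - d) / v))

/-- The slope of the tangent line at `τ` of `3 - 2 (1 - exp (-τ)) / τ`. -/
noncomputable def pf (τ : ℝ) : ℝ := 2 * (1 - (1 + τ) * Real.exp (-τ)) / τ ^ 2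

/-- The value at `0` of this tangent line. -/
noncomputable def qf (τ : ℝ) : ℝ := 3 - 2 * Real.exp (-τ) - 2 * pf τ * τ

/-- The static inequality behind the main potential. -/
def Static (p q τ : ℝ) : Prop :=
  ∀ (I : Finset ℕ) (ν x v : ℕ → ℝ) (a G b : ℝ), (∀ i ∈ I, 0 ≤ ν i) → a = ∑ i ∈ I, ν i → a ≤ 1 →
    (∀ i ∈ I, 0 < x i) → G = ∑ i ∈ I, ν i * x i → 0 ≤ b → (∀ i ∈ I, 0 < v i) →
    (∀ i ∈ I, v i ≤ b + x i) →
    ∃ F : ℕ → ℝ,
      (∀ i ∈ I, -(2 * x i + G) ≤ F i ∧ F i ≤ 2 * (v i + x i + G)) ∧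
      (∀ (J : ℕ → ℝ) (β : ℝ), (∀ i ∈ I, 0 ≤ J i ∧ J i ≤ 1) → 0 ≤ β →
        (∀ i ∈ I, 0 < J i → b - x i - v i + p * v i * J i / 2 ≤ β) →
        ∑ i ∈ I, ν i * J i * (b - p * G - (q + p * a) * x i) +
          p * (∑ i ∈ I, ν i * J i) * (∑ i ∈ I, ν i * J i * x i) -
          (1 - a + ∑ i ∈ I, ν i * J i) * β ≤ ∑ i ∈ I, ν i * J i * F i) ∧
      (∀ i ∈ I, b - x i ≤ v i → b - p * G - (q + p * a) * x i ≤ F i) ∧
      (∀ J : ℕ → ℕ → ℝ,
        (∀ i ∈ I, ∀ c ∈ I, ker (2 / p) (x i + x c) (v i) ≤ J i c ∧ J i c ≤ 1) →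
        ∑ i ∈ I, ν i * F i * (1 - ∑ c ∈ I, ν c * J i c) -
          ∑ i ∈ I, ∑ c ∈ I, ν i * ν c * (1 - J i c) * max 0 (x c - (q + p * a) * x i) ≤
          a * (1 - a) * b + G * (3 * a - q - 2 * p * a + p * (a - τ) ^ 2))

/-- The change of the tangent line when the clock advances by `κ` (it stops at `T`). -/
def Tick (ε T κ : ℝ) : Prop :=
  ∀ θ a : ℝ, 0 ≤ θ → θ ≤ T → 0 ≤ a → a ≤ 1 →
    (qf (Real.exp (-min (θ + κ) T)) + pf (Real.exp (-min (θ + κ) T)) * a) -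
      (qf (Real.exp (-θ)) + pf (Real.exp (-θ)) * a) ≤
      κ * (2 * (pf (Real.exp (-θ)) - Real.exp (-Real.exp (-θ))) * (a - Real.exp (-θ)) + ε)

/-- The parameters of a run. -/
structure Par where
  /-- the facilities -/
  I : Finset ℕ
  /-- the distances -/
  d : ℕ → ℕ → ℝ
  /-- the step of the grid of levels, a lower bound for the distances -/
  g : ℝ
  /-- an upper bound for the distances -/
  U : ℝ
  /-- an upper bound for the number of facilities and for the total mass -/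
  n : ℝ
  /-- the bias -/
  η : ℝ
  /-- the cap for the killed mass -/
  L : ℝ
  /-- the time step -/
  h : ℝ
  /-- the error of kernels and budgets -/
  δ : ℝ
  /-- the rounding error of masses -/
  ξ : ℝ
  /-- the error of the slope and of the clock -/
  ε : ℝ
  /-- the time at which the clock stops -/
  T : ℝ

/-- Conditions on the parameters. -/
structure Par.OK (P : Par) : Prop where
  comm : ∀ a b, P.d a b = P.d b a
  tri : ∀ a b c, P.d a c ≤ P.d a b + P.d b c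
  g_pos : 0 < P.g
  g_le : ∀ a b, P.g ≤ P.d a b
  le_U : ∀ a b, P.d a b ≤ P.U
  one_le_n : 1 ≤ P.n
  card_le : (P.I.card : ℝ) ≤ P.n
  η_pos : 0 < P.η
  η_le : P.η ≤ 1 / 10
  L_ge : 1 + 2 / P.η ≤ P.L
  h_pos : 0 < P.h
  h_le : 4 * P.n ^ 2 * P.h ≤ 1
  δ_nonneg : 0 ≤ P.δ
  δ_le : P.δ ≤ 1
  ξ_nonneg : 0 ≤ P.ξ
  ξ_le : P.n * P.ξ ≤ 1
  ε_nonneg : 0 ≤ P.ε
  ε_le : P.ε ≤ 1
  tick : Tick P.ε P.T (4 * P.h)

/-- What the analysis sees of a state. -/
structure View where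
  /-- the masses -/
  y : ℕ → ℝ
  /-- the distances to the open facilities -/
  D : ℕ → ℝ
  /-- the levels at which the budget is reached -/
  lev : ℕ → ℝ
  /-- the rounded kernel -/
  J : ℕ → ℕ → ℝ
  /-- the slope -/
  K : ℝ
  /-- the clock -/
  θ : ℝ
  /-- the number of openings -/
  cnt : ℕ

namespace View

variable (P : Par) (V : View)

/-- The radius of `i`. -/
noncomputable def v (i : ℕ) : ℝ := min (V.D i) (V.lev i)

/-- The budget of `i`. -/
noncomputable def B (i : ℕ) : ℝ := ∑ c ∈ P.I, V.y c * V.J i c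

/-- The rate of decay of `i`. -/
noncomputable def sg (i : ℕ) : ℝ := max 0 (1 - V.B P i)

/-- The mass killed by `c`, before capping. -/
noncomputable def kc (c : ℕ) : ℝ := ∑ i ∈ P.I, V.y i * V.J i c

/-- The capping factor. -/
noncomputable def bc (c : ℕ) : ℝ := max 1 (V.kc P c / P.L)

/-- The bias of `c`. -/
noncomputable def ac (c : ℕ) : ℝ := min 1 (V.kc P c - 1)

/-- The rate at which `c` opens. -/
noncomputable def rt (c : ℕ) : ℝ := V.y c * V.bc P c * (1 + P.η * V.ac P c)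

/-- The total mass. -/
noncomputable def mass : ℝ := ∑ i ∈ P.I, V.y i

/-- The mean distance of the killers of `i`. -/
noncomputable def rho (i : ℕ) : ℝ := ∑ c ∈ P.I, V.y c * V.J i c * P.d i c

/-- Conditions on views. -/
structure OK : Prop where
  y_nonneg : ∀ i, 0 ≤ V.y i
  mass_le : V.mass P ≤ P.n
  D_tri : ∀ a b, V.D a ≤ P.d a b + V.D b
  D_pos : ∀ a, 0 < V.D a
  D_le : ∀ a, V.D a ≤ P.U
  lev_pos : ∀ i, 0 < V.lev i
  two_le_K : 2 ≤ V.K
  K_le_four : V.K ≤ 4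
  θ_nonneg : 0 ≤ V.θ
  θ_le : V.θ ≤ P.T
  K_le : V.K ≤ 2 / pf (Real.exp (-V.θ))
  K_ge : 2 / pf (Real.exp (-V.θ)) - P.ε ≤ V.K
  J_nonneg : ∀ i c, 0 ≤ V.J i c
  J_le : ∀ i c, V.J i c ≤ ker V.K (P.d i c) (V.v i)
  J_ge : ∀ i c, ker V.K (P.d i c) (V.v i) - P.δ ≤ V.J i c
  J_one : ∀ i c, 2 * P.d i c ≤ V.v i → V.J i c = 1
  B_ge : ∀ i, V.v i < V.D i → 1 ≤ V.B P i
  B_le : ∀ i, V.B P i ≤ 1 + P.δ
  lev_le : ∀ i w, 1 ≤ ∑ c ∈ P.I with P.d i c ≤ w, V.y c → V.lev i ≤ 2 * w + P.g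

end View

/-- `V'` arises from `V` by killing the fractions `f` of the masses. -/
structure Next (P : Par) (V : View) (f : ℕ → ℝ) (V' : View) : Prop where
  lo : ∀ i ∈ P.I, V.y i * (1 - f i) ≤ V'.y i
  hi : ∀ i ∈ P.I, V'.y i ≤ V.y i * (1 - f i) + P.ξ
  le : ∀ i, V'.y i ≤ V.y i
  D_le : ∀ a, V'.D a ≤ V.D a
  lev_le : ∀ i, V.lev i ≤ V'.lev i
  J_le : ∀ i, V'.v i ≤ V.v i → ∀ c, V'.J i c ≤ V.J i c

/-- The successors of `V`: decay `Vd`, tick of the clock `Vt`, opening `Vr c` of `c`. -/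
structure Step (P : Par) (V Vd Vt : View) (Vr : ℕ → View) : Prop where
  ok : V.OK P
  okd : Vd.OK P
  okt : Vt.OK P
  okr : ∀ c ∈ P.I, (Vr c).OK P
  nd : Next P V (fun i => 4 * P.h * V.sg P i) Vd
  θd : Vd.θ = V.θ
  cntd : Vd.cnt = V.cnt
  nt : Next P V (fun _ => 0) Vt
  θt : Vt.θ = min (V.θ + 4 * P.h) P.T
  cntt : Vt.cnt = V.cnt
  nr : ∀ c ∈ P.I, Next P V (fun i => V.J i c / V.bc P c) (Vr c)
  Dr : ∀ c ∈ P.I, ∀ a, (Vr c).D a ≤ P.d a c
  θr : ∀ c ∈ P.I, (Vr c).θ = V.θ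
  cntr : ∀ c ∈ P.I, (Vr c).cnt = V.cnt + 1

/-- The expected change of `Ψ` in one step. -/
noncomputable def drift (P : Par) (V Vd Vt : View) (Vr : ℕ → View) (Ψ : View → ℝ) : ℝ :=
  (Ψ Vd - Ψ V) / 4 + (Ψ Vt - Ψ V) / 4 + P.h * ∑ c ∈ P.I, V.rt P c * (Ψ (Vr c) - Ψ V)

/-- The data of a client. -/
structure Client where
  /-- the client -/
  j : ℕ
  /-- its shares of the masses -/
  lam : ℕ → ℝ
  /-- the initial masses -/
  y0 : ℕ → ℝ
  /-- the least radius with initial mass at least one -/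
  R : ℝ

namespace Client

variable (P : Par) (C : Client)

/-- Conditions on clients. -/
structure OK : Prop where
  lam_nonneg : ∀ i, 0 ≤ C.lam i
  lam_le : ∀ i, C.lam i ≤ 1
  y0_nonneg : ∀ i, 0 ≤ C.y0 i
  sum_eq : ∑ i ∈ P.I, C.lam i * C.y0 i = 1
  supp : ∀ i ∈ P.I, C.lam i ≠ 0 → P.d C.j i ≤ C.R
  R_le : ∀ w, 1 ≤ ∑ c ∈ P.I with P.d C.j c ≤ w, C.y0 c → C.R ≤ w

/-- The invariant. -/
def Inv (V : View) : Prop :=
  (∀ i, V.y i ≤ C.y0 i) ∧
    (V.D C.j ≤ 6 * C.R ∨ ∀ c ∈ P.I, P.d C.j c ≤ C.R → V.y c = C.y0 c)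

/-- The living assignment. -/
noncomputable def x (V : View) (i : ℕ) : ℝ := C.lam i * V.y i

/-- Its mass. -/
noncomputable def A (V : View) : ℝ := ∑ i ∈ P.I, C.x V i

/-- Its cost. -/
noncomputable def G (V : View) : ℝ := ∑ i ∈ P.I, C.x V i * P.d C.j i

/-- The initial cost. -/
noncomputable def G0 : ℝ := ∑ i ∈ P.I, C.lam i * C.y0 i * P.d C.j i

/-- The bilinear potential of the measure `ν`. -/
noncomputable def Phi0 (θ b : ℝ) (ν : ℕ → ℝ) : ℝ :=
  (1 - ∑ i ∈ P.I, ν i) * b +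
    (qf (Real.exp (-θ)) + pf (Real.exp (-θ)) * ∑ i ∈ P.I, ν i) * ∑ i ∈ P.I, ν i * P.d C.j i

/-- The main potential. -/
noncomputable def Phi (V : View) : ℝ :=
  sInf {r | ∃ ν : ℕ → ℝ, (∀ i ∈ P.I, 0 ≤ ν i ∧ ν i ≤ C.x V i) ∧ r = C.Phi0 P V.θ (V.D C.j) ν}

/-- The potential which pays for slowing down. -/
noncomputable def H (V : View) : ℝ := C.A P V * (1 - C.A P V) * V.D C.j

open Classical in
/-- The potential of one facility. -/
noncomputable def hh (V : View) (i : ℕ) : ℝ :=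
  if V.v i = V.D i then V.rho P i
  else 14 * C.R * (1 - C.A P V) + 1400 * (P.d C.j i + C.G0 P) + 200 * P.δ * P.U

/-- The potential which pays for speeding up. -/
noncomputable def W (V : View) : ℝ := ∑ i ∈ P.I, C.lam i * C.y0 i * C.hh P V i

/-- The cost of speeding up. -/
noncomputable def Q (V : View) : ℝ := ∑ i ∈ P.I, C.lam i * C.y0 i * V.rho P i

/-- The total potential. -/
noncomputable def Psi (V : View) : ℝ :=
  C.Phi P V + P.η * (2 * C.H P V + 6 * C.W P V) + 200 * (P.η + P.ε) * C.G P V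

end Client

/-- The exponential potential for the number of openings. -/
noncomputable def Zed (P : Par) (V : View) : ℝ :=
  Real.exp (P.η / (4 * P.L) * (V.cnt + V.mass P))

end Vale.Agent.P334.Proc
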