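import Vale.Agent.P334.PQ
import Vale.Agent.P334.Proc

/-!
Bounds for `pf`, `qf`, the tick of the clock, and the table of slopes.
-/

namespace Vale.Agent.P334.Proc

open Real

theorem pf_eq : pf = pp := rfl

theorem qf_eq : qf = qq := rfl

theorem half_le_pf {τ : ℝ} (h0 : 0 < τ) (h1 : τ ≤ 1) : 1 / 2 ≤ pf τ := half_le_pp h0 h1

theorem pf_le_one {τ : ℝ} (h0 : 0 < τ) (h1 : τ ≤ 1) : pf τ ≤ 1 := pp_le_one h0 h1

theorem one_le_qf {τ : ℝ} (h0 : 0 < τ) (h1 : τ ≤ 1) : 1 ≤ qf τ := one_le_qq h0 h1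

theorem qf_add_pf_le' {τ : ℝ} (h0 : 0 < τ) (h1 : τ ≤ 1) : qf τ + pf τ + pf τ * τ / 2 ≤ 2 :=
  pq_le_two h0 h1

theorem qf_add_pf_le {τ : ℝ} (h0 : 0 < τ) (h1 : τ ≤ 1) : qf τ + pf τ ≤ 2 := by
  have h := qf_add_pf_le' h0 h1
  have h2 := half_le_pf h0 h1
  have : 0 ≤ pf τ * τ := mul_nonneg (by linarith) h0.le
  linarith

theorem exp_le_pf {τ : ℝ} (h0 : 0 < τ) : exp (-τ) ≤ pf τ := exp_le_pp h0

theorem pf_le_exp_add {τ : ℝ} (h0 : 0 < τ) (h1 : τ ≤ 1) : pf τ ≤ exp (-τ) + τ :=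
  pp_le_exp_add h0 h1

theorem qf_add_pf_one : qf 1 + pf 1 = 1 + 2 / exp 1 := qq_add_pp_one

theorem pf_drift_eq {τ : ℝ} (h0 : 0 < τ) (a : ℝ) :
    2 * (pf τ - exp (-τ)) * (a - τ) =
      qf τ - 1 - pf τ * τ ^ 2 + a * (qf τ + 2 * pf τ - 3 + 2 * pf τ * τ) := drift_eq h0 a

theorem tick_exists {ε : ℝ} (hε : 0 < ε) :
    ∃ (T : ℕ) (κ0 : ℝ), 0 < κ0 ∧ ∀ κ, 0 < κ → κ ≤ κ0 → Tick ε T κ := by
  obtain ⟨T, hT⟩ := exists_nat_ge (4 / ε)
  refine ⟨T, min (1 / 2) (ε / 68), lt_min (by norm_num) (by positivity), ?_⟩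
  intro κ hκ hκ0 θ a hθ hθT ha ha1
  have hκ1 : κ ≤ 1 / 2 := hκ0.trans (min_le_left _ _)
  have hκ2 : κ ≤ ε / 68 := hκ0.trans (min_le_right _ _)
  have h0 := exp_pos (-θ)
  have h1 : exp (-θ) ≤ 1 := exp_le_one_iff.mpr (by linarith)
  have hw0 : 0 ≤ pf (exp (-θ)) - exp (-exp (-θ)) := by linarith [exp_le_pf h0]
  have hw1 : pf (exp (-θ)) - exp (-exp (-θ)) ≤ 1 := by
    linarith [pf_le_one h0 h1, exp_pos (-exp (-θ))]
  rcases le_total (θ + κ) T with hc | hc
  · rw [min_eq_left hc]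
    have := pq_tick hθ hκ.le hκ1 ha ha1
    rw [pf_eq, qf_eq]
    nlinarith
  · rw [min_eq_right hc]
    have hh : 0 ≤ (T : ℝ) - θ := by linarith
    have hh1 : (T : ℝ) - θ ≤ κ := by linarith
    have := pq_tick hθ hh (hh1.trans hκ1) ha ha1
    rw [show θ + ((T : ℝ) - θ) = T by ring] at this
    rw [pf_eq] at hw0 hw1
    rw [pf_eq, qf_eq]
    have hτ : exp (-θ) ≤ ε / 4 := by
      have e1 : (T : ℝ) ≤ exp θ := by linarith [Real.add_one_le_exp θ]
      have e2 : exp (-θ) * exp θ = 1 := by rw [← exp_add]; simp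
      have e3 : 4 ≤ ε * exp θ := by
        rw [div_le_iff₀ hε] at hT
        nlinarith
      nlinarith [exp_pos θ]
    set w := pp (exp (-θ)) - exp (-exp (-θ))
    set τ := exp (-θ)
    set h := (T : ℝ) - θ
    have b1 : w * (τ - a) ≤ ε / 4 := by nlinarith
    have b2 : (κ - h) * (w * (τ - a)) ≤ κ * (ε / 4) := by nlinarith
    have b3 : h ^ 2 ≤ κ * (ε / 68) := by nlinarith
    nlinarith

theorem slope_exists {ε : ℝ} (hε : 0 < ε) :
    ∃ (m : ℕ) (tab : ℕ → ℕ), 0 < m ∧ Antitone tab ∧ (∀ s, 2 * m ≤ tab s ∧ tab s ≤ 4 * m) ∧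
      ∀ θ : ℝ, 0 ≤ θ → (tab ⌊θ * m⌋₊ : ℝ) / m ≤ 2 / pf (exp (-θ)) ∧
        2 / pf (exp (-θ)) - ε ≤ (tab ⌊θ * m⌋₊ : ℝ) / m := by
  obtain ⟨m, hm⟩ := exists_nat_gt (17 / ε)
  have hm0 : (0 : ℝ) < m := lt_trans (by positivity) hm
  have hτ : ∀ s : ℕ, 0 < exp (-(((s : ℝ) + 1) / m)) ∧ exp (-(((s : ℝ) + 1) / m)) ≤ 1 := fun s =>
    ⟨exp_pos _, exp_le_one_iff.mpr (by have : 0 ≤ ((s : ℝ) + 1) / m := by positivity
                                       linarith)⟩
  refine ⟨m, fun s => ⌊(m : ℝ) * (2 / pf (exp (-(((s : ℝ) + 1) / m))))⌋₊, by exact_mod_cast hm0,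
    ?_, ?_, ?_⟩
  · intro s t hst
    refine Nat.floor_le_floor (mul_le_mul_of_nonneg_left ?_ hm0.le)
    have hp := half_le_pf (hτ s).1 (hτ s).2
    refine div_le_div_of_nonneg_left (by norm_num) (by linarith) ?_
    refine pp_anti (hτ t).1 (exp_le_exp.mpr (neg_le_neg ?_))
    have : (s : ℝ) ≤ t := by exact_mod_cast hst
    exact div_le_div_of_nonneg_right (by linarith) hm0.le
  · intro s
    have hp := half_le_pf (hτ s).1 (hτ s).2
    have hp1 := pf_le_one (hτ s).1 (hτ s).2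
    constructor
    · refine Nat.le_floor ?_
      have : 2 ≤ 2 / pf (exp (-(((s : ℝ) + 1) / m))) := by
        rw [le_div_iff₀ (by linarith)]; linarith
      push_cast
      nlinarith
    · refine Nat.floor_le_of_le ?_
      have : 2 / pf (exp (-(((s : ℝ) + 1) / m))) ≤ 4 := by
        rw [div_le_iff₀ (by linarith)]; linarith
      push_cast
      nlinarith
  · intro θ hθ
    set s := ⌊θ * m⌋₊ with hs
    have hs1 : (s : ℝ) ≤ θ * m := Nat.floor_le (by positivity)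
    have hs2 : θ * m < s + 1 := Nat.lt_floor_add_one _
    have ht1 : θ ≤ ((s : ℝ) + 1) / m := by rw [le_div_iff₀ hm0]; linarith
    have ht2 : ((s : ℝ) + 1) / m ≤ θ + 1 / m := by
      rw [div_le_iff₀ hm0, add_mul, one_div, inv_mul_cancel₀ hm0.ne']; linarith
    have h0 := exp_pos (-θ)
    have h1 : exp (-θ) ≤ 1 := exp_le_one_iff.mpr (by linarith)
    have hle : exp (-(((s : ℝ) + 1) / m)) ≤ exp (-θ) := exp_le_exp.mpr (by linarith)
    have hge : exp (-θ) - 1 / m ≤ exp (-(((s : ℝ) + 1) / m)) := by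
      have e1 : exp (-(θ + 1 / m)) ≤ exp (-(((s : ℝ) + 1) / m)) := exp_le_exp.mpr (by linarith)
      have e2 : exp (-(θ + 1 / m)) = exp (-θ) * exp (-(1 / m)) := by rw [neg_add, exp_add]
      have e3 := Real.add_one_le_exp (-(1 / (m : ℝ)))
      have e4 : (0 : ℝ) ≤ 1 / m := by positivity
      nlinarith
    have hp := half_le_pf h0 h1
    have hp' := half_le_pf (hτ s).1 (hτ s).2
    have ha : pf (exp (-θ)) ≤ pf (exp (-(((s : ℝ) + 1) / m))) := pp_anti (hτ s).1 hle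
    have hl : pf (exp (-(((s : ℝ) + 1) / m))) ≤
        pf (exp (-θ)) + 2 * (exp (-θ) - exp (-(((s : ℝ) + 1) / m))) := pp_lip (hτ s).1 hle h1
    set p := pf (exp (-θ))
    set p' := pf (exp (-(((s : ℝ) + 1) / m)))
    have hK0 : 0 ≤ (m : ℝ) * (2 / p') := by have : 0 < p' := by linarith
                                            positivity
    constructor
    · rw [div_le_iff₀ hm0]
      refine (Nat.floor_le hK0).trans ?_
      rw [mul_comm]
      exact mul_le_mul_of_nonneg_right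
        (div_le_div_of_nonneg_left (by norm_num) (by linarith) ha) hm0.le
    · rw [le_div_iff₀ hm0]
      have f1 := Nat.lt_floor_add_one ((m : ℝ) * (2 / p'))
      have f2 : 2 / p ≤ 2 / p' + 16 / m := by
        have g1 : p' - p ≤ 2 / m := by
          have : (2 : ℝ) / m = 2 * (1 / m) := by ring
          linarith
        have g2 : 2 / p - 2 / p' = 2 * (p' - p) / (p * p') := by
          have : p ≠ 0 := by linarith
          have : p' ≠ 0 := by linarith
          field_simp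
        have g3 : 1 / 4 ≤ p * p' := by nlinarith
        have g4 : 2 * (p' - p) / (p * p') ≤ 16 / m := by
          rw [div_le_iff₀ (by linarith)]
          have : (16 : ℝ) / m = 8 * (2 / m) := by ring
          have : (0 : ℝ) ≤ 2 / m := by positivity
          nlinarith
        linarith
      have f3 : 17 < ε * m := by rw [div_lt_iff₀ hε] at hm; linarith
      have f4 : (2 / p' + 16 / m) * m = m * (2 / p') + 16 := by field_simp
      nlinarith [mul_le_mul_of_nonneg_right f2 hm0.le]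

end Vale.Agent.P334.Proc
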