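import Vale.Agent.P334.ProcBasic

/-!
The exponential potential for the number of openings is almost a supermartingale.
-/

namespace Vale.Agent.P334.Proc

open Finset

variable {P : Par} {V V' Vd Vt : View} {Vr : ℕ → View}

theorem exp_le_quad {u : ℝ} (h : |u| ≤ 1) : Real.exp u ≤ 1 + u + u ^ 2 := by
  have := (abs_le.1 (Real.abs_exp_sub_one_sub_id_le h)).2
  linarith

theorem Par.OK.s_mul (hP : P.OK) : P.η / (4 * P.L) * P.L = P.η / 4 := by
  have := hP.L_ge'
  field_simp

theorem Par.OK.s_pos (hP : P.OK) : 0 < P.η / (4 * P.L) :=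
  div_pos hP.η_pos (by linarith [hP.L_ge'])

theorem Par.OK.s_le (hP : P.OK) : P.η / (4 * P.L) ≤ P.η / 4 := by
  have h1 := hP.s_mul
  have h2 := hP.s_pos
  nlinarith [hP.L_ge']

/-- The change of the potential in one event. -/
theorem Zed_next (hP : P.OK) {f : ℕ → ℝ} (h : Next P V f V') {e u : ℝ}
    (hc : (V'.cnt : ℝ) = V.cnt + e) (hu : u = P.η / (4 * P.L) * (e - ∑ i ∈ P.I, V.y i * f i))
    (hu1 : |u| ≤ 1) :
    Zed P V' - Zed P V ≤ Zed P V * (u + u ^ 2) + Zed P V * (6 * P.n * P.ξ) := by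
  set s := P.η / (4 * P.L) with hs
  have hs0 : 0 < s := hP.s_pos
  have hs1 : s ≤ 1 := by linarith [hP.s_le, hP.η_le]
  have h1 : V'.mass P ≤ ∑ i ∈ P.I, (V.y i - V.y i * f i + P.ξ) :=
    sum_le_sum fun i hi => by linarith [h.hi i hi]
  rw [sum_add_distrib, sum_sub_distrib, sum_const, nsmul_eq_mul] at h1
  have h2 := mul_le_mul_of_nonneg_right hP.card_le hP.ξ_nonneg
  have hw0 : 0 ≤ P.n * P.ξ := mul_nonneg (by linarith [hP.one_le_n]) hP.ξ_nonneg
  have hw1 := hP.ξ_le
  have h3 : Zed P V' ≤ Zed P V * Real.exp u * Real.exp (P.n * P.ξ) := by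
    rw [Zed, Zed, ← Real.exp_add, ← Real.exp_add, ← hs]
    refine Real.exp_le_exp.2 ?_
    have h4 : V'.mass P ≤ V.mass P - ∑ i ∈ P.I, V.y i * f i + P.n * P.ξ := by
      rw [View.mass, View.mass] at *
      linarith
    have h5 := mul_le_mul_of_nonneg_left h4 hs0.le
    have h6 := mul_le_of_le_one_left hw0 hs1
    rw [hc, hu]
    nlinarith
  have h4 : Real.exp (P.n * P.ξ) ≤ 1 + 2 * (P.n * P.ξ) := by
    have := exp_le_quad (u := P.n * P.ξ) (by rw [abs_of_nonneg hw0]; exact hw1)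
    nlinarith
  have h5 := exp_le_quad hu1
  have h6 : 1 + u + u ^ 2 ≤ 3 := by
    obtain ⟨h7, h8⟩ := abs_le.1 hu1
    nlinarith
  have hZ : 0 < Zed P V := Real.exp_pos _
  have h7 : Real.exp u * Real.exp (P.n * P.ξ) ≤ (1 + u + u ^ 2) * (1 + 2 * (P.n * P.ξ)) :=
    mul_le_mul h5 h4 (Real.exp_pos _).le ((Real.exp_pos _).le.trans h5)
  have h8 : (1 + u + u ^ 2) * (1 + 2 * (P.n * P.ξ)) ≤ 1 + u + u ^ 2 + 6 * P.n * P.ξ := by
    nlinarith
  have h9 := mul_le_mul_of_nonneg_left (h7.trans h8) hZ.le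
  rw [mul_assoc] at h3
  linarith

theorem View.OK.z_bounds (hV : V.OK P) (hP : P.OK) (c : ℕ) :
    1 - P.L ≤ 1 - V.kc P c / V.bc P c ∧ 1 - V.kc P c / V.bc P c ≤ 1 := by
  have h0 := hV.kc_nonneg c
  have h1 := V.bc_pos (P := P) c
  have hL := hP.L_ge'
  refine ⟨sub_le_sub_left ?_ _, sub_le_self _ (div_nonneg h0 h1.le)⟩
  rw [div_le_iff₀ h1, mul_comm, ← div_le_iff₀ (by linarith)]
  exact le_max_right _ _

/-- The bias pays for the capping and for the variance. -/
theorem View.OK.ring_le (hV : V.OK P) (hP : P.OK) (c : ℕ) :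
    V.rt P c * ((1 - V.kc P c / V.bc P c) + P.η / (4 * P.L) * (1 - V.kc P c / V.bc P c) ^ 2) ≤
      V.y c * (1 - V.kc P c) := by
  set s := P.η / (4 * P.L) with hs
  have hs0 : 0 < s := hP.s_pos
  have hs1 : s * P.L = P.η / 4 := hP.s_mul
  have hs2 : s ≤ P.η / 4 := hP.s_le
  have hL := hP.L_ge'
  have hη := hP.η_pos
  have hη1 := hP.η_le
  have hk := hV.kc_nonneg c
  rw [View.rt, mul_assoc, mul_assoc]
  refine mul_le_mul_of_nonneg_left ?_ (hV.y_nonneg c)
  set k := V.kc P c with hkd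
  rcases le_total k P.L with h | h
  · have hb : V.bc P c = 1 := max_eq_left ((div_le_one (by linarith)).2 h)
    rw [hb, div_one, one_mul, View.ac, ← hkd]
    rcases le_total k 2 with h2 | h2
    · rw [min_eq_right (by linarith)]
      have h4 : 1 + P.η * (k - 1) ≤ 2 := by nlinarith
      have h3 : s * (1 + P.η * (k - 1)) ≤ P.η := by nlinarith
      nlinarith [mul_le_mul_of_nonneg_right h3 (sq_nonneg (k - 1))]
    · rw [min_eq_left (by linarith)]
      have h3 : s * (k - 1) ≤ P.η / 4 := by nlinarith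
      have h4 : (1 + P.η) * (s * (k - 1)) ≤ P.η := by nlinarith
      nlinarith [mul_le_mul_of_nonneg_right h4 (by linarith : 0 ≤ k - 1)]
  · have hb : V.bc P c = k / P.L := max_eq_right ((one_le_div (by linarith)).2 h)
    have hb1 : 1 ≤ V.bc P c := V.one_le_bc c
    have hk2 : k = V.bc P c * P.L := by rw [hb, div_mul_cancel₀ _ (by linarith)]
    have hz : k / V.bc P c = P.L := by
      rw [div_eq_iff (by linarith)]
      linarith
    have h2 : 2 ≤ P.η * (P.L - 1) := by
      have := hP.L_ge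
      rw [← le_sub_iff_add_le', div_le_iff₀ hη] at this
      linarith
    rw [hz, View.ac, ← hkd, min_eq_left (by linarith)]
    have h3 : (1 + P.η) * (s * (P.L - 1)) ≤ P.η / 2 := by nlinarith
    have h4 : (1 + P.η * 1) * (1 - P.L + s * (1 - P.L) ^ 2) ≤ -P.L := by
      nlinarith [mul_le_mul_of_nonneg_right h3 (by linarith : 0 ≤ P.L - 1)]
    have h5 := mul_le_mul_of_nonneg_left h4 (by linarith : 0 ≤ V.bc P c)
    linarith

theorem step_Zed (hP : P.OK) (st : Step P V Vd Vt Vr) :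
    drift P V Vd Vt Vr (Zed P) ≤ Zed P V * (4 * P.h ^ 2 * P.n ^ 2 + 6 * P.n * P.ξ) := by
  set s := P.η / (4 * P.L) with hs
  have hs0 : 0 < s := hP.s_pos
  have hs1 : s ≤ 1 := by linarith [hP.s_le, hP.η_le]
  have hZ : 0 < Zed P V := Real.exp_pos _
  have hn := hP.one_le_n
  have hh := hP.h_pos
  set m := ∑ i ∈ P.I, V.y i * V.sg P i with hm
  have hm0 : 0 ≤ m := sum_nonneg fun i _ => mul_nonneg (st.ok.y_nonneg i) (V.sg_nonneg i)
  have hm1 : m ≤ P.n := (sum_le_sum fun i _ =>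
    mul_le_of_le_one_right (st.ok.y_nonneg i) (st.ok.sg_le_one i)).trans st.ok.mass_le
  have hsm : s * m ≤ P.n := (mul_le_of_le_one_left hm0 hs1).trans hm1
  have hsm0 : 0 ≤ s * m := mul_nonneg hs0.le hm0
  have h4 : 4 * P.h * P.n ≤ 1 := by nlinarith [hP.h_le]
  have hd := Zed_next hP st.nd (e := 0) (u := -(4 * P.h * (s * m))) (by rw [st.cntd, add_zero])
    (by
      rw [show ∑ i ∈ P.I, V.y i * (4 * P.h * V.sg P i) = 4 * P.h * m by
        rw [hm, mul_sum]; exact sum_congr rfl fun i _ => by ring]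
      ring)
    (by
      rw [abs_neg, abs_of_nonneg (by positivity)]
      nlinarith)
  have ht := Zed_next hP st.nt (e := 0) (u := 0) (by rw [st.cntt, add_zero]) (by simp) (by simp)
  have hr : ∀ c ∈ P.I, Zed P (Vr c) - Zed P V ≤
      Zed P V * (s * ((1 - V.kc P c / V.bc P c) + s * (1 - V.kc P c / V.bc P c) ^ 2)) +
        Zed P V * (6 * P.n * P.ξ) := fun c hc => by
    have := Zed_next hP (st.nr c hc) (e := 1) (u := s * (1 - V.kc P c / V.bc P c))
      (by rw [st.cntr c hc]; push_cast; ring)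
      (by
        rw [View.kc, sum_div]
        congr 2
        exact sum_congr rfl fun i _ => by ring)
      (by
        obtain ⟨h1, h2⟩ := st.ok.z_bounds hP c
        have h3 := hP.s_mul
        rw [← hs] at h3
        rw [abs_le]
        constructor <;> nlinarith [hP.η_le])
    refine this.trans (le_of_eq ?_)
    ring
  have h1 := drift_le_err hP st.ok (mul_nonneg hZ.le
    (by have := hP.ξ_nonneg; positivity : 0 ≤ 6 * P.n * P.ξ)) hd ht hr
  have h2 : ∑ c ∈ P.I, V.rt P c * (Zed P V * (s * ((1 - V.kc P c / V.bc P c) +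
      s * (1 - V.kc P c / V.bc P c) ^ 2))) ≤ Zed P V * s * m := by
    have h5 : ∑ c ∈ P.I, V.y c * (1 - V.kc P c) ≤ m := by
      have h6 : ∑ c ∈ P.I, V.y c * V.kc P c = ∑ i ∈ P.I, V.y i * V.B P i := by
        simp only [View.kc, View.B, mul_sum]
        rw [sum_comm]
        exact sum_congr rfl fun i _ => sum_congr rfl fun c _ => by ring
      have h7 : ∑ c ∈ P.I, V.y c * (1 - V.kc P c) = ∑ i ∈ P.I, V.y i * (1 - V.B P i) := by
        simp only [mul_sub, sum_sub_distrib, h6]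
      rw [h7]
      exact sum_le_sum fun i _ => mul_le_mul_of_nonneg_left
        (by linarith [V.one_le_B_add_sg (P := P) i]) (st.ok.y_nonneg i)
    refine le_trans ?_ (mul_le_mul_of_nonneg_left h5 (mul_pos hZ hs0).le)
    rw [mul_sum]
    refine sum_le_sum fun c _ => ?_
    have := mul_le_mul_of_nonneg_left (st.ok.ring_le hP c) (mul_pos hZ hs0).le
    rw [← hs] at this
    linarith
  have h3 := mul_le_mul_of_nonneg_left h2 hh.le
  have h5 : (4 * P.h * (s * m)) ^ 2 ≤ (4 * P.h * P.n) ^ 2 :=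
    pow_le_pow_left₀ (by positivity) (mul_le_mul_of_nonneg_left hsm (by positivity)) 2
  have h6 := mul_le_mul_of_nonneg_left h5 hZ.le
  nlinarith

end Vale.Agent.P334.Proc
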