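import Vale.Agent.P334.AlgSpec
import Vale.Agent.P334.Chain
import Vale.Agent.P334.StepZ
import Vale.Agent.P334.PQ2

/-!
The choice of the parameters, and the pseudo-approximation algorithm.
-/

namespace Vale.Agent.P334

open Vale.Agent.Lib.PolyTime Vale.Agent.Lib.PTM Finset Proc

namespace Alg

/-- What is needed about the potential of the clients. -/
structure Facts : Prop where
  step : ∀ (P : Par) (C : Client) (V Vd Vt : View) (Vr : ℕ → View), P.OK → C.OK P →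
    Step P V Vd Vt Vr → C.Inv P V → drift P V Vd Vt Vr (C.Psi P) ≤
      30 * P.h * P.δ * P.U + 4 * P.h ^ 2 * P.U + 250 * P.n * P.U * P.ξ
  init : ∀ (P : Par) (C : Client) (V : View), P.OK → C.OK P → V.OK P → (∀ i, V.y i = C.y0 i) →
    V.θ = 0 → C.Psi P V ≤ (1 + 2 / Real.exp 1 + 17000 * (P.η + P.ε)) * C.G0 P + 120 * P.δ * P.U
  final : ∀ (P : Par) (C : Client) (V : View), P.OK → C.OK P → V.OK P → C.Inv P V →
    V.D C.j ≤ C.Psi P V + V.mass P * P.U ∧ 0 ≤ C.Psi P V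
  client : ∀ (P : Par) (y0 x : ℕ → ℝ) (j : ℕ), P.OK → (∀ i, 0 ≤ y0 i) →
    (∀ i ∈ P.I, 0 ≤ x i ∧ x i ≤ y0 i) → ∑ i ∈ P.I, x i = 1 →
    ∃ C : Client, C.OK P ∧ C.j = j ∧ C.y0 = y0 ∧ C.G0 P ≤ ∑ i ∈ P.I, x i * P.d j i

/-- The combined potential. -/
theorem core (hF : Facts) {c : Cfg} {tb : ℕ → ℕ} {n δ ε : ℝ} (hc : c.OK tb n δ ε) {b : ℕ}
    (hq : c.q = 2 ^ b) {P : Par} (hP : P = c.par n δ ε) (J : Finset ℕ) (C : ℕ → Client)
    (hC : ∀ j ∈ J, (C j).OK P) {s0 : St} (hs : c.SOK n s0)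
    (hI : ∀ j ∈ J, (C j).Inv P (c.view s0)) {a1 a2 a3 : ℝ} (h1 : 0 ≤ a1) (h2 : 0 ≤ a2)
    (h3 : 0 ≤ a3) (t m : ℕ) (hm : t * (b + 2) ≤ m) :
    1 - (a1 * ∑ j ∈ J, (C j).Psi P (c.view s0) +
      (a2 * (1 + (4 * P.h ^ 2 * P.n ^ 2 + 6 * P.n * P.ξ)) ^ t * Zed P (c.view s0) +
        a3 * (1 - P.h / 2) ^ t * (c.view s0).mass P) +
      t * (a1 * (J.card * (30 * P.h * P.δ * P.U + 4 * P.h ^ 2 * P.U + 250 * P.n * P.U * P.ξ)) +
        a3 * (P.n * P.ξ))) ≤
      frq m fun ρ => c.SOK n (run c.step (b + 2) t s0 ρ) ∧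
        (∀ j ∈ J, (C j).Inv P (c.view (run c.step (b + 2) t s0 ρ))) ∧
        a1 * ∑ j ∈ J, (C j).Psi P (c.view (run c.step (b + 2) t s0 ρ)) ≤ 1 ∧
        a2 * Zed P (c.view (run c.step (b + 2) t s0 ρ)) ≤ 1 ∧
        a3 * (c.view (run c.step (b + 2) t s0 ρ)).mass P ≤ 1 := by
  subst hP
  set P := c.par n δ ε with hP
  have hPo : P.OK := hc.pok
  set z := 4 * P.h ^ 2 * P.n ^ 2 + 6 * P.n * P.ξ with hz
  set e := 30 * P.h * P.δ * P.U + 4 * P.h ^ 2 * P.U + 250 * P.n * P.U * P.ξ with he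
  have hn := hPo.one_le_n
  have hξ := hPo.ξ_nonneg
  have hh := hPo.h_pos
  have hz0 : 0 ≤ z := by positivity
  have hh1 : 0 ≤ 1 - P.h / 2 := by linarith [hPo.four_h]
  have key : ∀ s, c.SOK n s ∧ (∀ j ∈ J, (C j).Inv P (c.view s)) →
      0 ≤ a1 * ∑ j ∈ J, (C j).Psi P (c.view s) ∧ 0 ≤ a2 * Zed P (c.view s) ∧
        0 ≤ a3 * (c.view s).mass P := fun s h =>
    ⟨mul_nonneg h1 (sum_nonneg fun j hj => (hF.final _ _ _ hPo (hC j hj) (hc.view_ok h.1)
      (h.2 j hj)).2), mul_nonneg h2 (Real.exp_pos _).le,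
      mul_nonneg h3 (hc.view_ok h.1).mass_nonneg⟩
  refine le_run_frq (Inv := fun s => c.SOK n s ∧ ∀ j ∈ J, (C j).Inv P (c.view s))
    (Gd := fun s => c.SOK n s ∧ (∀ j ∈ J, (C j).Inv P (c.view s)) ∧
      a1 * ∑ j ∈ J, (C j).Psi P (c.view s) ≤ 1 ∧ a2 * Zed P (c.view s) ≤ 1 ∧
        a3 * (c.view s).mass P ≤ 1)
    (Ψ := fun t s => a1 * ∑ j ∈ J, (C j).Psi P (c.view s) +
      (a2 * (1 + z) ^ t * Zed P (c.view s) + a3 * (1 - P.h / 2) ^ t * (c.view s).mass P) +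
      t * (a1 * (J.card * e) + a3 * (P.n * P.ξ))) (fun s h ω => ?_) (fun s h => ?_)
    (fun s h h' => ?_) (fun t s h => ?_) t hm ⟨hs, hI⟩
  · have st := hc.step h.1
    rcases Cfg.step_cases (c := c) s ω with e | e | ⟨x, hx, e⟩ | e <;> rw [e]
    · exact ⟨h.1.decay, fun j hj => (hC j hj).inv_d hPo st (h.2 j hj)⟩
    · exact ⟨h.1.tick, fun j hj => (hC j hj).inv_t hPo st (h.2 j hj)⟩
    · exact ⟨h.1.ring hx, fun j hj =>
        (hC j hj).inv_r hPo st (h.2 j hj) (List.mem_toFinset.2 hx)⟩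
    · exact h
  · obtain ⟨k1, k2, k3⟩ := key s h
    simp only [pow_zero, mul_one, Nat.cast_zero, zero_mul, add_zero]
    linarith
  · obtain ⟨k1, k2, k3⟩ := key s h
    simp only [pow_zero, mul_one, Nat.cast_zero, zero_mul, add_zero] at h'
    exact ⟨h.1, h.2, by linarith, by linarith, by linarith⟩
  · have st := hc.step h.1
    have e1 := hc.avg h.1 fun V => a1 * ∑ j ∈ J, (C j).Psi P V +
      (a2 * (1 + z) ^ t * Zed P V + a3 * (1 - P.h / 2) ^ t * V.mass P) +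
      t * (a1 * (J.card * e) + a3 * (P.n * P.ξ))
    rw [drift_add, drift_add, drift_add, drift_mul, drift_mul, drift_mul, drift_const,
      drift_sum J fun j => (C j).Psi P, show 4 * c.q = 2 ^ (b + 2) by rw [hq]; ring,
      Nat.cast_pow, Nat.cast_ofNat] at e1
    rw [e1]
    have d1 := mul_le_mul_of_nonneg_left (sum_le_sum fun j hj =>
      hF.step _ _ _ _ _ _ hPo (hC j hj) st (h.2 j hj)) h1
    have d2 := mul_le_mul_of_nonneg_left (step_Zed hPo st)
      (show 0 ≤ a2 * (1 + z) ^ t by positivity)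
    have d3 := mul_le_mul_of_nonneg_left (step_mass hPo st)
      (show 0 ≤ a3 * (1 - P.h / 2) ^ t by positivity)
    have d4 : a3 * (1 - P.h / 2) ^ t * (P.n * P.ξ) ≤ a3 * 1 * (P.n * P.ξ) :=
      mul_le_mul_of_nonneg_right (mul_le_mul_of_nonneg_left
        (pow_le_one₀ hh1 (by linarith)) h3) (by positivity)
    rw [sum_const, nsmul_eq_mul, ← he] at d1
    rw [← hz] at d2
    push_cast
    rw [pow_succ (1 + z), pow_succ (1 - P.h / 2)]
    rw [mul_add] at d3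
    linarith

/-! ### The parameters -/

/-- An upper bound for the numbers of facilities and clients. -/
def nn (x : Inp) : ℕ := x.2.2.1.length + x.2.1.length + 2

/-- The inner scale. -/
def pW (E : ℕ) (x : Inp) : ℕ := E * nn x ^ 2

/-- The ratio between the largest and the least distance, times the number of clients. -/
def pR (E : ℕ) (x : Inp) : ℕ := nn x * (pW E x + 1)

/-- The duration. -/
def pT (E : ℕ) (x : Inp) : ℕ := 2 * E * nn x * pR E x

/-- The inverse of the time step. -/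
def pH (E A : ℕ) (x : Inp) : ℕ := 6 * A * pT E x * pR E x

/-- The number of steps. -/
def pS (E A : ℕ) (x : Inp) : ℕ := 8 * pH E A x * pT E x

/-- The refinement of the grid of masses. -/
def pG (E A : ℕ) (x : Inp) : ℕ := 750 * E * nn x * pS E A x * pR E x

/-- The denominator. -/
def pN (E A : ℕ) (x : Inp) : ℕ := (LP.lp E x).2 * pG E A x

/-- The number of coins for one step, minus two. -/
def pB (E A : ℕ) (x : Inp) : ℕ := Nat.size (pN E A x ^ 5 * (1 + 2 * E) * E * pH E A x)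

/-- The static data. -/
def cfg (E A m T : ℕ) (tab : List ℕ) (x : Inp) : Cfg where
  D := x.1
  F := x.2.2.1
  N := pN E A x
  M := 4860 * pT E x * nn x * pR E x
  Ms := 4860 * pT E x * nn x * pR E x
  W := pW E x
  u := max x.2.2.2.2 1
  L := 1 + 2 * E
  E := E
  m := m
  T := T
  q := 2 ^ pB E A x
  Λ := 2 * nn x ^ 2 * (pN E A x ^ 5 * (1 + 2 * E) * E)
  tab := tab

/-- The initial state. -/
def start (E A : ℕ) (x : Inp) : St :=
  ((List.range x.1.length).map fun i => (LP.lp E x).1.getD i 0 * pG E A x, [x.2.2.1.headD 0], 0)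

/-- The algorithm. -/
def alg (E A m T : ℕ) (tab : List ℕ) (p : Inp × Raw) : List ℕ :=
  (run (cfg E A m T tab p.1).step (pB E A p.1 + 2) (pS E A p.1) (start E A p.1) p.2.w).2.1

section pt

variable (E A : ℕ)

theorem pt_nn : PT ∅ nn := (PT.snd'.snd.fst.length.add PT.snd'.fst.length).add (PT.const 2)

theorem pbd_nn : PBd nn :=
  ((PBd.length (A := ∅) PT.snd'.snd.fst).add (PBd.length (A := ∅) PT.snd'.fst)).add (PBd.const 2)

theorem pt_pW : PT ∅ (pW E) := (PT.const E).mul (pt_nn.powConst 2)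

theorem pbd_pW : PBd (pW E) := (PBd.const E).mul (pbd_nn.pow 2)

theorem pt_pR : PT ∅ (pR E) := pt_nn.mul ((pt_pW E).add (PT.const 1))

theorem pbd_pR : PBd (pR E) := pbd_nn.mul ((pbd_pW E).add (PBd.const 1))

theorem pt_pT : PT ∅ (pT E) := ((PT.const (2 * E)).mul pt_nn).mul (pt_pR E)

theorem pbd_pT : PBd (pT E) := ((PBd.const (2 * E)).mul pbd_nn).mul (pbd_pR E)

theorem pt_pH : PT ∅ (pH E A) := ((PT.const (6 * A)).mul (pt_pT E)).mul (pt_pR E)

theorem pbd_pH : PBd (pH E A) := ((PBd.const (6 * A)).mul (pbd_pT E)).mul (pbd_pR E)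

theorem pt_pS : PT ∅ (pS E A) := ((PT.const 8).mul (pt_pH E A)).mul (pt_pT E)

theorem pbd_pS : PBd (pS E A) := ((PBd.const 8).mul (pbd_pH E A)).mul (pbd_pT E)

theorem pt_pG : PT ∅ (pG E A) :=
  (((PT.const (750 * E)).mul pt_nn).mul (pt_pS E A)).mul (pt_pR E)

theorem pt_pN : PT ∅ (pN E A) := (LP.pt_lp E).snd.mul (pt_pG E A)

theorem pt_pC : PT ∅ fun x => pN E A x ^ 5 * (1 + 2 * E) * E :=
  (((pt_pN E A).powConst 5).mul (PT.const _)).mul (PT.const E)

theorem pt_pB : PT ∅ (pB E A) := ((pt_pC E A).mul (pt_pH E A)).natSize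

theorem pbd_pB : PBd (pB E A) :=
  ((pt_pC E A).mul (pt_pH E A)).pbd.mono fun _ => (esize_nat _).ge

theorem cpt_cfg (m T : ℕ) (tab : List ℕ) : CPT (cfg E A m T tab) := by
  have hM : PT ∅ fun x => 4860 * pT E x * nn x * pR E x :=
    (((PT.const 4860).mul (pt_pT E)).mul pt_nn).mul (pt_pR E)
  exact ⟨PT.fst', PT.snd'.snd.fst, pt_pN E A, hM, hM, pt_pW E,
    PT.max PT.snd'.snd.snd.snd (PT.const 1), PT.const _, PT.const _, PT.const _, PT.const _,
    (PT.const 2).pow (pt_pB E A) (pbd_pB E A),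
    ((PT.const 2).mul (pt_nn.powConst 2)).mul (pt_pC E A), PT.const _,
    (((PBd.const 4860).mul (pbd_pT E)).mul pbd_nn).mul (pbd_pR E), pbd_pW E⟩

theorem pt_start : PT ∅ (start E A) :=
  (PT.map LP.pt_range ((PT.getD ((LP.pt_lp E).comp PT.fst').fst PT.snd' (PT.const 0)).mul
    ((pt_pG E A).comp PT.fst'))).pair
      (((PT.snd'.snd.fst.headD (PT.const 0)).cons PT.nil).pair (PT.const 0))

theorem start_le (x : Inp) (i : ℕ) : (start E A x).1.getD i 0 ≤ pN E A x :=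
  (LP.getD_map_range_le _ _ i).trans (Nat.mul_le_mul_right _
    ((LP.getD_map_range_le _ _ i).trans (min_le_right _ _)))

theorem pt_alg (m T : ℕ) (tab : List ℕ) : PT ∅ (alg E A m T tab) :=
  (pt_run (cpt_cfg E A m T tab).fst (((pt_pB E A).comp PT.fst').add (PT.const 2))
    ((pt_pS E A).comp PT.fst') ((pbd_pS E A).comp (A := ∅) PT.fst')
    ((pt_start E A).comp PT.fst') (PT.listOfRaw PT.snd') ((pt_pN E A).comp PT.fst')
    (fun p => by simp [start, cfg]) fun p i => start_le E A p.1 i).snd.fst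

end pt

theorem arith0 {E A n W R t H : ℝ} (hE : 1 ≤ E) (hA : 1 ≤ A) (hn : 1 ≤ n)
    (hW : W = E * n ^ 2) (hR : R = n * (W + 1)) (ht : t = 2 * E * n * R) (hH : H = 6 * A * t * R) :
    n ^ 3 ≤ R ∧ n ^ 2 ≤ R ∧ 1 ≤ R ∧ 1 ≤ t ∧ 6 * (t * R) ≤ H ∧ A ≤ H := by
  have hn2 : 1 ≤ n ^ 2 := one_le_pow₀ hn
  have hW1 : n ^ 2 ≤ W := by nlinarith
  have hR3 : n ^ 3 ≤ R := by nlinarith
  have hR2 : n ^ 2 ≤ R := by nlinarith
  have hR1 : 1 ≤ R := hn2.trans hR2
  have ht1 : 1 ≤ E * n * R :=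
    one_le_mul_of_one_le_of_one_le (one_le_mul_of_one_le_of_one_le hE hn) hR1
  have ht2 : 1 ≤ t := by linarith
  have h1 : 1 ≤ t * R := one_le_mul_of_one_le_of_one_le ht2 hR1
  have h2 := mul_le_mul_of_nonneg_right hA (show 0 ≤ t * R by linarith)
  have h3 := mul_le_mul_of_nonneg_left h1 (show 0 ≤ A by linarith)
  exact ⟨hR3, hR2, hR1, ht2, by linarith, by linarith⟩

theorem arith1 {A R t H S h : ℝ} (hA : 1 ≤ A) (ht1 : 1 ≤ t) (hH1 : 6 * (t * R) ≤ H)
    (hHA : A ≤ H) (hS : S = 8 * H * t) (h1 : 1 ≤ 8 * H * h) (h2 : 4 * H * h ≤ 1) :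
    0 < h ∧ 24 * (t * R) * h ≤ 1 ∧ t ≤ S * h ∧ S * h ≤ 2 * t ∧ 8 * t ≤ S ∧ 4 * h * A ≤ 1 := by
  have hH0 : 1 ≤ H := by linarith
  have hh : 0 < h := by
    by_contra h0
    nlinarith [mul_nonneg (show 0 ≤ H by linarith) (neg_nonneg.2 (not_lt.1 h0))]
  have k1 := mul_le_mul_of_nonneg_right hH1 hh.le
  have k2 := mul_le_mul_of_nonneg_right h1 (show 0 ≤ t by linarith)
  have k3 := mul_le_mul_of_nonneg_right h2 (show 0 ≤ t by linarith)
  have k4 := mul_le_mul_of_nonneg_right hH0 (show 0 ≤ t by linarith)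
  have k5 := mul_le_mul_of_nonneg_right hHA hh.le
  subst hS
  exact ⟨hh, by linarith, by linarith, by linarith, by linarith, by linarith⟩

theorem arith {E A n W R t H S N h M : ℝ} (hE : 1 ≤ E) (hA : 1 ≤ A) (hn : 1 ≤ n)
    (hW : W = E * n ^ 2) (hR : R = n * (W + 1)) (ht : t = 2 * E * n * R) (hH : H = 6 * A * t * R)
    (hS : S = 8 * H * t) (hN : 750 * E * n * S * R ≤ N) (h1 : 1 ≤ 8 * H * h) (h2 : 4 * H * h ≤ 1)
    (hM : M = 4860 * t * n * R) :
    n ^ 3 ≤ H ∧ 2 ≤ M ∧ 4 * h * A ≤ 1 ∧ 4 * n ^ 2 * h ≤ 1 ∧ n * (1 / N) ≤ 1 ∧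
      1 / (540 * t * R) ≤ 1 ∧ n * (8 / M + 1 / N) ≤ 1 / (540 * t * R) ∧
      R * (120 * (1 / (540 * t * R)) + S * (30 * h * (1 / (540 * t * R)) + 4 * h ^ 2 +
        250 * n * (1 / N))) ≤ 1 ∧
      S * (4 * h ^ 2 * n ^ 2 + 6 * n * (1 / N)) ≤ 1 ∧ R * n * E ≤ S * (h / 2) ∧
      S * (R * (n * (1 / N))) ≤ 1 / E := by
  obtain ⟨hR3, hR2, hR1, ht1, hH1, hHA⟩ := arith0 hE hA hn hW hR ht hH
  obtain ⟨hh, hh2, hS1, hS2, hS3, hA1⟩ := arith1 hA ht1 hH1 hHA hS h1 h2
  clear hW hR hH hS h1 h2 hHA hA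
  have htR : R ≤ t * R := le_mul_of_one_le_left (by linarith) ht1
  have hS0 : 1 ≤ S := by linarith
  have hnS : 0 < n * S * R := by positivity
  have hN1 : 750 * (n * S * R) ≤ N := by
    linarith [mul_le_mul_of_nonneg_right hE hnS.le]
  have hN0 : 0 < N := by linarith
  have hnR : 1 ≤ n * R := one_le_mul_of_one_le_of_one_le hn hR1
  have k1 := mul_le_mul_of_nonneg_right hS3 (show 0 ≤ n * R by linarith)
  have k2 : 1 ≤ t * (n * R) := one_le_mul_of_one_le_of_one_le ht1 hnR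
  have hMN : M ≤ N := by linarith
  have hM1 : 4860 ≤ M := by linarith
  have hSR : 1 ≤ S * R := one_le_mul_of_one_le_of_one_le hS0 hR1
  have hq : n * S * R * (1 / N) ≤ 1 / (750 * E) := by
    rw [mul_one_div, div_le_div_iff₀ hN0 (by positivity)]
    linarith
  have hq1 : 1 / (750 * E) ≤ 1 / 750 := one_div_le_one_div_of_le (by norm_num) (by linarith)
  have hi : 0 < 1 / N := by positivity
  have k3 := mul_le_mul_of_nonneg_right (hR2.trans htR) hh.le
  have k4 := mul_pos (show 0 < t * R by linarith) hh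
  refine ⟨by linarith, by linarith, hA1, by linarith, ?_, ?_, ?_, ?_, ?_, by linarith, ?_⟩
  · linarith [mul_le_mul_of_nonneg_left hSR (show 0 ≤ n * (1 / N) by positivity)]
  · rw [div_le_one (by positivity)]
    linarith
  · have h3 : 1 / N ≤ 1 / M := one_div_le_one_div_of_le (by linarith) hMN
    have h4 : n * (8 / M + 1 / M) = 1 / (540 * t * R) := by
      rw [hM]
      field_simp
      norm_num
    rw [← h4]
    exact mul_le_mul_of_nonneg_left (by linarith) (by linarith)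
  · have h3 : t * R * (1 / (540 * t * R)) = 1 / 540 := by field_simp
    have h4 : 0 < R * (1 / (540 * t * R)) := by positivity
    have h5 := mul_le_mul_of_nonneg_right hS2 h4.le
    have h6 := mul_le_mul_of_nonneg_right ht1 h4.le
    have h7 := mul_le_mul_of_nonneg_right hS2 (show 0 ≤ R * h by positivity)
    generalize 1 / (540 * t * R) = δ at *
    linarith
  · have h3 := mul_le_mul_of_nonneg_right hS2 (show 0 ≤ n ^ 2 * h by positivity)
    have h4 := mul_le_mul_of_nonneg_left hR2 (show 0 ≤ t * h by positivity)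
    have h5 := mul_le_mul_of_nonneg_left hR1 (show 0 ≤ n * S * (1 / N) by positivity)
    linarith
  · have : 1 / (750 * E) ≤ 1 / E := one_div_le_one_div_of_le (by linarith) (by linarith)
    linarith

theorem one_sub_pow_le {x : ℝ} (h0 : 0 ≤ x) (h1 : x ≤ 1) (S : ℕ) : (1 - x) ^ S * (S * x) ≤ 1 := by
  have h2 : 1 + S * x ≤ (1 + x) ^ S := one_add_mul_le_pow (by linarith) S
  have h3 : 0 ≤ (1 - x) ^ S := pow_nonneg (by linarith) S
  have h4 : (1 - x) ^ S * (1 + x) ^ S ≤ 1 := by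
    rw [← mul_pow]
    exact pow_le_one₀ (by nlinarith) (by nlinarith)
  nlinarith

theorem two_pow_size_le {a : ℕ} (h : 0 < a) : 2 ^ Nat.size a ≤ 2 * a := by
  obtain ⟨t, ht⟩ := Nat.exists_eq_succ_of_ne_zero (Nat.size_pos.2 h).ne'
  have : 2 ^ t ≤ a := Nat.lt_size.1 (by omega)
  rw [ht, pow_succ]
  omega

section final

variable {D : List (List ℕ)} {J F : List ℕ} {k U : ℕ} (hv : Valid D J F k U) {E A m T : ℕ}
  (hE : 10 ≤ E) (hA : 1 ≤ A) {tab : List ℕ} {X : Inp} (hX : X = (D, J, F, k, U))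
  {c : Cfg} (hc : c = cfg E A m T tab X) {P : Par}
  (hP : P = c.par (nn X) (1 / (540 * pT E X * pR E X)) (1 / E))

include hv hE hA hX hc hP

theorem par_arith : 0 < pG E A X ∧ 0 < c.N ∧ 0 < P.h ∧ (nn X : ℝ) ^ 3 ≤ pH E A X ∧
    (2 : ℝ) ≤ c.M ∧ 4 * P.h * A ≤ 1 ∧ 4 * P.n ^ 2 * P.h ≤ 1 ∧ P.n * P.ξ ≤ 1 ∧ P.δ ≤ 1 ∧
    P.n * (8 / c.M + 1 / c.N) ≤ P.δ ∧
    pR E X * (120 * P.δ + pS E A X * (30 * P.h * P.δ + 4 * P.h ^ 2 + 250 * P.n * P.ξ)) ≤ 1 ∧
    pS E A X * (4 * P.h ^ 2 * P.n ^ 2 + 6 * P.n * P.ξ) ≤ 1 ∧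
    pR E X * P.n * E ≤ pS E A X * (P.h / 2) ∧ pS E A X * (pR E X * (P.n * P.ξ)) ≤ 1 / E := by
  have hn : 0 < nn X := by
    rw [nn]
    omega
  have hE0 : 0 < E := by omega
  have hR : 0 < pR E X := by
    rw [pR]
    positivity
  have hT : 0 < pT E X := by
    rw [pT]
    positivity
  have hH : 0 < pH E A X := by
    rw [pH]
    positivity
  have hS : 0 < pS E A X := by
    rw [pS]
    positivity
  have hG : 0 < pG E A X := by
    rw [pG]
    positivity
  have hL : 0 < (LP.lp E X).2 := hX ▸ (LP.lp_spec hv hE0).1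
  have hN : 0 < pN E A X := Nat.mul_pos hL hG
  have hC : 0 < pN E A X ^ 5 * (1 + 2 * E) * E := by positivity
  have h1 : ((2 ^ pB E A X : ℕ) : ℝ) ≤ (2 * (pN E A X ^ 5 * (1 + 2 * E) * E * pH E A X) : ℕ) :=
    Nat.cast_le.2 (two_pow_size_le (Nat.mul_pos hC hH))
  have h2 : ((pN E A X ^ 5 * (1 + 2 * E) * E * pH E A X : ℕ) : ℝ) ≤ (2 ^ pB E A X : ℕ) :=
    Nat.cast_le.2 (Nat.lt_size_self _).le
  have hh : P.h = (pN E A X : ℝ) ^ 5 * (1 + 2 * E : ℕ) * E / (4 * (2 ^ pB E A X : ℕ)) := by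
    rw [hP, hc]
    rfl
  have hq : (0 : ℝ) < 4 * (2 ^ pB E A X : ℕ) := by positivity
  have := arith (E := E) (A := A) (n := nn X) (W := pW E X) (R := pR E X) (t := pT E X)
    (H := pH E A X) (S := pS E A X) (N := pN E A X) (h := P.h)
    (M := (4860 * pT E X * nn X * pR E X : ℕ)) (by exact_mod_cast hE0) (by exact_mod_cast hA)
    (by exact_mod_cast hn) (by rw [pW]; push_cast; rfl) (by rw [pR]; push_cast; rfl)
    (by rw [pT]; push_cast; rfl) (by rw [pH]; push_cast; rfl) (by rw [pS]; push_cast; rfl)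
    (by exact_mod_cast Nat.le_mul_of_pos_left (pG E A X) hL)
    (by
      rw [hh, ← mul_div_assoc, one_le_div hq]
      push_cast at h1 ⊢
      linarith)
    (by
      rw [hh, ← mul_div_assoc, div_le_one hq]
      push_cast at h2 ⊢
      linarith)
    (by push_cast; rfl)
  refine ⟨hG, hc ▸ hN, by rw [hh]; positivity, ?_⟩
  subst hP hc
  exact this

theorem cfg_ok {tb : ℕ → ℕ} (htab : tab = (List.range (T * m + 1)).map tb) (hm : 0 < m)
    (h1 : Antitone tb) (h2 : ∀ s, 2 * m ≤ tb s ∧ tb s ≤ 4 * m)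
    (h3 : ∀ θ : ℝ, 0 ≤ θ → (tb ⌊θ * m⌋₊ : ℝ) / m ≤ 2 / pf (Real.exp (-θ)) ∧
      2 / pf (Real.exp (-θ)) - 1 / E ≤ (tb ⌊θ * m⌋₊ : ℝ) / m)
    (h4 : ∀ κ : ℝ, 0 < κ → κ * A ≤ 1 → Tick (1 / E) T κ) :
    c.OK tb (nn X) (1 / (540 * pT E X * pR E X)) (1 / E) := by
  obtain ⟨-, a2, a3, a4, a5, a6, a7, a8, a9, a10, -⟩ := par_arith hv hE hA hX hc hP
  have hE' : (10 : ℝ) ≤ E := by exact_mod_cast hE
  have hu : ∀ a b, dm D a b ≤ max U 1 := fun a b => (hv.le_U a b).trans (le_max_left _ _)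
  have hM : 2 ≤ c.M := by exact_mod_cast a5
  have hF : F.length ≤ nn X := by
    rw [hX, nn]
    dsimp only
    omega
  have hΛ : F.length * c.Λ ≤ 2 * c.q := by
    have b1 : nn X ^ 3 ≤ pH E A X := by exact_mod_cast a4
    have b2 := (Nat.lt_size_self (pN E A X ^ 5 * (1 + 2 * E) * E * pH E A X)).le
    have b3 := Nat.mul_le_mul_left (pN E A X ^ 5 * (1 + 2 * E) * E) b1
    calc _ ≤ nn X * c.Λ := Nat.mul_le_mul_right _ hF
      _ = 2 * (pN E A X ^ 5 * (1 + 2 * E) * E * nn X ^ 3) := by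
        rw [hc, cfg]
        ring
      _ ≤ _ := hc ▸ Nat.mul_le_mul_left 2 (b3.trans b2)
  have hPo : P.OK := by
    subst hP
    have e : ∀ a b, c.dd a b = c.M * (c.W * dm D a b + max U 1) := fun a b => by
      rw [hc, hX]
      rfl
    have eu : c.u = max U 1 := by
      rw [hc, hX]
      rfl
    refine ⟨fun a b => ?_, fun a b d => ?_, ?_, fun a b => ?_, fun a b => ?_, ?_, ?_, ?_, ?_, ?_,
      a3, a7, ?_, a9, ?_, a8, ?_, ?_, ?_⟩ <;> simp only [Cfg.par]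
    · rw [e, e, hv.pm.comm]
    · have := Nat.mul_le_mul_left c.W (hv.pm.tri a b d)
      rw [← Nat.cast_add, Nat.cast_le, e, e, e, ← mul_add]
      refine Nat.mul_le_mul_left _ ?_
      rw [mul_add] at this
      omega
    · rw [eu]
      positivity
    · exact Nat.cast_le.2 (le_trans (Nat.le_mul_of_pos_left _ (by omega)) (Cfg.dd_ge a b))
    · have := Nat.mul_le_mul_left c.W (hu a b)
      have h5 : c.dd a b ≤ c.M * (c.W + 1) * c.u := by
        rw [e, eu, mul_assoc, add_mul, one_mul]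
        exact Nat.mul_le_mul_left _ (Nat.add_le_add_right this _)
      exact_mod_cast h5
    · exact_mod_cast (show 1 ≤ nn X by rw [nn]; omega)
    · rw [hc, hX]
      exact_mod_cast (List.toFinset_card_le F).trans (hX ▸ hF)
    · rw [hc, cfg]
      positivity
    · rw [hc, cfg]
      exact one_div_le_one_div_of_le (by norm_num) hE'
    · rw [hc, cfg]
      simp
    · positivity
    · positivity
    · positivity
    · rw [div_le_one (by linarith)]
      linarith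
    · rw [hc]
      exact h4 _ (by rw [hc] at a3; exact mul_pos (by norm_num) a3) (by rw [hc] at a6; exact a6)
  subst hP hc hX
  exact ⟨hv.pm, hv.F_nodup, hv.F_lt, hu, lt_max_of_lt_right one_pos, a2, hM, rfl,
    Nat.add_pos_left one_pos _, show 0 < E by omega, hm, Nat.two_pow_pos _, hΛ,
    by simp [cfg], htab, h1, h2, h3, a10, hPo⟩

omit hv hE hA hX hc hP in
theorem last_arith {E W n j u o z a l : ℝ} (hE : 10 ≤ E) (hj : 0 ≤ j) (hn : j + 2 ≤ n)
    (hW : W = E * n ^ 2) (hu : 0 < u) (ha : a ≤ 4) (hl : l ≤ 2)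
    (h : W * z + j * u ≤ a * (W * (o + u / (E * (j + 1))) + j * u) + l * u + u) :
    z ≤ a * o + 8 / E * u / (j + 1) := by
  have hn0 : 0 < n := by linarith
  have hW0 : 0 < W := by rw [hW]; positivity
  have h0 : 0 < u / (E * (j + 1)) := by positivity
  have h1 : 4 * (j + 1) * u ≤ W * (4 * (u / (E * (j + 1)))) := by
    rw [hW, ← mul_div_assoc, ← mul_div_assoc, le_div_iff₀ (by positivity)]
    have h2 : (j + 1) ^ 2 ≤ n ^ 2 := pow_le_pow_left₀ (by linarith) (by linarith) 2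
    linarith [mul_le_mul_of_nonneg_left h2 (show 0 ≤ 4 * E * u by positivity)]
  have h2 := mul_le_mul_of_nonneg_right ha (mul_pos hW0 h0).le
  have h3 := mul_le_mul_of_nonneg_right ha (mul_nonneg hj hu.le)
  have h4 := mul_le_mul_of_nonneg_right hl hu.le
  have h5 : 8 / E * u / (j + 1) = 8 * (u / (E * (j + 1))) := by field_simp
  have h6 := mul_nonneg hj hu.le
  rw [h5]
  refine le_of_mul_le_mul_left ?_ hW0
  linarith

omit hv hE hA in
theorem rel : P.I = F.toFinset ∧ c.F = F ∧ c.D = D ∧ c.u = max U 1 ∧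
    (∀ a b, P.d a b = c.M * (c.W * dm D a b + c.u)) ∧ P.U = c.M * (c.W + 1) * c.u ∧
    P.η = 1 / E ∧ P.ε = 1 / E ∧ P.η / (4 * P.L) = 1 / E / (4 * (1 + 2 * E)) ∧
    (c.W : ℝ) = E * (nn X : ℝ) ^ 2 ∧ (pR E X : ℝ) = nn X * (c.W + 1) ∧
    (nn X : ℝ) = F.length + J.length + 2 := by
  subst hP hc hX
  simp [Cfg.par, Cfg.dd, cfg, pW, pR, nn]

omit hA in
theorem final_good (hF : Facts) {tb : ℕ → ℕ}
    (hok : c.OK tb (nn X) (1 / (540 * pT E X * pR E X)) (1 / E)) {α : ℝ} (hα0 : 0 ≤ α)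
    (hα : α ≤ 2) {C : ℕ → Client} (C1 : ∀ j, (C j).OK P) (C2 : ∀ j, (C j).j = j) {s : St}
    (g1 : c.SOK (nn X) s) (g2 : ∀ j ∈ J.toFinset, (C j).Inv P (c.view s))
    (g3 : ∑ j ∈ J.toFinset, (C j).Psi P (c.view s) ≤ (1 + 8 / E) * (α * (c.M * (c.W *
      (opt (dm D) J F k + U / (E * (J.length + 1))) + J.length * c.u)) + c.M * c.u))
    (g4 : Zed P (c.view s) ≤ 3 * E * Real.exp (P.η / (4 * P.L) * (k + 2)))
    (g5 : pR E X * (c.view s).mass P ≤ 1) :
    Good ((1 + 8 / E) * α) (8 / E) (2 + 12 * E ^ 2 * (1 + 2 * E)) D J F k U s.2.1 := by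
  obtain ⟨-, hcF, hcD, hcu, -, hU, -, -, hσ, hW, hR, hnn⟩ := rel hX hc hP
  have hE' : (10 : ℝ) ≤ E := by exact_mod_cast hE
  have hE0 : (0 : ℝ) < E := by linarith
  have hPo : P.OK := hP ▸ hok.pok
  have hVs : (c.view s).OK P := hP ▸ hok.view_ok g1
  have hM0 : (0 : ℝ) < c.M := by exact_mod_cast (show 0 < c.M by linarith [hok.two_le_M])
  have hu0 : (0 : ℝ) < c.u := by exact_mod_cast hok.u_pos
  have hW0 : (0 : ℝ) ≤ c.W := Nat.cast_nonneg _
  have hJ0 : (0 : ℝ) ≤ J.length := Nat.cast_nonneg _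
  have hF0 : (0 : ℝ) ≤ F.length := Nat.cast_nonneg _
  have hcard : J.toFinset.card = J.length := List.toFinset_card_of_nodup hv.J_nodup
  refine ⟨⟨g1.ne, hcF ▸ g1.sub, ?_⟩, ?_⟩
  · set σ := P.η / (4 * P.L)
    have hσ0 : 0 < σ := by rw [hσ]; positivity
    have h1 : 3 * (E : ℝ) ≤ Real.exp (σ * (12 * E ^ 2 * (1 + 2 * E))) := by
      rw [show σ * (12 * E ^ 2 * (1 + 2 * E)) = 3 * E by
        rw [hσ]
        field_simp
        norm_num]
      linarith [Real.add_one_le_exp (3 * (E : ℝ))]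
    have h2 := g4.trans (mul_le_mul_of_nonneg_right h1 (Real.exp_pos _).le)
    rw [← Real.exp_add, ← mul_add] at h2
    have h3 := le_of_mul_le_mul_left (Real.exp_le_exp.1 h2) hσ0
    have h4 : ((c.view s).cnt : ℝ) = s.2.1.length := rfl
    rw [← Nat.cast_le (α := ℝ)]
    push_cast
    linarith [hVs.mass_nonneg]
  rcases Nat.eq_zero_or_pos U with rfl | hU0
  · have : cost (dm D) J s.2.1 = 0 := by
      rw [cost_eq_sum _ hv.J_nodup]
      exact sum_eq_zero fun j _ => Nat.le_zero.1 (hv.le_U _ _)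
    rw [this]
    push_cast
    positivity
  have hu : (c.u : ℝ) = U := by rw [hcu, max_eq_left hU0]
  have h1 : ∑ j ∈ J.toFinset, (c.view s).D j =
      c.M * (c.W * cost (dm D) J s.2.1 + J.length * c.u) := by
    rw [cost_eq_sum _ hv.J_nodup, ← hcard, ← hcD]
    simp only [Cfg.view]
    push_cast
    rw [← mul_sum, sum_add_distrib, ← mul_sum, sum_const, nsmul_eq_mul]
  have h2 : ∑ j ∈ J.toFinset, (c.view s).D j ≤
      ∑ j ∈ J.toFinset, ((C j).Psi P (c.view s) + (c.view s).mass P * P.U) :=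
    sum_le_sum fun j hj => by
      have := (hF.final P (C j) _ hPo (C1 j) hVs (g2 j hj)).1
      rwa [C2 j] at this
  rw [h1, sum_add_distrib, sum_const, hcard, nsmul_eq_mul, hU] at h2
  have h3 : J.length * (c.W + 1) * (c.view s).mass P ≤ 1 := by
    refine le_trans (mul_le_mul_of_nonneg_right ?_ hVs.mass_nonneg) g5
    rw [hR]
    exact mul_le_mul_of_nonneg_right (by linarith) (by positivity)
  have h4 := mul_le_mul_of_nonneg_left h3 (mul_pos hM0 hu0).le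
  have h5 : 8 / (E : ℝ) ≤ 1 := by
    rw [div_le_one hE0]
    linarith
  have h6 : (1 + 8 / (E : ℝ)) * α ≤ 2 * 2 := mul_le_mul (by linarith) hα hα0 (by norm_num)
  refine last_arith (l := 1 + 8 / E) hE' hJ0 (by linarith) hW (by exact_mod_cast hU0)
    (by linarith) (by linarith) (le_of_mul_le_mul_left ?_ hM0)
  rw [hu] at g3 h2 h4
  linarith

omit hv hE hA hX hc hP in
theorem init_arith {E B Ps Er Z z Z0 R h mass n x : ℝ} {S : ℕ} (hE : 10 ≤ E) (hB : 0 < B)
    (h1 : Ps + S * Er ≤ B) (hz : 0 ≤ z) (h2 : S * z ≤ 1) (hZ : 0 < Z) (h3 : Z ≤ Z0) (hh : 0 < h)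
    (hh1 : 4 * h ≤ 1) (hR : 0 ≤ R) (h4 : mass ≤ n) (h5 : R * n * E ≤ S * (h / 2))
    (h6 : S * (R * x) ≤ 1 / E) :
    1 / E ≤ 1 - (1 / ((1 + 8 / E) * B) * Ps + (1 / (3 * E * Z0) * (1 + z) ^ S * Z +
      R * (1 - h / 2) ^ S * mass) + S * (1 / ((1 + 8 / E) * B) * Er + R * x)) := by
  have hE0 : 0 < E := by linarith
  have hl : 0 < 1 + 8 / E := by positivity
  have hZ0 : 0 < Z0 := hZ.trans_le h3
  have b5 := mul_le_mul_of_nonneg_left h1 (show 0 ≤ 1 / ((1 + 8 / E) * B) by positivity)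
  have b6 : 1 / ((1 + 8 / E) * B) * B ≤ 1 - 4 / E := by
    rw [show 1 / ((1 + 8 / E) * B) * B = 1 / (1 + 8 / E) by field_simp, div_le_iff₀ hl]
    have h1 : 8 / E ≤ 1 := by
      rw [div_le_one hE0]
      linarith
    have h2 : 0 ≤ 8 / E := by positivity
    rw [show 4 / E = 8 / E / 2 by ring]
    nlinarith
  have b7 : (1 + z) ^ S ≤ 3 := by
    refine (pow_le_pow_left₀ (by positivity) (show 1 + z ≤ Real.exp z by
      linarith [Real.add_one_le_exp z]) _).trans ?_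
    rw [← Real.exp_nat_mul]
    exact (Real.exp_le_exp.2 h2).trans (Real.exp_one_lt_d9.le.trans (by norm_num))
  have b9 : 1 / (3 * E * Z0) * (1 + z) ^ S * Z ≤ 1 / E := by
    refine (mul_le_mul (mul_le_mul_of_nonneg_left b7 (by positivity)) h3 hZ.le
      (by positivity)).trans (le_of_eq ?_)
    field_simp
  have b10 : R * (1 - h / 2) ^ S * mass ≤ 1 / E := by
    have k1 : 0 ≤ (1 - h / 2) ^ S := pow_nonneg (by linarith) _
    have k2 := (mul_le_mul_of_nonneg_left h5 k1).trans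
      (one_sub_pow_le (by positivity) (by linarith) _)
    refine (mul_le_mul_of_nonneg_left h4 (by positivity)).trans ?_
    rw [le_div_iff₀ hE0]
    linarith
  have e4 : 4 / E = 4 * (1 / E) := by ring
  linarith

theorem good (hF : Facts) {tb : ℕ → ℕ}
    (hok : c.OK tb (nn X) (1 / (540 * pT E X * pR E X)) (1 / E))
    (hα : 1 + 2 / Real.exp 1 + 34000 / E ≤ 2) {r : ℕ} (hr : pS E A X * (pB E A X + 2) ≤ r) :
    1 / E ≤ frq r fun ρ => Good ((1 + 8 / E) * (1 + 2 / Real.exp 1 + 34000 / E)) (8 / E)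
      (2 + 12 * E ^ 2 * (1 + 2 * E)) D J F k U (alg E A m T tab (X, ⟨ρ⟩)) := by
  obtain ⟨a1, -, a3, -, a5, -, -, -, -, -, a11, a12, a13, a14⟩ := par_arith hv hE hA hX hc hP
  obtain ⟨hI, hcF, -, -, hd, hU, hη, hε, hσ, -, hR, hnn⟩ := rel hX hc hP
  have hE' : (10 : ℝ) ≤ E := by exact_mod_cast hE
  have hE0 : (0 : ℝ) < E := by linarith
  have hPo : P.OK := hP ▸ hok.pok
  obtain ⟨l1, -, -, l4, x, x0, x1, x2, x3⟩ := LP.lp_spec hv (show 1 ≤ E by omega)
  rw [← hX] at l1 l4 x1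
  have hk : (k : ℝ) ≤ F.length := by exact_mod_cast hv.k_le
  have hL0 : (0 : ℝ) < (LP.lp E X).2 := by exact_mod_cast l1
  have hM0 : (0 : ℝ) < c.M := by linarith
  have hu0 : (0 : ℝ) < c.u := by exact_mod_cast hok.u_pos
  have hW0 : (0 : ℝ) ≤ c.W := Nat.cast_nonneg _
  have hJ0 : (0 : ℝ) ≤ J.length := Nat.cast_nonneg _
  have hF0 : (0 : ℝ) ≤ F.length := Nat.cast_nonneg _
  have hcard : J.toFinset.card = J.length := List.toFinset_card_of_nodup hv.J_nodup
  obtain ⟨s0, hs0⟩ : ∃ s0, s0 = start E A X := ⟨_, rfl⟩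
  have hy : ∀ i ∈ F, (c.view s0).y i = (LP.lp E X).1.getD i 0 / (LP.lp E X).2 := fun i hi => by
    have h1 : s0.1.getD i 0 = (LP.lp E X).1.getD i 0 * pG E A X :=
      hs0 ▸ LP.getD_map_range _ _ (hX ▸ hv.F_lt i hi)
    have h2 : (0 : ℝ) < pG E A X := by exact_mod_cast a1
    simp only [Cfg.view, h1]
    rw [hc]
    simp only [cfg, pN]
    push_cast
    field_simp
  have hmass : (c.view s0).mass P ≤ k + 1 := by
    rw [View.mass, hI, sum_congr rfl fun i hi => hy i (List.mem_toFinset.1 hi), ← sum_div,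
      div_le_iff₀ hL0]
    exact_mod_cast l4
  have hS : s0.2 = ([F.headD 0], 0) := by rw [hs0, hX]; rfl
  have hs : c.SOK (nn X) s0 := by
    refine ⟨by simp [hS], fun e he => ?_, by simp [hS], ?_⟩
    · rw [hS] at he
      rw [hcF, List.mem_singleton.1 he]
      exact headD_mem hv.F_ne
    · rw [hP] at hmass
      exact le_trans hmass (by linarith)
  have hV : (c.view s0).OK P := hP ▸ hok.view_ok hs
  choose C C1 C2 C3 C4 using fun j => hF.client P (c.view s0).y (x j) j hPo hV.y_nonneg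
    (fun i hi => ⟨x0 j i, by
      rw [hI, List.mem_toFinset] at hi
      rw [hy i hi]
      exact x1 j i hi⟩) (hI ▸ x2 j)
  obtain ⟨α, hαe⟩ : ∃ α : ℝ, α = 1 + 2 / Real.exp 1 + 34000 / E := ⟨_, rfl⟩
  have hα0 : 0 ≤ α := by rw [hαe]; positivity
  rw [← hαe] at hα ⊢
  obtain ⟨o, ho⟩ : ∃ o : ℝ, o = opt (dm D) J F k + U / (E * (J.length + 1)) := ⟨_, rfl⟩
  have ho0 : 0 ≤ o := by rw [ho]; positivity
  rw [← ho] at x3
  have hB : 0 < α * (c.M * (c.W * o + J.length * c.u)) + c.M * c.u := by positivity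
  have key := core hF hok (b := pB E A X) (by rw [hc]; rfl) hP J.toFinset C (fun j _ => C1 j) hs
    (fun j _ => Client.OK.inv_init _ fun i => by rw [C3])
    (a1 := 1 / ((1 + 8 / E) * (α * (c.M * (c.W * o + J.length * c.u)) + c.M * c.u)))
    (a2 := 1 / (3 * E * Real.exp (P.η / (4 * P.L) * (k + 2)))) (a3 := pR E X)
    (by positivity) (by positivity) (by positivity) _ _ hr
  have hδ := hPo.δ_nonneg
  have hξ := hPo.ξ_nonneg
  have hn0 : 0 ≤ P.n := by linarith [hPo.one_le_n]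
  refine le_trans (init_arith hE' hB ?_ (by positivity) a12 (Real.exp_pos _) ?_ a3 hPo.four_h
    (Nat.cast_nonneg _) hV.mass_le a13 a14) (key.trans (frq_mono fun ρ _ h => ?_))
  · have b1 : ∑ j ∈ J.toFinset, (C j).G0 P ≤ c.M * (c.W * o + J.length * c.u) := by
      have : ∀ j, ∑ i ∈ P.I, x j i * P.d j i =
          c.M * (c.W * ∑ i ∈ F.toFinset, x j i * dm D j i + c.u) := fun j => by
        conv_rhs => rw [← one_mul (c.u : ℝ), ← x2 j, sum_mul, mul_sum, ← sum_add_distrib, mul_sum]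
        rw [hI]
        exact sum_congr rfl fun i _ => by rw [hd]; ring
      refine (sum_le_sum fun j _ => (C4 j).trans (this j).le).trans ?_
      rw [← mul_sum, sum_add_distrib, ← mul_sum, sum_const, hcard, nsmul_eq_mul]
      exact mul_le_mul_of_nonneg_left (add_le_add_left (mul_le_mul_of_nonneg_left x3 hW0) _)
        hM0.le
    have b2 : ∑ j ∈ J.toFinset, (C j).Psi P (c.view s0) ≤
        α * (c.M * (c.W * o + J.length * c.u)) + J.length * (120 * P.δ * P.U) := by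
      refine (sum_le_sum fun j _ => hF.init P (C j) _ hPo (C1 j) hV (fun i => by rw [C3])
        (by simp [Cfg.view, hS])).trans ?_
      rw [sum_add_distrib, ← mul_sum, sum_const, hcard, nsmul_eq_mul, hη, hε,
        show 1 + 2 / Real.exp 1 + 17000 * (1 / (E : ℝ) + 1 / E) = α by rw [hαe]; ring]
      exact add_le_add_left (mul_le_mul_of_nonneg_left b1 hα0) _
    have b3 : J.length * (c.W + 1) * (120 * P.δ + pS E A X *
        (30 * P.h * P.δ + 4 * P.h ^ 2 + 250 * P.n * P.ξ)) ≤ 1 := by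
      refine le_trans (mul_le_mul_of_nonneg_right ?_ (by positivity)) a11
      rw [hR]
      exact mul_le_mul_of_nonneg_right (by linarith) (by positivity)
    have := mul_le_mul_of_nonneg_left b3 (mul_pos hM0 hu0).le
    rw [hU] at b2
    rw [hU, hcard]
    linarith
  · refine Real.exp_le_exp.2 (mul_le_mul_of_nonneg_left ?_ (by rw [hσ]; positivity))
    have : (c.view s0).cnt = 1 := by simp [Cfg.view, hS]
    rw [this]
    push_cast
    linarith
  · obtain ⟨g1, g2, g3, g4, g5⟩ := h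
    have es : alg E A m T tab (X, ⟨ρ⟩) = (run c.step (pB E A X + 2) (pS E A X) s0 ρ).2.1 := by
      rw [hc, hs0]
      rfl
    rw [one_div_mul_eq_div, div_le_one (by positivity)] at g3 g4
    rw [es]
    exact final_good hv hE hX hc hP hF hok hα0 hα C1 C2 g1 g2 (ho ▸ g3) g4 g5

end final

theorem pseudo_of_facts (hF : Facts) : Pseudo (1 + 2 / Real.exp 1) := by
  intro ε hε
  obtain ⟨E, hE⟩ := exists_nat_ge (max 200000 (70000 / ε))
  have hE1 : (200000 : ℝ) ≤ E := (le_max_left _ _).trans hE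
  have hE0 : (0 : ℝ) < E := by linarith
  have hE2 : 70000 / (E : ℝ) ≤ ε := by
    rw [div_le_iff₀ hE0, mul_comm, ← div_le_iff₀ hε]
    exact (le_max_right _ _).trans hE
  have hE3 : 10 ≤ E := by exact_mod_cast (show (10 : ℝ) ≤ E by linarith)
  have hi : 0 < 1 / (E : ℝ) := by positivity
  have hi1 : 1 / (E : ℝ) ≤ 1 / 200000 := one_div_le_one_div_of_le (by norm_num) hE1
  have he : 2 / Real.exp 1 ≤ 3 / 4 := by
    rw [div_le_iff₀ (Real.exp_pos 1)]
    linarith [Real.exp_one_gt_d9]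
  have he0 : 0 ≤ 2 / Real.exp 1 := by positivity
  obtain ⟨T, κ0, hκ, hT⟩ := tick_exists hi
  obtain ⟨m, tb, hm, t1, t2, t3⟩ := slope_exists hi
  obtain ⟨A, hA⟩ := exists_nat_ge (max 1 (1 / κ0))
  have hA1 : 1 ≤ A := by exact_mod_cast (le_max_left _ _).trans hA
  have hA2 : 1 ≤ A * κ0 := by
    rw [← div_le_iff₀ hκ]
    exact (le_max_right _ _).trans hA
  obtain ⟨e, he'⟩ := ((pbd_pS E A).mul ((pbd_pB E A).add (PBd.const 2))).exists_PB
  refine ⟨2 + 12 * E ^ 2 * (1 + 2 * E), e, 1 / E, alg E A m T ((List.range (T * m + 1)).map tb),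
    hi, pt_alg _ _ _ _ _, fun D J F k U hv r hr => ?_⟩
  have e1 : 34000 / (E : ℝ) = 34000 * (1 / E) := by ring
  have e2 : 8 / (E : ℝ) = 8 * (1 / E) := by ring
  have e3 : 70000 / (E : ℝ) = 70000 * (1 / E) := by ring
  refine (good hv hE3 hA1 rfl rfl rfl hF (cfg_ok hv hE3 hA1 rfl rfl rfl rfl hm t1 t2 t3
    fun κ h0 h1 => hT κ h0 ?_) (by linarith) ((he' _).trans hr)).trans (frq_mono fun ρ _ h =>
      ⟨h.1, h.2.trans (add_le_add (mul_le_mul_of_nonneg_right ?_ (Nat.cast_nonneg _))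
        (div_le_div_of_nonneg_right (mul_le_mul_of_nonneg_right (by linarith)
          (Nat.cast_nonneg _)) (by positivity)))⟩)
  · have hA0 : (0 : ℝ) < A := by exact_mod_cast hA1
    exact le_of_mul_le_mul_left (by linarith) hA0
  · rw [e1, e2]
    nlinarith

end Alg

end Vale.Agent.P334
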