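import Vale.Agent.P334.Proc

/-!
Basic facts on the rounding process.
-/

namespace Vale.Agent.P334.Proc

open Finset

/-! ### The kernel -/

theorem ker_nonneg (K d v : ℝ) : 0 ≤ ker K d v := le_max_left _ _

theorem ker_le_one (K d v : ℝ) : ker K d v ≤ 1 := max_le zero_le_one (min_le_left _ _)

theorem clip_le {a b e : ℝ} (he : 0 ≤ e) (h : a ≤ b + e) :
    max 0 (min 1 a) ≤ max 0 (min 1 b) + e := by
  simp only [max_def, min_def]
  split_ifs <;> linarith

theorem le_lin_of_pos {K d v J : ℝ} (hJ : 0 < J) (h : J ≤ ker K d v) : J ≤ K * (v - d) / v := by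
  rcases le_max_iff.1 h with h | h
  · exact absurd h (not_le.2 hJ)
  · exact h.trans (min_le_right _ _)

theorem lt_of_ker_pos {K d v : ℝ} (hK : 0 ≤ K) (hv : 0 < v) (h : 0 < ker K d v) : d < v := by
  have h1 := le_lin_of_pos h le_rfl
  by_contra h2
  have : K * (v - d) / v ≤ 0 :=
    div_nonpos_of_nonpos_of_nonneg (mul_nonpos_of_nonneg_of_nonpos hK (by linarith)) hv.le
  linarith

theorem ker_eq_one {K d v : ℝ} (hK : 2 ≤ K) (hv : 0 < v) (h : 2 * d ≤ v) : ker K d v = 1 := by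
  have : 1 ≤ K * (v - d) / v := by
    rw [le_div_iff₀ hv]
    nlinarith
  rw [ker, min_eq_left this, max_eq_right zero_le_one]

theorem ker_anti {K d d' v : ℝ} (hK : 0 ≤ K) (hv : 0 < v) (h : d ≤ d') :
    ker K d' v ≤ ker K d v := by
  have := clip_le (a := K * (v - d') / v) (b := K * (v - d) / v) le_rfl (by
    rw [add_zero]
    exact div_le_div_of_nonneg_right (mul_le_mul_of_nonneg_left (by linarith) hK) hv.le)
  rwa [add_zero] at this

theorem ker_le_add {K K' d v e : ℝ} (hK' : 0 ≤ K') (hv : 0 < v) (hd : 0 ≤ d) (he : 0 ≤ e)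
    (h : K' ≤ K + e) : ker K' d v ≤ ker K d v + e := by
  rcases le_total v d with h1 | h1
  · have : K' * (v - d) / v ≤ 0 :=
      div_nonpos_of_nonpos_of_nonneg (mul_nonpos_of_nonneg_of_nonpos hK' (by linarith)) hv.le
    have h2 : ker K' d v ≤ 0 := max_le le_rfl ((min_le_right _ _).trans this)
    linarith [ker_nonneg K d v]
  · refine clip_le he ?_
    rw [div_add' _ _ _ hv.ne']
    refine div_le_div_of_nonneg_right ?_ hv.le
    nlinarith [mul_le_mul_of_nonneg_right h (sub_nonneg.2 h1)]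

/-! ### Parameters and views -/

variable {P : Par} {V V' Vd Vt : View} {Vr : ℕ → View} {C : Client}

theorem Par.OK.d_pos (hP : P.OK) (a b : ℕ) : 0 < P.d a b := hP.g_pos.trans_le (hP.g_le a b)

theorem Par.OK.U_pos (hP : P.OK) : 0 < P.U := (hP.d_pos 0 0).trans_le (hP.le_U 0 0)

theorem Par.OK.L_ge' (hP : P.OK) : 21 ≤ P.L := by
  have h1 : 20 ≤ 2 / P.η := by
    rw [le_div_iff₀ hP.η_pos]
    linarith [hP.η_le]
  linarith [hP.L_ge]

theorem Par.OK.four_h (hP : P.OK) : 4 * P.h ≤ 1 := by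
  have h1 : 1 ≤ P.n ^ 2 := one_le_pow₀ hP.one_le_n
  nlinarith [hP.h_le, hP.h_pos]

namespace View.OK

theorem v_pos (hV : V.OK P) (i : ℕ) : 0 < V.v i := lt_min (hV.D_pos i) (hV.lev_pos i)

theorem v_le_U (hV : V.OK P) (i : ℕ) : V.v i ≤ P.U := (min_le_left _ _).trans (hV.D_le i)

theorem J_le_one (hV : V.OK P) (i c : ℕ) : V.J i c ≤ 1 := (hV.J_le i c).trans (ker_le_one _ _ _)

theorem lt_v (hV : V.OK P) {i c : ℕ} (h : 0 < V.J i c) : P.d i c < V.v i :=
  lt_of_ker_pos (by linarith [hV.two_le_K]) (hV.v_pos i) (h.trans_le (hV.J_le i c))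

theorem v_lt (hV : V.OK P) {i c : ℕ} (h : V.J i c ≠ 1) : V.v i < 2 * P.d i c :=
  not_le.1 fun h1 => h (hV.J_one i c h1)

theorem B_nonneg (hV : V.OK P) (i : ℕ) : 0 ≤ V.B P i :=
  sum_nonneg fun c _ => mul_nonneg (hV.y_nonneg c) (hV.J_nonneg i c)

theorem sg_le_one (hV : V.OK P) (i : ℕ) : V.sg P i ≤ 1 :=
  max_le zero_le_one (by linarith [hV.B_nonneg i])

theorem B_add_sg_le (hV : V.OK P) (hP : P.OK) (i : ℕ) : V.B P i + V.sg P i ≤ 1 + P.δ := by
  have := hV.B_le i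
  have := hP.δ_nonneg
  rw [View.sg, max_def]
  split_ifs <;> linarith

theorem v_eq (hV : V.OK P) {i : ℕ} (h : V.sg P i ≠ 0) : V.v i = V.D i := by
  by_contra h1
  have := hV.B_ge i (lt_of_le_of_ne (min_le_left _ _) h1)
  exact h (max_eq_left (by linarith))

theorem mass_nonneg (hV : V.OK P) : 0 ≤ V.mass P := sum_nonneg fun c _ => hV.y_nonneg c

theorem kc_nonneg (hV : V.OK P) (c : ℕ) : 0 ≤ V.kc P c :=
  sum_nonneg fun i _ => mul_nonneg (hV.y_nonneg i) (hV.J_nonneg i c)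

theorem kc_le (hV : V.OK P) (c : ℕ) : V.kc P c ≤ P.n :=
  (sum_le_sum fun i _ => mul_le_of_le_one_right (hV.y_nonneg i) (hV.J_le_one i c)).trans
    hV.mass_le

theorem bc_le (hV : V.OK P) (hP : P.OK) (c : ℕ) : V.bc P c ≤ P.n :=
  max_le hP.one_le_n ((div_le_self (hV.kc_nonneg c) (by linarith [hP.L_ge'])).trans (hV.kc_le c))

theorem ac_ge (hV : V.OK P) (c : ℕ) : -1 ≤ V.ac P c :=
  le_min (by norm_num) (by linarith [hV.kc_nonneg c])

theorem fac_ge (hV : V.OK P) (hP : P.OK) (c : ℕ) : 1 - P.η ≤ 1 + P.η * V.ac P c := by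
  nlinarith [hV.ac_ge c, hP.η_pos]

theorem rho_nonneg (hV : V.OK P) (hP : P.OK) (i : ℕ) : 0 ≤ V.rho P i :=
  sum_nonneg fun c _ =>
    mul_nonneg (mul_nonneg (hV.y_nonneg c) (hV.J_nonneg i c)) (hP.d_pos i c).le

end View.OK

theorem View.v_le_D (V : View) (i : ℕ) : V.v i ≤ V.D i := min_le_left _ _

theorem View.v_le_lev (V : View) (i : ℕ) : V.v i ≤ V.lev i := min_le_right _ _

theorem View.sg_nonneg (V : View) (i : ℕ) : 0 ≤ V.sg P i := le_max_left _ _

theorem View.one_le_B_add_sg (V : View) (i : ℕ) : 1 ≤ V.B P i + V.sg P i := by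
  have := le_max_right 0 (1 - V.B P i)
  rw [View.sg]
  linarith

theorem View.one_le_bc (V : View) (c : ℕ) : 1 ≤ V.bc P c := le_max_left _ _

theorem View.bc_pos (V : View) (c : ℕ) : 0 < V.bc P c := one_pos.trans_le (V.one_le_bc c)

theorem View.ac_le (V : View) (c : ℕ) : V.ac P c ≤ 1 := min_le_left _ _

theorem View.fac_le (V : View) (hP : P.OK) (c : ℕ) : 1 + P.η * V.ac P c ≤ 1 + P.η := by
  nlinarith [V.ac_le (P := P) c, hP.η_pos]

theorem View.OK.fac_nonneg (hV : V.OK P) (hP : P.OK) (c : ℕ) : 0 ≤ 1 + P.η * V.ac P c := by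
  linarith [hV.fac_ge hP c, hP.η_le]

theorem View.OK.rt_nonneg (hV : V.OK P) (hP : P.OK) (c : ℕ) : 0 ≤ V.rt P c :=
  mul_nonneg (mul_nonneg (hV.y_nonneg c) (V.bc_pos c).le) (hV.fac_nonneg hP c)

theorem View.OK.sum_rt_le (hV : V.OK P) (hP : P.OK) : P.h * ∑ c ∈ P.I, V.rt P c ≤ 1 / 2 := by
  have h1 : ∑ c ∈ P.I, V.rt P c ≤ ∑ c ∈ P.I, V.y c * (P.n * 2) := sum_le_sum fun c _ => by
    rw [View.rt, mul_assoc]
    refine mul_le_mul_of_nonneg_left (mul_le_mul (hV.bc_le hP c) ?_ (hV.fac_nonneg hP c)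
      (by linarith [hP.one_le_n])) (hV.y_nonneg c)
    linarith [V.fac_le hP c, hP.η_le]
  rw [← sum_mul] at h1
  have h2 : (∑ c ∈ P.I, V.y c) * (P.n * 2) ≤ P.n * (P.n * 2) :=
    mul_le_mul_of_nonneg_right hV.mass_le (by linarith [hP.one_le_n])
  nlinarith [hP.h_le, hP.h_pos]

/-- The rate of an opening times the killed fraction. -/
theorem View.rt_mul (V : View) (c : ℕ) (J : ℝ) :
    V.rt P c * (J / V.bc P c) = V.y c * J * (1 + P.η * V.ac P c) := by
  have := (V.bc_pos (P := P) c).ne'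
  rw [View.rt]
  field_simp

theorem View.OK.fr_nonneg (hV : V.OK P) (i c : ℕ) : 0 ≤ V.J i c / V.bc P c :=
  div_nonneg (hV.J_nonneg i c) (V.bc_pos c).le

theorem View.OK.fr_le (hV : V.OK P) (i c : ℕ) : V.J i c / V.bc P c ≤ V.J i c :=
  div_le_self (hV.J_nonneg i c) (V.one_le_bc c)

theorem Next.y_eq {f : ℕ → ℝ} (h : Next P V f V') {i : ℕ} (hi : i ∈ P.I) (hf : f i = 0) :
    V'.y i = V.y i := by
  have h1 := h.lo i hi
  rw [hf, sub_zero, mul_one] at h1
  exact le_antisymm (h.le i) h1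

/-- The second phase is absorbing. -/
theorem Next.v_eq {f : ℕ → ℝ} (h : Next P V f V') {i : ℕ} (hi : V'.D i ≤ V.v i) :
    V'.v i = V'.D i := min_eq_left (hi.trans ((V.v_le_lev i).trans (h.lev_le i)))

/-! ### The drift -/

section drift

variable {Ψ Ψ' : View → ℝ}

theorem drift_add (Ψ Ψ' : View → ℝ) : drift P V Vd Vt Vr (fun W => Ψ W + Ψ' W) =
    drift P V Vd Vt Vr Ψ + drift P V Vd Vt Vr Ψ' := by
  have : ∑ c ∈ P.I, V.rt P c * (Ψ (Vr c) + Ψ' (Vr c) - (Ψ V + Ψ' V)) =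
      ∑ c ∈ P.I, V.rt P c * (Ψ (Vr c) - Ψ V) + ∑ c ∈ P.I, V.rt P c * (Ψ' (Vr c) - Ψ' V) := by
    rw [← sum_add_distrib]
    exact sum_congr rfl fun c _ => by ring
  simp only [drift, this]
  ring

theorem drift_mul (a : ℝ) (Ψ : View → ℝ) : drift P V Vd Vt Vr (fun W => a * Ψ W) =
    a * drift P V Vd Vt Vr Ψ := by
  have : ∑ c ∈ P.I, V.rt P c * (a * Ψ (Vr c) - a * Ψ V) =
      a * ∑ c ∈ P.I, V.rt P c * (Ψ (Vr c) - Ψ V) := by
    rw [mul_sum]
    exact sum_congr rfl fun c _ => by ring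
  simp only [drift, this]
  ring

theorem drift_const (a : ℝ) : drift P V Vd Vt Vr (fun _ => a) = 0 := by
  simp [drift]

theorem drift_sum {ι : Type} (s : Finset ι) (Ψ : ι → View → ℝ) :
    drift P V Vd Vt Vr (fun W => ∑ i ∈ s, Ψ i W) = ∑ i ∈ s, drift P V Vd Vt Vr (Ψ i) := by
  classical
  induction s using Finset.induction_on with
  | empty => simp only [sum_empty, drift_const]
  | insert i s hi ih => simp only [sum_insert hi, drift_add, ih]

theorem drift_le (hP : P.OK) (hV : V.OK P) {a b : ℝ} {e : ℕ → ℝ} (hd : Ψ Vd - Ψ V ≤ a)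
    (ht : Ψ Vt - Ψ V ≤ b) (hr : ∀ c ∈ P.I, Ψ (Vr c) - Ψ V ≤ e c) :
    drift P V Vd Vt Vr Ψ ≤ a / 4 + b / 4 + P.h * ∑ c ∈ P.I, V.rt P c * e c := by
  have := mul_le_mul_of_nonneg_left (sum_le_sum fun c hc =>
    mul_le_mul_of_nonneg_left (hr c hc) (hV.rt_nonneg hP c)) hP.h_pos.le
  rw [drift]
  linarith

/-- A version with an additional error `ζ` in each of the events. -/
theorem drift_le_err (hP : P.OK) (hV : V.OK P) {a b ζ : ℝ} {e : ℕ → ℝ} (hζ : 0 ≤ ζ)
    (hd : Ψ Vd - Ψ V ≤ a + ζ) (ht : Ψ Vt - Ψ V ≤ b + ζ)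
    (hr : ∀ c ∈ P.I, Ψ (Vr c) - Ψ V ≤ e c + ζ) :
    drift P V Vd Vt Vr Ψ ≤ a / 4 + b / 4 + P.h * ∑ c ∈ P.I, V.rt P c * e c + ζ := by
  have h1 := drift_le hP hV hd ht hr
  have h2 : ∑ c ∈ P.I, V.rt P c * (e c + ζ) =
      ∑ c ∈ P.I, V.rt P c * e c + (∑ c ∈ P.I, V.rt P c) * ζ := by
    rw [sum_mul, ← sum_add_distrib]
    exact sum_congr rfl fun c _ => by ring
  have h3 := mul_le_mul_of_nonneg_right (hV.sum_rt_le hP) hζ
  rw [h2] at h1
  nlinarith

theorem drift_mono (hP : P.OK) (hV : V.OK P) (hd : Ψ Vd - Ψ V ≤ Ψ' Vd - Ψ' V)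
    (ht : Ψ Vt - Ψ V ≤ Ψ' Vt - Ψ' V) (hr : ∀ c ∈ P.I, Ψ (Vr c) - Ψ V ≤ Ψ' (Vr c) - Ψ' V) :
    drift P V Vd Vt Vr Ψ ≤ drift P V Vd Vt Vr Ψ' := drift_le hP hV hd ht hr

end drift

/-- The total rate at which `i` is killed, lower bound. -/
theorem View.OK.kill_ge (hV : V.OK P) (hP : P.OK) (i : ℕ) :
    1 - P.η ≤ ∑ c ∈ P.I, V.y c * V.J i c * (1 + P.η * V.ac P c) + V.sg P i := by
  have h1 : ∑ c ∈ P.I, V.y c * V.J i c * (1 - P.η) ≤
      ∑ c ∈ P.I, V.y c * V.J i c * (1 + P.η * V.ac P c) := sum_le_sum fun c _ =>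
    mul_le_mul_of_nonneg_left (hV.fac_ge hP c) (mul_nonneg (hV.y_nonneg c) (hV.J_nonneg i c))
  rw [← sum_mul] at h1
  have h2 := V.one_le_B_add_sg (P := P) i
  have h3 := V.sg_nonneg (P := P) i
  rw [View.B] at h2
  nlinarith [hP.η_pos, hP.η_le]

theorem drift_y (hP : P.OK) (st : Step P V Vd Vt Vr) {i : ℕ} (hi : i ∈ P.I) :
    drift P V Vd Vt Vr (fun W => W.y i) ≤ -(P.h * (1 - P.η)) * V.y i + P.ξ := by
  have h1 := drift_le_err (Ψ := fun W => W.y i) (Vd := Vd) (Vt := Vt) (Vr := Vr) hP st.ok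
    (a := -(V.y i * (4 * P.h * V.sg P i))) (b := 0)
    (e := fun c => -(V.y i * (V.J i c / V.bc P c))) hP.ξ_nonneg
    (by have := st.nd.hi i hi; linarith) (by have := st.nt.hi i hi; linarith)
    (fun c hc => by have := (st.nr c hc).hi i hi; linarith)
  have h2 : ∑ c ∈ P.I, V.rt P c * -(V.y i * (V.J i c / V.bc P c)) =
      -(V.y i * ∑ c ∈ P.I, V.y c * V.J i c * (1 + P.η * V.ac P c)) := by
    rw [mul_sum, ← sum_neg_distrib]
    exact sum_congr rfl fun c _ => by rw [← V.rt_mul]; ring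
  rw [h2] at h1
  have h3 := mul_le_mul_of_nonneg_left (st.ok.kill_ge hP i)
    (mul_nonneg hP.h_pos.le (st.ok.y_nonneg i))
  nlinarith

/-- The drift of a weighted sum of the masses. -/
theorem drift_lin (hP : P.OK) (st : Step P V Vd Vt Vr) {w : ℕ → ℝ} {M : ℝ} (hM : 0 ≤ M)
    (hw : ∀ i ∈ P.I, 0 ≤ w i ∧ w i ≤ M) :
    drift P V Vd Vt Vr (fun W => ∑ i ∈ P.I, w i * W.y i) ≤
      -(P.h * (1 - P.η)) * ∑ i ∈ P.I, w i * V.y i + P.n * M * P.ξ := by
  rw [drift_sum P.I fun i W => w i * W.y i]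
  have h1 : ∑ i ∈ P.I, drift P V Vd Vt Vr (fun W => w i * W.y i) ≤
      ∑ i ∈ P.I, (-(P.h * (1 - P.η)) * (w i * V.y i) + M * P.ξ) := sum_le_sum fun i hi => by
    rw [drift_mul (w i) fun W => W.y i]
    have h2 := mul_le_mul_of_nonneg_left (drift_y hP st hi) (hw i hi).1
    have h3 := mul_le_mul_of_nonneg_right (hw i hi).2 hP.ξ_nonneg
    nlinarith
  rw [sum_add_distrib, ← mul_sum, sum_const, nsmul_eq_mul] at h1
  have h4 := mul_le_mul_of_nonneg_right hP.card_le (mul_nonneg hM hP.ξ_nonneg)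
  nlinarith

theorem step_mass (hP : P.OK) (st : Step P V Vd Vt Vr) :
    drift P V Vd Vt Vr (fun W => W.mass P) ≤ -(P.h / 2) * V.mass P + P.n * P.ξ := by
  have h1 := drift_lin hP st (w := fun _ => 1) zero_le_one fun _ _ => ⟨zero_le_one, le_rfl⟩
  simp only [one_mul, mul_one] at h1
  have h2 := mul_nonneg hP.h_pos.le st.ok.mass_nonneg
  simp only [View.mass] at h2 ⊢
  nlinarith [hP.η_le]

/-! ### Clients -/

namespace Client.OK

theorem x_nonneg (hC : C.OK P) (hV : V.OK P) (i : ℕ) : 0 ≤ C.x V i :=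
  mul_nonneg (hC.lam_nonneg i) (hV.y_nonneg i)

theorem x_le_y (hC : C.OK P) (hV : V.OK P) (i : ℕ) : C.x V i ≤ V.y i :=
  mul_le_of_le_one_left (hV.y_nonneg i) (hC.lam_le i)

theorem x_le (hC : C.OK P) (hI : C.Inv P V) (i : ℕ) : C.x V i ≤ C.lam i * C.y0 i :=
  mul_le_mul_of_nonneg_left (hI.1 i) (hC.lam_nonneg i)

theorem x0_nonneg (hC : C.OK P) (i : ℕ) : 0 ≤ C.lam i * C.y0 i :=
  mul_nonneg (hC.lam_nonneg i) (hC.y0_nonneg i)

theorem A_nonneg (hC : C.OK P) (hV : V.OK P) : 0 ≤ C.A P V :=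
  sum_nonneg fun i _ => hC.x_nonneg hV i

theorem A_le_one (hC : C.OK P) (hI : C.Inv P V) : C.A P V ≤ 1 :=
  (sum_le_sum fun i _ => hC.x_le hI i).trans hC.sum_eq.le

theorem G_nonneg (hC : C.OK P) (hP : P.OK) (hV : V.OK P) : 0 ≤ C.G P V :=
  sum_nonneg fun i _ => mul_nonneg (hC.x_nonneg hV i) (hP.d_pos _ _).le

theorem G_le_G0 (hC : C.OK P) (hP : P.OK) (hI : C.Inv P V) : C.G P V ≤ C.G0 P :=
  sum_le_sum fun i _ => mul_le_mul_of_nonneg_right (hC.x_le hI i) (hP.d_pos _ _).le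

theorem G0_nonneg (hC : C.OK P) (hP : P.OK) : 0 ≤ C.G0 P :=
  sum_nonneg fun i _ => mul_nonneg (hC.x0_nonneg i) (hP.d_pos _ _).le

theorem G_le_U (hC : C.OK P) (hP : P.OK) (hV : V.OK P) (hI : C.Inv P V) : C.G P V ≤ P.U := by
  have h1 : C.G P V ≤ ∑ i ∈ P.I, C.x V i * P.U :=
    sum_le_sum fun i _ => mul_le_mul_of_nonneg_left (hP.le_U _ _) (hC.x_nonneg hV i)
  rw [← sum_mul] at h1
  exact h1.trans (mul_le_of_le_one_left hP.U_pos.le (hC.A_le_one hI))

theorem g_le_R (hC : C.OK P) (hP : P.OK) : P.g ≤ C.R := by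
  obtain ⟨i, hi, h⟩ := exists_ne_zero_of_sum_ne_zero (hC.sum_eq.trans_ne one_ne_zero)
  exact (hP.g_le _ _).trans (hC.supp i hi (left_ne_zero_of_mul h))

theorem R_pos (hC : C.OK P) (hP : P.OK) : 0 < C.R := hP.g_pos.trans_le (hC.g_le_R hP)

theorem one_le_ball (hC : C.OK P) : 1 ≤ ∑ c ∈ P.I with P.d C.j c ≤ C.R, C.y0 c := by
  rw [← hC.sum_eq, sum_filter]
  refine sum_le_sum fun c hc => ?_
  split_ifs with h
  · exact mul_le_of_le_one_left (hC.y0_nonneg c) (hC.lam_le c)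
  · have : C.lam c = 0 := by
      by_contra h1
      exact h (hC.supp c hc h1)
    rw [this, zero_mul]

theorem R_le_U (hC : C.OK P) (hP : P.OK) : C.R ≤ P.U :=
  hC.R_le _ (hC.one_le_ball.trans (sum_le_sum_of_subset_of_nonneg
    (fun _ hc => mem_filter.2 ⟨(mem_filter.1 hc).1, hP.le_U _ _⟩) fun c _ _ => hC.y0_nonneg c))

/-- The levels are small as long as the ball of radius `R` is untouched. -/
theorem lev_le (hC : C.OK P) (hP : P.OK) (hV : V.OK P)
    (h : ∀ c ∈ P.I, P.d C.j c ≤ C.R → V.y c = C.y0 c) (i : ℕ) :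
    V.lev i ≤ 3 * C.R + 2 * P.d C.j i := by
  have h1 : 1 ≤ ∑ c ∈ P.I with P.d i c ≤ P.d C.j i + C.R, V.y c := by
    refine hC.one_le_ball.trans ?_
    rw [← sum_congr rfl fun c hc => h c (mem_filter.1 hc).1 (mem_filter.1 hc).2]
    refine sum_le_sum_of_subset_of_nonneg (fun c hc => mem_filter.2 ⟨(mem_filter.1 hc).1, ?_⟩)
      fun c _ _ => hV.y_nonneg c
    have := hP.tri i C.j c
    rw [hP.comm i C.j] at this
    linarith [(mem_filter.1 hc).2]
  have := hV.lev_le i _ h1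
  linarith [hC.g_le_R hP]

theorem inv_next (hC : C.OK P) (hP : P.OK) (hV : V.OK P) (hI : C.Inv P V) {f : ℕ → ℝ}
    (h : Next P V f V') (hf : ∀ c ∈ P.I, f c ≠ 0 → V'.D C.j ≤ P.d C.j c + V.v c) :
    C.Inv P V' := by
  refine ⟨fun i => (h.le i).trans (hI.1 i), ?_⟩
  rcases hI.2 with h1 | h1
  · exact Or.inl ((h.D_le _).trans h1)
  · by_cases h2 : ∃ c ∈ P.I, P.d C.j c ≤ C.R ∧ f c ≠ 0
    · obtain ⟨c, hc, h3, h4⟩ := h2
      have := hC.lev_le hP hV h1 c
      exact Or.inl (by linarith [hf c hc h4, V.v_le_lev c])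
    · refine Or.inr fun c hc h3 => ?_
      rw [h.y_eq hc (by by_contra h4; exact h2 ⟨c, hc, h3, h4⟩), h1 c hc h3]

theorem inv_d (hC : C.OK P) (hP : P.OK) (st : Step P V Vd Vt Vr) (hI : C.Inv P V) :
    C.Inv P Vd := hC.inv_next hP st.ok hI st.nd fun c _ hf => by
  rw [st.ok.v_eq (right_ne_zero_of_mul hf)]
  exact (st.nd.D_le _).trans (st.ok.D_tri _ _)

theorem inv_t (hC : C.OK P) (hP : P.OK) (st : Step P V Vd Vt Vr) (hI : C.Inv P V) :
    C.Inv P Vt := hC.inv_next hP st.ok hI st.nt fun _ _ hf => absurd rfl hf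

theorem inv_r (hC : C.OK P) (hP : P.OK) (st : Step P V Vd Vt Vr) (hI : C.Inv P V) {e : ℕ}
    (he : e ∈ P.I) : C.Inv P (Vr e) := hC.inv_next hP st.ok hI (st.nr e he) fun c _ hf => by
  have h1 : 0 < V.J c e := lt_of_le_of_ne (st.ok.J_nonneg c e) fun h => hf (by
    simp only [← h, zero_div])
  linarith [st.Dr e he C.j, hP.tri C.j c e, st.ok.lt_v h1]

theorem inv_init (V : View) (h : ∀ i, V.y i = C.y0 i) : C.Inv P V :=
  ⟨fun i => (h i).le, Or.inr fun c _ _ => h c⟩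

theorem v_le (hC : C.OK P) (hP : P.OK) (hV : V.OK P) (hI : C.Inv P V) {i : ℕ} (hi : i ∈ P.I)
    (hl : C.lam i ≠ 0) : V.v i ≤ 7 * C.R := by
  have h0 := hC.supp i hi hl
  rcases hI.2 with h | h
  · have := hV.D_tri i C.j
    rw [hP.comm] at this
    linarith [V.v_le_D i]
  · linarith [hC.lev_le hP hV h i, V.v_le_lev i, hC.R_pos hP]

theorem one_sub_A_mul (hC : C.OK P) (hI : C.Inv P V) :
    (1 - C.A P V) * V.D C.j ≤ (1 - C.A P V) * (6 * C.R) := by
  rcases hI.2 with h | h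
  · exact mul_le_mul_of_nonneg_left h (sub_nonneg.2 (hC.A_le_one hI))
  · have : C.A P V = 1 := by
      rw [← hC.sum_eq]
      refine sum_congr rfl fun i hi => ?_
      by_cases h1 : C.lam i = 0
      · simp only [Client.x, h1, zero_mul]
      · rw [Client.x, h i hi (hC.supp i hi h1)]
    rw [this, sub_self, zero_mul, zero_mul]

/-- In the first phase the radius of `i` is not much smaller than `R`. -/
theorem R_le_v (hC : C.OK P) (hP : P.OK) (hV : V.OK P) (hI : C.Inv P V) {i : ℕ}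
    (h : V.v i < V.D i) : C.R ≤ V.v i + P.d C.j i := by
  refine hC.R_le _ ((hV.B_ge i h).trans ?_)
  rw [View.B, sum_filter]
  refine sum_le_sum fun c _ => ?_
  split_ifs with h1
  · exact (mul_le_of_le_one_right (hV.y_nonneg c) (hV.J_le_one i c)).trans (hI.1 c)
  · have : V.J i c = 0 := by
      by_contra h2
      have := hV.lt_v (lt_of_le_of_ne (hV.J_nonneg i c) (Ne.symm h2))
      exact h1 (by linarith [hP.tri C.j i c])
    rw [this, mul_zero]

theorem rho_le' (hC : C.OK P) (hP : P.OK) (hV : V.OK P) (i : ℕ) :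
    V.rho P i ≤ V.v i * (1 + P.δ - C.A P V) + 2 * (C.A P V * P.d C.j i + C.G P V) := by
  have h1 : ∀ c ∈ P.I, V.y c * V.J i c * P.d i c ≤
      V.v i * (V.y c * V.J i c) - V.v i * C.x V c +
        2 * (C.x V c * P.d C.j i + C.x V c * P.d C.j c) := fun c _ => by
    have h2 := hC.x_nonneg hV c
    have h3 := hC.x_le_y hV c
    have h4 : P.d i c ≤ P.d C.j i + P.d C.j c := by
      rw [hP.comm C.j i]
      exact hP.tri _ _ _
    have h5 := hP.d_pos i c
    have h6 := mul_le_mul_of_nonneg_left h4 h2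
    by_cases h7 : V.J i c = 1
    · have h8 := hV.lt_v (h7 ▸ one_pos : 0 < V.J i c)
      rw [h7]
      nlinarith [mul_nonneg (sub_nonneg.2 h3) (sub_nonneg.2 h8.le), mul_nonneg h2 h5.le]
    · have h8 := mul_le_mul_of_nonneg_left (hV.v_lt h7).le h2
      have h9 : V.y c * V.J i c * P.d i c ≤ V.v i * (V.y c * V.J i c) := by
        rcases (hV.J_nonneg i c).eq_or_lt with h | h
        · rw [← h]
          simp
        · rw [mul_comm (V.v i)]
          exact mul_le_mul_of_nonneg_left (hV.lt_v h).le (mul_nonneg (hV.y_nonneg c) h.le)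
      nlinarith
  have h2 := sum_le_sum h1
  rw [sum_add_distrib, sum_sub_distrib, ← mul_sum, ← mul_sum, ← mul_sum, sum_add_distrib,
    ← sum_mul] at h2
  have h3 := mul_le_mul_of_nonneg_left (hV.B_le i) (hV.v_pos i).le
  simp only [View.rho, View.B, Client.A, Client.G] at h3 ⊢
  linarith

theorem rho_le (hC : C.OK P) (hP : P.OK) (hV : V.OK P) (hI : C.Inv P V) {i : ℕ} (hi : i ∈ P.I)
    (hl : C.lam i ≠ 0) : V.rho P i ≤
      7 * C.R * (1 - C.A P V) + 2 * (P.d C.j i + C.G0 P) + P.δ * P.U := by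
  have h1 := hC.rho_le' hP hV i
  have h2 := mul_le_mul_of_nonneg_right (hC.v_le hP hV hI hi hl) (sub_nonneg.2 (hC.A_le_one hI))
  have h3 := mul_le_mul_of_nonneg_left (hV.v_le_U i) hP.δ_nonneg
  have h4 := mul_le_of_le_one_left (hP.d_pos C.j i).le (hC.A_le_one hI)
  have h5 := hC.G_le_G0 hP hI
  nlinarith

theorem x_lo (hC : C.OK P) {f : ℕ → ℝ} (h : Next P V f V') {i : ℕ} (hi : i ∈ P.I) :
    C.x V i * (1 - f i) ≤ C.x V' i := by
  rw [Client.x, mul_assoc]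
  exact mul_le_mul_of_nonneg_left (h.lo i hi) (hC.lam_nonneg i)

theorem x_hi (hC : C.OK P) (hP : P.OK) {f : ℕ → ℝ} (h : Next P V f V') {i : ℕ} (hi : i ∈ P.I) :
    C.x V' i ≤ C.x V i * (1 - f i) + P.ξ := by
  have h1 := mul_le_mul_of_nonneg_left (h.hi i hi) (hC.lam_nonneg i)
  have h2 := mul_le_of_le_one_left hP.ξ_nonneg (hC.lam_le i)
  simp only [Client.x]
  nlinarith

theorem A_lo (hC : C.OK P) {f : ℕ → ℝ} (h : Next P V f V') :
    C.A P V - ∑ i ∈ P.I, C.x V i * f i ≤ C.A P V' := by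
  rw [Client.A, ← sum_sub_distrib]
  exact sum_le_sum fun i hi => by linarith [hC.x_lo h hi]

theorem A_hi (hC : C.OK P) (hP : P.OK) {f : ℕ → ℝ} (h : Next P V f V') :
    C.A P V' ≤ C.A P V - ∑ i ∈ P.I, C.x V i * f i + P.n * P.ξ := by
  have h1 : C.A P V' ≤ ∑ i ∈ P.I, (C.x V i - C.x V i * f i + P.ξ) :=
    sum_le_sum fun i hi => by linarith [hC.x_hi hP h hi]
  rw [sum_add_distrib, sum_sub_distrib, sum_const, nsmul_eq_mul] at h1
  have h2 := mul_le_mul_of_nonneg_right hP.card_le hP.ξ_nonneg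
  simp only [Client.A] at h1 ⊢
  linarith

theorem A_le (hC : C.OK P) {f : ℕ → ℝ} (h : Next P V f V') : C.A P V' ≤ C.A P V :=
  sum_le_sum fun i _ => mul_le_mul_of_nonneg_left (h.le i) (hC.lam_nonneg i)

theorem step_G (hC : C.OK P) (hP : P.OK) (st : Step P V Vd Vt Vr) :
    drift P V Vd Vt Vr (C.G P) ≤ -(P.h * (1 - P.η)) * C.G P V + P.n * P.U * P.ξ := by
  have e : C.G P = fun W => ∑ i ∈ P.I, C.lam i * P.d C.j i * W.y i :=
    funext fun W => sum_congr rfl fun i _ => by rw [Client.x]; ring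
  rw [e]
  exact drift_lin hP st hP.U_pos.le fun i _ => ⟨mul_nonneg (hC.lam_nonneg i) (hP.d_pos _ _).le,
    (mul_le_of_le_one_left (hP.d_pos _ _).le (hC.lam_le i)).trans (hP.le_U _ _)⟩

theorem Q_nonneg (hC : C.OK P) (hP : P.OK) (hV : V.OK P) : 0 ≤ C.Q P V :=
  sum_nonneg fun i _ => mul_nonneg (hC.x0_nonneg i) (hV.rho_nonneg hP i)

theorem H_nonneg (hC : C.OK P) (hV : V.OK P) (hI : C.Inv P V) : 0 ≤ C.H P V :=
  mul_nonneg (mul_nonneg (hC.A_nonneg hV) (sub_nonneg.2 (hC.A_le_one hI))) (hV.D_pos _).le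

/-- The mass which is slowed down. -/
theorem slow_le (hC : C.OK P) (hP : P.OK) (hV : V.OK P) (hI : C.Inv P V) :
    ∑ c ∈ P.I, C.x V c * max 0 (-V.ac P c) ≤ 1 ∧
    (∑ c ∈ P.I, C.x V c * max 0 (-V.ac P c)) * ((1 - C.A P V) * V.D C.j) ≤
      (1 - C.A P V) * C.H P V + 30 * C.G P V := by
  have hA := hC.A_le_one hI
  have hA0 := hC.A_nonneg hV
  have hG := hC.G_nonneg hP hV
  have hb : 0 ≤ (1 - C.A P V) * V.D C.j := mul_nonneg (sub_nonneg.2 hA) (hV.D_pos _).le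
  constructor
  · refine le_trans (sum_le_sum fun c _ => mul_le_of_le_one_right (hC.x_nonneg hV c) ?_) hA
    exact max_le zero_le_one (by linarith [hV.ac_ge c])
  have h1 : ∀ c, max 0 (-V.ac P c) ≤ 1 - C.A P V + ∑ i ∈ P.I, C.x V i * (1 - V.J i c) := by
    intro c
    have h2 : ∑ i ∈ P.I, C.x V i * (1 - V.J i c) = C.A P V - ∑ i ∈ P.I, C.x V i * V.J i c := by
      rw [Client.A, ← sum_sub_distrib]
      exact sum_congr rfl fun i _ => by ring
    have h3 : ∑ i ∈ P.I, C.x V i * V.J i c ≤ V.kc P c := sum_le_sum fun i _ =>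
      mul_le_mul_of_nonneg_right (hC.x_le_y hV i) (hV.J_nonneg i c)
    have h4 : ∑ i ∈ P.I, C.x V i * V.J i c ≤ C.A P V := sum_le_sum fun i _ =>
      mul_le_of_le_one_right (hC.x_nonneg hV i) (hV.J_le_one i c)
    rw [h2, View.ac, min_def]
    split_ifs
    · exact max_le (by linarith) (by linarith)
    · exact max_le (by linarith) (by linarith)
  have h2 : ∀ c ∈ P.I, ∀ i ∈ P.I, C.x V i * (1 - V.J i c) * ((1 - C.A P V) * V.D C.j) ≤
      18 * (C.x V i * P.d C.j i) + C.x V i * (12 * P.d C.j c) := by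
    intro c _ i _
    have h3 := hC.x_nonneg hV i
    have h4 := hP.d_pos C.j i
    have h5 := hP.d_pos C.j c
    by_cases h6 : V.J i c = 1
    · rw [h6, sub_self, mul_zero, zero_mul]
      positivity
    · have h7 := hV.v_lt h6
      have h8 : P.d i c ≤ P.d C.j i + P.d C.j c := by
        rw [hP.comm C.j i]
        exact hP.tri _ _ _
      have h9 : (1 - C.A P V) * V.D C.j ≤ 18 * P.d C.j i + 12 * P.d C.j c := by
        rcases (V.v_le_D i).eq_or_lt with h | h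
        · have := hV.D_tri C.j i
          have := mul_le_of_le_one_left (hV.D_pos C.j).le (by linarith : 1 - C.A P V ≤ 1)
          linarith
        · have := hC.R_le_v hP hV hI h
          have := hC.one_sub_A_mul hI
          have := mul_le_of_le_one_left (by linarith [hC.R_pos hP] : 0 ≤ 6 * C.R)
            (by linarith : 1 - C.A P V ≤ 1)
          linarith
      have h10 : C.x V i * (1 - V.J i c) ≤ C.x V i :=
        mul_le_of_le_one_right h3 (by linarith [hV.J_nonneg i c])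
      have := mul_le_mul h10 h9 hb h3
      linarith
  have h3 : ∀ c ∈ P.I, C.x V c * max 0 (-V.ac P c) * ((1 - C.A P V) * V.D C.j) ≤
      C.x V c * ((1 - C.A P V) * ((1 - C.A P V) * V.D C.j) + 18 * C.G P V) +
        12 * (C.x V c * P.d C.j c) := by
    intro c hc
    have h4 := sum_le_sum (h2 c hc)
    rw [← sum_mul, sum_add_distrib, ← mul_sum, ← sum_mul] at h4
    have h5 := mul_le_mul_of_nonneg_right (h1 c) hb
    have h6 := mul_le_of_le_one_left (by linarith [hP.d_pos C.j c] : 0 ≤ 12 * P.d C.j c) hA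
    have h7 : max 0 (-V.ac P c) * ((1 - C.A P V) * V.D C.j) ≤
        (1 - C.A P V) * ((1 - C.A P V) * V.D C.j) + 18 * C.G P V + 12 * P.d C.j c := by
      simp only [Client.A, Client.G] at h4 h5 h6 ⊢
      linarith
    have := mul_le_mul_of_nonneg_left h7 (hC.x_nonneg hV c)
    linarith
  have h4 := sum_le_sum h3
  rw [← sum_mul, sum_add_distrib, ← sum_mul, ← mul_sum] at h4
  have h5 := mul_le_of_le_one_left hG hA
  simp only [Client.H]
  change _ ≤ C.A P V * _ + 12 * C.G P V at h4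
  nlinarith

end Client.OK

end Vale.Agent.P334.Proc
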