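import Vale.Agent.P334.Alg
import Vale.Agent.P334.ProcBasic
import Mathlib.Algebra.Order.Floor.Semifield

/-!
The integer algorithm is an instance of the abstract process.
-/

namespace Vale.Agent.P334

open Vale.Agent.Lib.PolyTime Finset Proc

namespace Alg

theorem ker_zero {K d v : ℝ} (hK : 0 ≤ K) (hv : 0 ≤ v) (h : v ≤ d) : ker K d v = 0 :=
  max_eq_left ((min_le_right _ _).trans
    (div_nonpos_of_nonpos_of_nonneg (mul_nonpos_of_nonneg_of_nonpos hK (by linarith)) hv))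

theorem ker_mono {K K' d v v' : ℝ} (hK' : 0 ≤ K') (hK : K' ≤ K) (hv' : 0 ≤ v') (hv : v' ≤ v)
    (hd : 0 ≤ d) : ker K' d v' ≤ ker K d v := by
  rcases le_or_gt v' d with h | h
  · rw [ker_zero hK' hv' h]
    exact ker_nonneg _ _ _
  have h0 : 0 < v' := hd.trans_lt h
  have h1 : (v' - d) / v' ≤ (v - d) / v := by
    rw [div_le_div_iff₀ h0 (h0.trans_le hv)]
    nlinarith
  have h2 : K' * (v' - d) / v' ≤ K * (v - d) / v + 0 := by
    rw [add_zero, mul_div_assoc, mul_div_assoc]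
    exact mul_le_mul hK h1 (div_nonneg (by linarith) hv') (hK'.trans hK)
  simpa [ker] using clip_le le_rfl h2

theorem ker_incr {K d v g M : ℝ} (hK0 : 0 ≤ K) (hK : K ≤ 4) (hM : 2 ≤ M) (hg : 0 < g)
    (hd : M * g ≤ d) (hv : 0 ≤ v) : ker K d (v + g) ≤ ker K d v + 8 / M := by
  rcases le_or_gt (v + g) d with h | h
  · rw [ker_zero hK0 (by linarith) h]
    exact add_nonneg (ker_nonneg _ _ _) (by positivity)
  have h0 : M * g ≤ 2 * v := by nlinarith
  have h1 : 0 < v := by nlinarith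
  refine clip_le (by positivity) ?_
  have h2 : (v + g - d) / (v + g) ≤ (v - d) / v + g / v := by
    rw [← add_div, div_le_div_iff₀ (by linarith) h1]
    nlinarith
  have h3 : g / v ≤ 2 / M := by
    rw [div_le_div_iff₀ h1 (by linarith)]
    linarith
  have h4 : K * (g / v) ≤ 4 * (2 / M) := mul_le_mul hK h3 (by positivity) (by norm_num)
  rw [mul_div_assoc, mul_div_assoc]
  have h5 := mul_le_mul_of_nonneg_left h2 hK0
  rw [mul_add] at h5
  rw [show 8 / M = 4 * (2 / M) by ring]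
  linarith

theorem jk_eq (N κ r v : ℕ) {m : ℕ} (hm : 0 < m) :
    jk N m κ r v = ⌊(N : ℝ) * ker (κ / m) r v⌋₊ := by
  rcases le_or_gt v r with h | h
  · rw [ker_zero (by positivity) (by positivity) (by exact_mod_cast h), jk,
      Nat.sub_eq_zero_of_le h]
    simp
  have h0 : (0 : ℝ) < v := by exact_mod_cast (Nat.zero_le r).trans_lt h
  have h1 : (r : ℝ) ≤ v := by exact_mod_cast h.le
  have h2 : (0 : ℝ) ≤ κ / m * (v - r) / v :=
    div_nonneg (mul_nonneg (by positivity) (by linarith)) h0.le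
  rw [ker, max_eq_right (le_min zero_le_one h2), mul_min_of_nonneg _ _ (Nat.cast_nonneg N),
    Nat.floor_mono.map_min, mul_one, Nat.floor_natCast, jk, ← Nat.floor_div_eq_div (K := ℝ)]
  congr 2
  push_cast [Nat.cast_sub h.le]
  field_simp

theorem jk_le (N κ r v : ℕ) {m : ℕ} (hm : 0 < m) :
    (jk N m κ r v : ℝ) ≤ N * ker (κ / m) r v := by
  rw [jk_eq N κ r v hm]
  exact Nat.floor_le (mul_nonneg (Nat.cast_nonneg N) (ker_nonneg _ _ _))

theorem le_jk (N κ r v : ℕ) {m : ℕ} (hm : 0 < m) :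
    N * ker (κ / m) r v ≤ (jk N m κ r v : ℝ) + 1 := by
  rw [jk_eq N κ r v hm]
  exact (Nat.lt_floor_add_one _).le

theorem jk_mono (N r : ℕ) {κ κ' v v' m : ℕ} (hm : 0 < m) (hκ : κ' ≤ κ) (hv : v' ≤ v) :
    jk N m κ' r v' ≤ jk N m κ r v := by
  rw [jk_eq _ _ _ _ hm, jk_eq _ _ _ _ hm]
  refine Nat.floor_mono (mul_le_mul_of_nonneg_left (ker_mono (by positivity) ?_ (by positivity)
    (by exact_mod_cast hv) (by positivity)) (Nat.cast_nonneg N))
  exact div_le_div_of_nonneg_right (by exact_mod_cast hκ) (by positivity)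

theorem jk_one (N : ℕ) {κ r v m : ℕ} (hm : 0 < m) (hκ : 2 * m ≤ κ) (hv : 0 < v) (h : 2 * r ≤ v) :
    jk N m κ r v = N := by
  rw [jk_eq _ _ _ _ hm, ker_eq_one ?_ (by exact_mod_cast hv) (by exact_mod_cast h), mul_one,
    Nat.floor_natCast]
  rw [le_div_iff₀ (by exact_mod_cast hm)]
  exact_mod_cast hκ

theorem sub_div_spec (Y a : ℕ) {b N : ℕ} (hb : 0 < b) (hN : 0 < N) {f : ℝ}
    (hf : f = a / b) (h1 : f ≤ 1) : (Y : ℝ) / N * (1 - f) ≤ (Y - Y * a / b : ℕ) / N ∧
      ((Y - Y * a / b : ℕ) : ℝ) / N ≤ Y / N * (1 - f) + 1 / N := by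
  have hb' : (0 : ℝ) < b := by exact_mod_cast hb
  have hN' : (0 : ℝ) < N := by exact_mod_cast hN
  have h2 : a ≤ b := by
    rw [hf, div_le_one hb'] at h1
    exact_mod_cast h1
  have h3 : Y * a / b ≤ Y := Nat.div_le_of_le_mul (by
    rw [mul_comm b]
    exact Nat.mul_le_mul_left _ h2)
  have h4 : ((Y * a / b : ℕ) : ℝ) ≤ Y * f := by
    rw [hf, ← mul_div_assoc]
    exact_mod_cast Nat.cast_div_le
  have h5 : (Y : ℝ) * f ≤ (Y * a / b : ℕ) + 1 := by
    rw [hf, ← mul_div_assoc, ← Nat.floor_div_eq_div (K := ℝ), Nat.cast_mul]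
    exact (Nat.lt_floor_add_one _).le
  rw [Nat.cast_sub h3, div_mul_eq_mul_div, ← add_div]
  exact ⟨div_le_div_of_nonneg_right (by linarith) hN'.le,
    div_le_div_of_nonneg_right (by linarith) hN'.le⟩

namespace Cfg

variable (c : Cfg)

/-- The parameters of the abstract process. -/
noncomputable def par (n δ ε : ℝ) : Par where
  I := c.F.toFinset
  d := fun a b => c.dd a b
  g := c.u
  U := c.M * (c.W + 1) * c.u
  n := n
  η := 1 / c.E
  L := c.L
  h := c.N ^ 5 * c.L * c.E / (4 * c.q)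
  δ := δ
  ξ := 1 / c.N
  ε := ε
  T := c.T

/-- The view of a state. -/
noncomputable def view (s : St) : View where
  y := fun i => s.1.getD i 0 / c.N
  D := fun a => (c.M * (c.W * dl (dm c.D) a s.2.1 + c.u) : ℕ)
  lev := fun i => (c.u * c.lv s.1 (c.slope s.2.2) i : ℕ)
  J := fun i e => c.jj s i e / c.N
  K := c.slope s.2.2 / c.m
  θ := s.2.2 / c.q
  cnt := s.2.1.length

/-- Conditions on the static data. -/
structure OK (tb : ℕ → ℕ) (n δ ε : ℝ) : Prop where
  pm : PM (dm c.D)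
  nodup : c.F.Nodup
  F_lt : ∀ i ∈ c.F, i < c.D.length
  le_u : ∀ a b, dm c.D a b ≤ c.u
  u_pos : 0 < c.u
  N_pos : 0 < c.N
  two_le_M : 2 ≤ c.M
  Ms_eq : c.Ms = c.M
  L_pos : 0 < c.L
  E_pos : 0 < c.E
  m_pos : 0 < c.m
  q_pos : 0 < c.q
  Λ_le : c.F.length * c.Λ ≤ 2 * c.q
  le_Λ : 2 * n ^ 2 * (c.N ^ 5 * c.L * c.E) ≤ c.Λ
  tab_eq : c.tab = (List.range (c.T * c.m + 1)).map tb
  anti : Antitone tb
  tb_mem : ∀ s, 2 * c.m ≤ tb s ∧ tb s ≤ 4 * c.m
  tb_spec : ∀ θ : ℝ, 0 ≤ θ → (tb ⌊θ * c.m⌋₊ : ℝ) / c.m ≤ 2 / pf (Real.exp (-θ)) ∧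
    2 / pf (Real.exp (-θ)) - ε ≤ (tb ⌊θ * c.m⌋₊ : ℝ) / c.m
  δ_ge : n * (8 / c.M + 1 / c.N) ≤ δ
  pok : (c.par n δ ε).OK

/-- Conditions on states. -/
structure SOK (n : ℝ) (s : St) : Prop where
  ne : s.2.1 ≠ []
  sub : ∀ e ∈ s.2.1, e ∈ c.F
  th_le : s.2.2 ≤ c.T * c.q
  mass : (c.view s).mass (c.par n 0 0) ≤ n

variable {c} {tb : ℕ → ℕ} {n δ ε : ℝ} (hc : c.OK tb n δ ε)

include hc

theorem OK.slope_eq {th : ℕ} (h : th ≤ c.T * c.q) : c.slope th = tb (th * c.m / c.q) := by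
  rw [slope, hc.tab_eq]
  refine LP.getD_map_range _ _ (Nat.lt_succ_of_le (Nat.div_le_of_le_mul ?_))
  calc th * c.m ≤ c.T * c.q * c.m := Nat.mul_le_mul_right _ h
    _ = _ := by ring

theorem OK.sum_eq (f : ℕ → ℕ) : ((c.F.map f).sum : ℝ) = ∑ i ∈ c.F.toFinset, (f i : ℝ) := by
  rw [← List.sum_toFinset _ hc.nodup, Nat.cast_sum]

theorem OK.bud_mono {Y Y' : List ℕ} (hY : ∀ i, Y'.getD i 0 ≤ Y.getD i 0) {κ κ' v v' : ℕ}
    (hκ : κ' ≤ κ) (hv : v' ≤ v) (i : ℕ) : c.bud Y' κ' i v' ≤ c.bud Y κ i v :=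
  List.sum_le_sum fun e _ => Nat.mul_le_mul (hY e) (jk_mono _ _ hc.m_pos hκ hv)

omit hc in
theorem lv_le_smax (Y : List ℕ) (κ i : ℕ) : c.lv Y κ i ≤ c.smax := amin_le_init (fun s => s) _ _

omit hc in
theorem lv_le {Y : List ℕ} {κ i s : ℕ} (h : c.N ^ 2 ≤ c.bud Y κ i (c.u * s)) :
    c.lv Y κ i ≤ s := by
  rcases le_or_gt c.smax s with h1 | h1
  · exact (lv_le_smax Y κ i).trans h1
  · exact amin_le (fun s => s) _ (List.mem_filter.2 ⟨List.mem_range.2 h1, by simpa using h⟩)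

omit hc in
theorem lv_spec {Y : List ℕ} {κ i : ℕ} (h : c.lv Y κ i < c.smax) :
    c.N ^ 2 ≤ c.bud Y κ i (c.u * c.lv Y κ i) := by
  rcases amin_mem (fun s => s) c.smax ((List.range c.smax).filter fun s =>
    c.N ^ 2 ≤ c.bud Y κ i (c.u * s)) with h1 | h1
  · exact absurd h1 h.ne
  · simpa [lv] using (List.mem_filter.1 h1).2

theorem OK.lv_pos (Y : List ℕ) (κ i : ℕ) : 0 < c.lv Y κ i := by
  by_contra h
  have h0 : c.lv Y κ i = 0 := by omega
  have h1 : c.lv Y κ i < c.smax := by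
    rw [h0, smax]
    have := hc.two_le_M
    positivity
  have h2 := lv_spec h1
  have := hc.N_pos
  simp [h0, bud, jk] at h2
  omega

theorem OK.lv_mono {Y Y' : List ℕ} (hY : ∀ i, Y'.getD i 0 ≤ Y.getD i 0) {κ κ' : ℕ}
    (hκ : κ' ≤ κ) (i : ℕ) : c.lv Y κ i ≤ c.lv Y' κ' i := by
  rcases (lv_le_smax (c := c) Y' κ' i).eq_or_lt with h | h
  · exact h ▸ lv_le_smax Y κ i
  · exact lv_le ((lv_spec h).trans (hc.bud_mono hY hκ le_rfl i))

theorem OK.v_eq (s : St) (i : ℕ) : (c.view s).v i = c.rad s i := by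
  simp only [View.v, view, rad, hc.Ms_eq, Nat.cast_min]

theorem OK.rad_pos (s : St) (i : ℕ) : 0 < c.rad s i := by
  have := hc.two_le_M
  have := hc.u_pos
  have := hc.lv_pos s.1 (c.slope s.2.2) i
  rw [rad, hc.Ms_eq]
  exact lt_min (by positivity) (by positivity)

theorem OK.B_eq (s : St) (i : ℕ) : (c.view s).B (c.par n δ ε) i =
    c.bud s.1 (c.slope s.2.2) i (c.rad s i) / c.N ^ 2 := by
  rw [bud, hc.sum_eq, sum_div]
  refine sum_congr rfl fun e _ => ?_
  simp only [view, jj]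
  push_cast
  ring

theorem OK.kc_eq (s : St) (e : ℕ) : (c.view s).kc (c.par n δ ε) e = c.kc s e / c.N ^ 2 := by
  rw [kc, hc.sum_eq, sum_div]
  refine sum_congr rfl fun i _ => ?_
  simp only [view]
  push_cast
  ring

theorem OK.bc_eq (s : St) (e : ℕ) :
    (c.view s).bc (c.par n δ ε) e = c.cap s e / (c.L * c.N ^ 2) := by
  have h1 : (0 : ℝ) < c.L := by exact_mod_cast hc.L_pos
  have h2 : (0 : ℝ) < c.N := by exact_mod_cast hc.N_pos
  rw [View.bc, hc.kc_eq, cap, Nat.cast_max, ← max_div_div_right (by positivity)]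
  congr 1
  · push_cast
    field_simp
  · simp only [par]
    field_simp

theorem OK.wt_eq (s : St) (e : ℕ) :
    (c.wt s e : ℝ) = c.N ^ 5 * c.L * c.E * (c.view s).rt (c.par n δ ε) e := by
  have h1 : (0 : ℝ) < c.L := by exact_mod_cast hc.L_pos
  have h2 : (0 : ℝ) < c.N := by exact_mod_cast hc.N_pos
  have h3 : (0 : ℝ) < c.E := by exact_mod_cast hc.E_pos
  have h4 : (c.view s).ac (c.par n δ ε) e =
      (min (2 * c.N ^ 2) (c.kc s e) : ℕ) / c.N ^ 2 - 1 := by
    rw [View.ac, hc.kc_eq, Nat.cast_min, ← min_div_div_right (by positivity),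
      ← min_sub_sub_right]
    congr 1
    push_cast
    field_simp
    norm_num
  rw [View.rt, hc.bc_eq, h4, wt]
  simp only [view, par]
  push_cast [Nat.cast_sub hc.E_pos]
  field_simp
  ring

omit hc in
theorem dd_ge (a b : ℕ) : c.M * c.u ≤ c.dd a b := Nat.mul_le_mul_left _ (Nat.le_add_left _ _)

theorem OK.bud_le {s : St} (hs : c.SOK n s) (i : ℕ) :
    (c.bud s.1 (c.slope s.2.2) i (c.rad s i) : ℝ) ≤ c.N ^ 2 * (1 + δ) := by
  have hN : (0 : ℝ) < c.N := by exact_mod_cast hc.N_pos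
  obtain ⟨t, ht⟩ : ∃ t, c.lv s.1 (c.slope s.2.2) i = t + 1 :=
    ⟨_, (Nat.succ_pred_eq_of_pos (hc.lv_pos _ _ _)).symm⟩
  have h1 : c.bud s.1 (c.slope s.2.2) i (c.u * t) ≤ c.N ^ 2 := by
    by_contra h
    have := lv_le (not_le.1 h).le
    omega
  have h2 : c.bud s.1 (c.slope s.2.2) i (c.rad s i) ≤
      c.bud s.1 (c.slope s.2.2) i (c.u * (t + 1)) :=
    hc.bud_mono (fun _ => le_rfl) le_rfl (ht ▸ min_le_right _ _) i
  have h3 : (c.bud s.1 (c.slope s.2.2) i (c.u * (t + 1)) : ℝ) ≤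
      c.bud s.1 (c.slope s.2.2) i (c.u * t) +
        (∑ e ∈ c.F.toFinset, (s.1.getD e 0 : ℝ) / c.N) * (c.N ^ 2 * (8 / c.M + 1 / c.N)) := by
    rw [bud, bud, hc.sum_eq, hc.sum_eq, sum_mul, ← sum_add_distrib]
    refine sum_le_sum fun e _ => ?_
    have h4 := jk_le c.N (c.slope s.2.2) (c.dd i e) (c.u * (t + 1)) hc.m_pos
    have h5 := le_jk c.N (c.slope s.2.2) (c.dd i e) (c.u * t) hc.m_pos
    have h6 := ker_incr (K := c.slope s.2.2 / c.m) (d := c.dd i e) (v := (c.u * t : ℕ))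
      (g := c.u) (M := c.M) (by positivity) (by
        rw [div_le_iff₀ (by exact_mod_cast hc.m_pos), hc.slope_eq hs.th_le]
        exact_mod_cast (hc.tb_mem _).2) (by exact_mod_cast hc.two_le_M)
      (by exact_mod_cast hc.u_pos) (by exact_mod_cast dd_ge (c := c) i e) (by positivity)
    rw [← Nat.cast_add, ← Nat.mul_succ] at h6
    have h7 := mul_le_mul_of_nonneg_left h6 hN.le
    have h8 : (jk c.N c.m (c.slope s.2.2) (c.dd i e) (c.u * (t + 1)) : ℝ) ≤
        jk c.N c.m (c.slope s.2.2) (c.dd i e) (c.u * t) + (c.N * (8 / c.M) + 1) := by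
      simp only [Nat.succ_eq_add_one] at h7
      linarith
    have h9 := mul_le_mul_of_nonneg_left h8 (Nat.cast_nonneg (α := ℝ) (s.1.getD e 0))
    push_cast
    refine h9.trans (le_of_eq ?_)
    field_simp
  have h4 : (∑ e ∈ c.F.toFinset, (s.1.getD e 0 : ℝ) / c.N) * (c.N ^ 2 * (8 / c.M + 1 / c.N)) ≤
      n * (c.N ^ 2 * (8 / c.M + 1 / c.N)) := mul_le_mul_of_nonneg_right hs.mass (by positivity)
  have h5 := mul_le_mul_of_nonneg_left hc.δ_ge (show (0 : ℝ) ≤ c.N ^ 2 by positivity)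
  have h6 : (c.bud s.1 (c.slope s.2.2) i (c.rad s i) : ℝ) ≤
      c.bud s.1 (c.slope s.2.2) i (c.u * (t + 1)) := by exact_mod_cast h2
  have h7 : (c.bud s.1 (c.slope s.2.2) i (c.u * t) : ℝ) ≤ c.N ^ 2 := by exact_mod_cast h1
  nlinarith

theorem OK.view_ok {s : St} (hs : c.SOK n s) : (c.view s).OK (c.par n δ ε) := by
  have hN : (0 : ℝ) < c.N := by exact_mod_cast hc.N_pos
  have hm : (0 : ℝ) < c.m := by exact_mod_cast hc.m_pos
  have hq : (0 : ℝ) < c.q := by exact_mod_cast hc.q_pos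
  have hM := hc.two_le_M
  have hu := hc.u_pos
  have hκ := hc.tb_mem (s.2.2 * c.m / c.q)
  rw [← hc.slope_eq hs.th_le] at hκ
  have hθ : ⌊(s.2.2 : ℝ) / c.q * c.m⌋₊ = s.2.2 * c.m / c.q := by
    rw [← Nat.floor_div_eq_div (K := ℝ)]
    congr 1
    push_cast
    ring
  have hK := hc.tb_spec ((s.2.2 : ℝ) / c.q) (by positivity)
  rw [hθ, ← hc.slope_eq hs.th_le] at hK
  have hD : ∀ a, c.M * (c.W * dl (dm c.D) a s.2.1 + c.u) ≤ c.u * c.smax := fun a => by
    have := Nat.mul_le_mul_left c.W (hc.le_u a (near (dm c.D) a s.2.1))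
    calc _ ≤ c.M * (c.W * c.u + c.u) := Nat.mul_le_mul_left _ (Nat.add_le_add_right this _)
      _ = _ := by rw [smax]; ring
  have hδ : 1 / (c.N : ℝ) ≤ δ := by
    have h1 : (1 : ℝ) ≤ n := hc.pok.one_le_n
    have h2 := hc.δ_ge
    have h3 : (0 : ℝ) ≤ 8 / c.M := by positivity
    have h4 : (0 : ℝ) ≤ 1 / c.N := by positivity
    nlinarith
  refine ⟨fun i => by simp only [view]; positivity, hs.mass, fun a b => ?_, fun a => ?_,
    fun a => ?_, fun i => ?_, ?_, ?_, by simp only [view]; positivity, ?_, hK.1, hK.2,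
    fun i e => by simp only [view]; positivity, fun i e => ?_, fun i e => ?_, fun i e h => ?_,
    fun i h => ?_, fun i => ?_, fun i w h => ?_⟩
  · have h1 := Nat.mul_le_mul_left c.W (dl_tri hc.pm a b hs.ne)
    have h2 : c.M * (c.W * dl (dm c.D) a s.2.1 + c.u) ≤
        c.dd a b + c.M * (c.W * dl (dm c.D) b s.2.1 + c.u) := by
      rw [dd, ← mul_add]
      refine Nat.mul_le_mul_left _ ?_
      rw [mul_add] at h1
      omega
    simp only [view, par]
    exact_mod_cast h2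
  · simp only [view]
    positivity
  · simp only [view, par]
    refine (Nat.cast_le.2 (hD a)).trans (le_of_eq ?_)
    rw [smax]
    push_cast
    ring
  · have := hc.lv_pos s.1 (c.slope s.2.2) i
    simp only [view]
    positivity
  · simp only [view]
    rw [le_div_iff₀ hm]
    exact_mod_cast hκ.1
  · simp only [view]
    rw [div_le_iff₀ hm]
    exact_mod_cast hκ.2
  · simp only [view, par]
    rw [div_le_iff₀ hq]
    exact_mod_cast hs.th_le
  · rw [hc.v_eq]
    simp only [view, par]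
    rw [div_le_iff₀' hN]
    exact jk_le _ _ _ _ hc.m_pos
  · rw [hc.v_eq]
    simp only [view, par]
    have := le_jk c.N (c.slope s.2.2) (c.dd i e) (c.rad s i) hc.m_pos
    rw [← le_div_iff₀' hN, add_div] at this
    rw [jj]
    linarith
  · rw [hc.v_eq] at h
    simp only [view, par] at h ⊢
    rw [jj, jk_one _ hc.m_pos hκ.1 (hc.rad_pos s i) (by exact_mod_cast h), div_self hN.ne']
  · rw [hc.v_eq] at h
    simp only [view] at h
    have h1 : c.rad s i < c.M * (c.W * dl (dm c.D) i s.2.1 + c.u) := by exact_mod_cast h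
    have h2 : c.rad s i = c.u * c.lv s.1 (c.slope s.2.2) i := by
      rw [rad, hc.Ms_eq] at h1 ⊢
      exact min_eq_right (by omega)
    have h3 := lv_spec (Nat.lt_of_mul_lt_mul_left (h2 ▸ h1.trans_le (hD i)))
    rw [hc.B_eq, one_le_div (by positivity), h2]
    exact_mod_cast h3
  · rw [hc.B_eq, div_le_iff₀' (by positivity)]
    exact hc.bud_le hs i
  · simp only [view, par]
    change 1 ≤ ∑ e ∈ c.F.toFinset with (c.dd i e : ℝ) ≤ w, (s.1.getD e 0 : ℝ) / c.N at h
    have hu' : (0 : ℝ) < c.u := by exact_mod_cast hu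
    have hw : 0 < w := by
      obtain ⟨e, he, -⟩ := exists_ne_zero_of_sum_ne_zero (one_pos.trans_le h).ne'
      have h1 : (0 : ℝ) < c.dd i e := by
        exact_mod_cast (show 0 < c.M * c.u by positivity).trans_le (dd_ge (c := c) i e)
      exact h1.trans_le (mem_filter.1 he).2
    have h1 : 2 * w ≤ (c.u * ⌈2 * w / c.u⌉₊ : ℕ) := by
      push_cast
      rw [← div_le_iff₀' hu']
      exact Nat.le_ceil _
    have h2 : c.lv s.1 (c.slope s.2.2) i ≤ ⌈2 * w / c.u⌉₊ := by
      refine lv_le (Nat.cast_le (α := ℝ).1 ?_)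
      rw [bud, hc.sum_eq]
      have h3 := mul_le_mul_of_nonneg_right h (show (0 : ℝ) ≤ c.N ^ 2 by positivity)
      rw [one_mul, sum_mul, sum_filter] at h3
      push_cast
      refine h3.trans (sum_le_sum fun e _ => ?_)
      split_ifs with h4
      · rw [jk_one _ hc.m_pos hκ.1 (by exact_mod_cast (show (0 : ℝ) < 2 * w by positivity).trans_le h1)
          (Nat.cast_le (α := ℝ).1 (le_trans (by push_cast; linarith) h1))]
        refine le_of_eq ?_
        field_simp
      · positivity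
    have h3 := (Nat.ceil_lt_add_one (show 0 ≤ 2 * w / c.u by positivity)).le
    have h4 : (c.lv s.1 (c.slope s.2.2) i : ℝ) ≤ 2 * w / c.u + 1 :=
      le_trans (by exact_mod_cast h2) h3
    have h5 := mul_le_mul_of_nonneg_left h4 hu'.le
    push_cast
    refine h5.trans (le_of_eq ?_)
    field_simp

theorem OK.next {s s' : St} {f : ℕ → ℝ} (hs : c.SOK n s) (hs' : s'.2.2 ≤ c.T * c.q)
    (h1 : ∀ i ∈ c.F, (s.1.getD i 0 : ℝ) / c.N * (1 - f i) ≤ s'.1.getD i 0 / c.N ∧
      (s'.1.getD i 0 : ℝ) / c.N ≤ s.1.getD i 0 / c.N * (1 - f i) + 1 / c.N)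
    (h2 : ∀ i, s'.1.getD i 0 ≤ s.1.getD i 0) (h3 : ∀ e ∈ s.2.1, e ∈ s'.2.1)
    (h4 : s.2.2 ≤ s'.2.2) : Next (c.par n δ ε) (c.view s) f (c.view s') := by
  have hκ : c.slope s'.2.2 ≤ c.slope s.2.2 := by
    rw [hc.slope_eq hs', hc.slope_eq hs.th_le]
    exact hc.anti (Nat.div_le_div_right (Nat.mul_le_mul_right _ h4))
  refine ⟨fun i hi => (h1 i (List.mem_toFinset.1 hi)).1,
    fun i hi => (h1 i (List.mem_toFinset.1 hi)).2, fun i => ?_, fun a => ?_, fun i => ?_,
    fun i h e => ?_⟩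
  · exact div_le_div_of_nonneg_right (by exact_mod_cast h2 i) (Nat.cast_nonneg _)
  · exact Nat.cast_le.2 (Nat.mul_le_mul_left _ (Nat.add_le_add_right
      (Nat.mul_le_mul_left _ (dl_mono _ a hs.ne h3)) _))
  · exact Nat.cast_le.2 (Nat.mul_le_mul_left _ (hc.lv_mono h2 hκ i))
  · rw [hc.v_eq, hc.v_eq] at h
    exact div_le_div_of_nonneg_right (Nat.cast_le.2 (jk_mono _ _ hc.m_pos hκ
      (Nat.cast_le.1 h))) (Nat.cast_nonneg _)

omit hc in
theorem SOK.of_le {s s' : St} (hs : c.SOK n s) (h2 : ∀ i, s'.1.getD i 0 ≤ s.1.getD i 0)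
    (h3 : s'.2.1 ≠ []) (h4 : ∀ e ∈ s'.2.1, e ∈ c.F) (h5 : s'.2.2 ≤ c.T * c.q) : c.SOK n s' :=
  ⟨h3, h4, h5, le_trans (sum_le_sum fun i _ =>
    div_le_div_of_nonneg_right (Nat.cast_le.2 (h2 i)) (Nat.cast_nonneg _)) hs.mass⟩

omit hc in
theorem decay_le (s : St) (i : ℕ) : (c.decay s).1.getD i 0 ≤ s.1.getD i 0 :=
  (LP.getD_map_range_le _ _ i).trans (Nat.sub_le _ _)

omit hc in
theorem ring_le (s : St) (e i : ℕ) : (c.ring s e).1.getD i 0 ≤ s.1.getD i 0 :=
  (LP.getD_map_range_le _ _ i).trans (Nat.sub_le _ _)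

omit hc in
theorem SOK.decay {s : St} (hs : c.SOK n s) : c.SOK n (c.decay s) :=
  hs.of_le (decay_le s) hs.ne hs.sub hs.th_le

omit hc in
theorem SOK.tick {s : St} (hs : c.SOK n s) : c.SOK n (c.tick s) :=
  hs.of_le (fun _ => le_rfl) hs.ne hs.sub (min_le_right _ _)

omit hc in
theorem SOK.ring {s : St} (hs : c.SOK n s) {e : ℕ} (he : e ∈ c.F) : c.SOK n (c.ring s e) :=
  hs.of_le (ring_le s e) (List.cons_ne_nil _ _)
    (fun x hx => (List.mem_cons.1 hx).elim (fun h => h ▸ he) (hs.sub x)) hs.th_le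

/-- The successors of a state form a step of the abstract process. -/
theorem OK.step {s : St} (hs : c.SOK n s) : Step (c.par n δ ε) (c.view s) (c.view (c.decay s))
    (c.view (c.tick s)) fun e => c.view (c.ring s e) := by
  have hN : (0 : ℝ) < c.N := by exact_mod_cast hc.N_pos
  have hq : (0 : ℝ) < c.q := by exact_mod_cast hc.q_pos
  have hL : (0 : ℝ) < c.L := by exact_mod_cast hc.L_pos
  have hV := hc.view_ok hs
  refine ⟨hV, hc.view_ok hs.decay, hc.view_ok hs.tick,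
    fun e he => hc.view_ok (hs.ring (List.mem_toFinset.1 he)),
    hc.next hs hs.th_le (fun i hi => ?_) (decay_le s) (fun _ h => h) le_rfl, rfl, rfl,
    hc.next hs (min_le_right _ _) (fun i _ => ⟨by simp [tick], by simp [tick]⟩)
      (fun _ => le_rfl) (fun _ h => h) (le_min (Nat.le_add_right _ _) hs.th_le), ?_, rfl,
    fun e _ => hc.next hs hs.th_le (fun i hi => ?_) (ring_le s e)
      (fun _ h => List.mem_cons_of_mem _ h) le_rfl, fun e _ a => ?_, fun _ _ => rfl,
    fun _ _ => rfl⟩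
  · rw [decay, LP.getD_map_range _ _ (hc.F_lt i hi), mul_assoc (s.1.getD i 0)]
    refine sub_div_spec _ _ hc.q_pos hc.N_pos ?_ ?_
    · have h1 : (c.view s).sg (c.par n δ ε) i =
          (c.N ^ 2 - c.bud s.1 (c.slope s.2.2) i (c.rad s i) : ℕ) / c.N ^ 2 := by
        rw [View.sg, hc.B_eq]
        rcases le_total (c.N ^ 2) (c.bud s.1 (c.slope s.2.2) i (c.rad s i)) with h | h
        · rw [Nat.sub_eq_zero_of_le h, max_eq_left, Nat.cast_zero, zero_div]
          rw [sub_nonpos, one_le_div (by positivity)]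
          exact_mod_cast h
        · rw [Nat.cast_sub h, max_eq_right]
          · push_cast
            field_simp
          · rw [sub_nonneg, div_le_one (by positivity)]
            exact_mod_cast h
      rw [h1, Nat.cast_mul]
      simp only [par]
      push_cast
      field_simp
    · have := mul_le_mul hc.pok.four_h (hV.sg_le_one i) (View.sg_nonneg _ _) zero_le_one
      simpa using this
  · simp only [view, par, tick, Nat.cast_min]
    rw [← min_div_div_right hq.le]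
    congr 1
    · push_cast
      field_simp
    · push_cast
      field_simp
  · have h0 : 0 < c.cap s e := lt_max_of_lt_left (by
      have := hc.L_pos
      have := hc.N_pos
      positivity)
    rw [ring, LP.getD_map_range _ _ (hc.F_lt i hi), mul_assoc (s.1.getD i 0)]
    refine sub_div_spec _ _ h0 hc.N_pos ?_ ((hV.fr_le i e).trans (hV.J_le_one i e))
    have : (0 : ℝ) < c.cap s e := by exact_mod_cast h0
    rw [hc.bc_eq]
    simp only [view]
    push_cast
    field_simp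
  · exact Nat.cast_le.2 (Nat.mul_le_mul_left _ (Nat.add_le_add_right
      (Nat.mul_le_mul_left _ (dl_le _ a List.mem_cons_self)) _))

omit hc in
theorem step_cases (s : St) (ω : ℕ) : c.step s ω = c.decay s ∨ c.step s ω = c.tick s ∨
    (∃ e ∈ c.F, c.step s ω = c.ring s e) ∨ c.step s ω = s := by
  unfold Cfg.step
  split_ifs with h1 h2 h3
  · exact Or.inl rfl
  · exact Or.inr (Or.inl rfl)
  · refine Or.inr (Or.inr (Or.inl ⟨_, ?_, rfl⟩))
    rw [List.getD_eq_getElem _ _ h3.1]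
    exact List.getElem_mem _
  · exact Or.inr (Or.inr (Or.inr rfl))

omit hc in
theorem sum_range_mul (g : ℕ → ℝ) (a b : ℕ) :
    ∑ w ∈ range (a * b), g w = ∑ i ∈ range a, ∑ r ∈ range b, g (i * b + r) := by
  induction a with
  | zero => simp
  | succ a ih => rw [add_mul, one_mul, sum_range_add, ih, sum_range_succ]

omit hc in
theorem sum_getD (l : List ℕ) (g : ℕ → ℝ) :
    ∑ i ∈ range l.length, g (l.getD i 0) = (l.map g).sum := by
  induction l with
  | nil => simp
  | cons a l ih =>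
    rw [List.length_cons, sum_range_succ', List.map_cons, List.sum_cons, ← ih, add_comm]
    simp

/-- The mean value after one step. -/
theorem OK.avg {s : St} (hs : c.SOK n s) (Ψ : View → ℝ) :
    (∑ ω ∈ range (4 * c.q), Ψ (c.view (c.step s ω))) / (4 * c.q : ℕ) = Ψ (c.view s) +
      drift (c.par n δ ε) (c.view s) (c.view (c.decay s)) (c.view (c.tick s))
        (fun e => c.view (c.ring s e)) Ψ := by
  have hq : (0 : ℝ) < c.q := by exact_mod_cast hc.q_pos
  have hV := hc.view_ok hs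
  set g : ℕ → ℝ := fun ω => Ψ (c.view (c.step s ω)) - Ψ (c.view s) with hg
  have hw : ∀ e ∈ c.F, c.wt s e ≤ c.Λ := fun e he => by
    have h1 : (c.view s).y e ≤ n := le_trans (single_le_sum (f := (c.view s).y)
      (fun i _ => hV.y_nonneg i) (List.mem_toFinset.2 he)) hV.mass_le
    have h2 : (c.view s).rt (c.par n δ ε) e ≤ n * n * 2 :=
      mul_le_mul (mul_le_mul h1 (hV.bc_le hc.pok e) (View.bc_pos _ _).le
        ((hV.y_nonneg e).trans h1)) (by linarith [(c.view s).fac_le hc.pok e, hc.pok.η_le])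
        (hV.fac_nonneg hc.pok e) (mul_self_nonneg n)
    have h3 := mul_le_mul_of_nonneg_left h2 (show (0 : ℝ) ≤ c.N ^ 5 * c.L * c.E by positivity)
    rw [← hc.wt_eq] at h3
    exact Nat.cast_le (α := ℝ).1 (h3.trans (le_trans (le_of_eq (by ring)) hc.le_Λ))
  obtain ⟨r, hr⟩ := Nat.exists_eq_add_of_le hc.Λ_le
  have e1 : ∑ ω ∈ range c.q, g ω = c.q * (Ψ (c.view (c.decay s)) - Ψ (c.view s)) := by
    rw [sum_congr rfl fun ω hω => show g ω = Ψ (c.view (c.decay s)) - Ψ (c.view s) by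
      simp only [hg, Cfg.step]
      rw [if_pos (mem_range.1 hω)], sum_const, card_range, nsmul_eq_mul]
  have e2 : ∑ ω ∈ range c.q, g (c.q + ω) = c.q * (Ψ (c.view (c.tick s)) - Ψ (c.view s)) := by
    rw [sum_congr rfl fun ω hω => show g (c.q + ω) = Ψ (c.view (c.tick s)) - Ψ (c.view s) by
      have := mem_range.1 hω
      simp only [hg, Cfg.step]
      rw [if_neg (by omega), if_pos (by omega)], sum_const, card_range, nsmul_eq_mul]
  have e0 : ∀ w, g (c.q + c.q + w) = if w / c.Λ < c.F.length ∧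
      w % c.Λ < c.wt s (c.F.getD (w / c.Λ) 0) then
      Ψ (c.view (c.ring s (c.F.getD (w / c.Λ) 0))) - Ψ (c.view s) else 0 := fun w => by
    rw [hg]
    simp only [Cfg.step]
    rw [if_neg (by omega), if_neg (by omega), show c.q + c.q + w - 2 * c.q = w by omega]
    split_ifs
    · rfl
    · exact sub_self _
  have e3 : ∑ w ∈ range (c.F.length * c.Λ), g (c.q + c.q + w) =
      ∑ e ∈ c.F.toFinset, c.wt s e * (Ψ (c.view (c.ring s e)) - Ψ (c.view s)) := by
    rw [sum_range_mul, List.sum_toFinset _ hc.nodup, ← sum_getD]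
    refine sum_congr rfl fun i hi => ?_
    have hi' := mem_range.1 hi
    have h1 : c.wt s (c.F.getD i 0) ≤ c.Λ := hw _ (by
      rw [List.getD_eq_getElem _ _ hi']
      exact List.getElem_mem _)
    have h2 : ∀ t ∈ range c.Λ, g (c.q + c.q + (i * c.Λ + t)) = if t < c.wt s (c.F.getD i 0) then
        Ψ (c.view (c.ring s (c.F.getD i 0))) - Ψ (c.view s) else 0 := fun t ht => by
      have ht' := mem_range.1 ht
      rw [e0, mul_comm i, Nat.mul_add_div (by omega), Nat.div_eq_of_lt ht', add_zero,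
        Nat.mul_add_mod, Nat.mod_eq_of_lt ht']
      simp [hi']
    rw [sum_congr rfl h2, ← sum_filter, sum_const, nsmul_eq_mul]
    congr 2
    rw [show (range c.Λ).filter (fun t => t < c.wt s (c.F.getD i 0)) =
      range (c.wt s (c.F.getD i 0)) by
        ext t
        simp only [mem_filter, mem_range]
        omega, card_range]
  have e4 : ∑ w ∈ range r, g (c.q + c.q + (c.F.length * c.Λ + w)) = 0 := by
    refine sum_eq_zero fun w _ => ?_
    rw [e0, if_neg]
    rintro ⟨h1, h2⟩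
    rcases Nat.eq_zero_or_pos c.Λ with h | h
    · have h3 := hw (c.F.getD ((c.F.length * c.Λ + w) / c.Λ) 0) (by
        rw [List.getD_eq_getElem _ _ h1]
        exact List.getElem_mem _)
      omega
    · rw [Nat.div_lt_iff_lt_mul h] at h1
      omega
  have e5 : ∑ ω ∈ range (4 * c.q), g ω = (4 * c.q : ℕ) * drift (c.par n δ ε) (c.view s)
      (c.view (c.decay s)) (c.view (c.tick s)) (fun e => c.view (c.ring s e)) Ψ := by
    rw [show 4 * c.q = c.q + c.q + (c.F.length * c.Λ + r) by omega, sum_range_add, sum_range_add,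
      sum_range_add, e1, e2, e3, e4, show c.q + c.q + (c.F.length * c.Λ + r) = 4 * c.q by omega,
      drift, sum_congr rfl fun e _ => by rw [hc.wt_eq, mul_assoc], ← mul_sum]
    simp only [par]
    push_cast
    field_simp
    ring
  rw [hg, sum_sub_distrib, sum_const, card_range, nsmul_eq_mul] at e5
  rw [div_eq_iff (by push_cast; positivity)]
  linarith

end Cfg

end Alg

end Vale.Agent.P334
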