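import Vale.Agent.Lib.PCP.PT.Fin
import Vale.Agent.Lib.PTM.Freq

/-!
Integer instances of `k`-median as lists, and the interface of a pseudo-approximation algorithm
(one that may open `k + c` facilities).
-/

namespace Vale.Agent.P334

open Vale.Agent.Lib.PolyTime Vale.Agent.Lib.PTM

/-- Pseudo-metrics on the natural numbers with integer values. -/
structure PM (d : ℕ → ℕ → ℕ) : Prop where
  self : ∀ a, d a a = 0
  comm : ∀ a b, d a b = d b a
  tri : ∀ a b c, d a c ≤ d a b + d b c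

/-- Indices out of range are replaced by `0`. -/
def cl (D : List (List ℕ)) (a : ℕ) : ℕ := if a < D.length then a else 0

/-- The distance function given by a matrix. -/
def dm (D : List (List ℕ)) (a b : ℕ) : ℕ := (D.getD (cl D a) []).getD (cl D b) 0

/-- The first element of `x :: L` with the least value of `f`. -/
def amin {β : Type} (f : β → ℕ) (x : β) (L : List β) : β :=
  L.foldl (fun b y => if f y < f b then y else b) x

/-- A point of `S` nearest to `j`. -/
def near (d : ℕ → ℕ → ℕ) (j : ℕ) (S : List ℕ) : ℕ := amin (d j) (S.headD 0) S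

/-- The distance from `j` to the list `S`. -/
def dl (d : ℕ → ℕ → ℕ) (j : ℕ) (S : List ℕ) : ℕ := d j (near d j S)

/-- The cost of the solution `S`. -/
def cost (d : ℕ → ℕ → ℕ) (J S : List ℕ) : ℕ := (J.map fun j => dl d j S).sum

/-- Feasible solutions with at most `k` facilities. -/
def Feas (F : List ℕ) (k : ℕ) (S : List ℕ) : Prop := S ≠ [] ∧ (∀ s ∈ S, s ∈ F) ∧ S.length ≤ k

/-- The optimum. -/
noncomputable def opt (d : ℕ → ℕ → ℕ) (J F : List ℕ) (k : ℕ) : ℕ :=
  sInf {r | ∃ S, Feas F k S ∧ cost d J S = r}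

/-- Integer instances: distance matrix, clients, facilities, `k`, upper bound `U` for the
distances. -/
abbrev Inp : Type := List (List ℕ) × List ℕ × List ℕ × ℕ × ℕ

/-- Valid integer instances. -/
structure Valid (D : List (List ℕ)) (J F : List ℕ) (k U : ℕ) : Prop where
  pm : PM (dm D)
  J_nodup : J.Nodup
  F_nodup : F.Nodup
  J_lt : ∀ j ∈ J, j < D.length
  F_lt : ∀ i ∈ F, i < D.length
  one_le_k : 1 ≤ k
  k_le : k ≤ F.length
  le_U : ∀ a b, dm D a b ≤ U

/-- A pseudo-solution: at most `k + c` facilities, cost at most `α · opt + ε U / (|J| + 1)`. -/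
def Good (α ε : ℝ) (c : ℕ) (D : List (List ℕ)) (J F : List ℕ) (k U : ℕ) (S : List ℕ) : Prop :=
  Feas F (k + c) S ∧ (cost (dm D) J S : ℝ) ≤ α * opt (dm D) J F k + ε * U / (J.length + 1)

/-- There are randomized polynomial time algorithms which find pseudo-solutions with factor
`α + ε` with constant probability. -/
def Pseudo (α : ℝ) : Prop :=
  ∀ ε : ℝ, 0 < ε → ∃ (c e : ℕ) (p : ℝ) (f : Inp × Raw → List ℕ), 0 < p ∧ PT ∅ f ∧
    ∀ (D : List (List ℕ)) (J F : List ℕ) (k U : ℕ), Valid D J F k U →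
      ∀ m, pb e (esize ((D, J, F, k, U) : Inp)) ≤ m →
        p ≤ frq m fun ρ => Good (α + ε) ε c D J F k U (f ((D, J, F, k, U), ⟨ρ⟩))

/-! ### Minima -/

section amin

variable {β : Type} (f : β → ℕ)

theorem amin_nil (x : β) : amin f x [] = x := rfl

theorem amin_cons (x y : β) (L : List β) :
    amin f x (y :: L) = amin f (if f y < f x then y else x) L := rfl

theorem amin_mem (x : β) (L : List β) : amin f x L = x ∨ amin f x L ∈ L := by
  induction L generalizing x with
  | nil => exact Or.inl rfl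
  | cons y L ih =>
    rw [amin_cons]
    rcases ih (if f y < f x then y else x) with h | h
    · rw [h]
      split_ifs
      · exact Or.inr List.mem_cons_self
      · exact Or.inl rfl
    · exact Or.inr (List.mem_cons_of_mem _ h)

theorem amin_le_init (x : β) (L : List β) : f (amin f x L) ≤ f x := by
  induction L generalizing x with
  | nil => exact le_rfl
  | cons y L ih =>
    rw [amin_cons]
    refine (ih _).trans ?_
    split_ifs with h
    · exact h.le
    · exact le_rfl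

theorem amin_le (x : β) {L : List β} {y : β} (hy : y ∈ L) : f (amin f x L) ≤ f y := by
  induction L generalizing x with
  | nil => exact absurd hy List.not_mem_nil
  | cons z L ih =>
    rw [amin_cons]
    rcases List.mem_cons.1 hy with rfl | h
    · refine (amin_le_init f _ L).trans ?_
      split_ifs with h
      · exact le_rfl
      · exact not_lt.1 h
    · exact ih _ h

end amin

theorem headD_mem {S : List ℕ} (h : S ≠ []) : S.headD 0 ∈ S := by
  cases S with
  | nil => exact absurd rfl h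
  | cons a S => exact List.mem_cons_self

theorem amin_headD_mem (f : ℕ → ℕ) {S : List ℕ} (h : S ≠ []) : amin f (S.headD 0) S ∈ S := by
  rcases amin_mem f (S.headD 0) S with e | e
  · rw [e]; exact headD_mem h
  · exact e

theorem near_mem (d : ℕ → ℕ → ℕ) (j : ℕ) {S : List ℕ} (h : S ≠ []) : near d j S ∈ S :=
  amin_headD_mem _ h

theorem dl_le (d : ℕ → ℕ → ℕ) (j : ℕ) {S : List ℕ} {s : ℕ} (h : s ∈ S) : dl d j S ≤ d j s :=
  amin_le (d j) _ h

theorem dl_mono (d : ℕ → ℕ → ℕ) (j : ℕ) {S T : List ℕ} (hS : S ≠ []) (h : ∀ s ∈ S, s ∈ T) :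
    dl d j T ≤ dl d j S := dl_le d j (h _ (near_mem d j hS))

theorem dl_tri {d : ℕ → ℕ → ℕ} (hd : PM d) (a b : ℕ) {S : List ℕ} (hS : S ≠ []) :
    dl d a S ≤ d a b + dl d b S :=
  (dl_le d a (near_mem d b hS)).trans (hd.tri _ _ _)

theorem cost_eq_sum (d : ℕ → ℕ → ℕ) {J : List ℕ} (hJ : J.Nodup) (S : List ℕ) :
    cost d J S = ∑ j ∈ J.toFinset, dl d j S := by
  rw [cost, List.sum_toFinset _ hJ]

theorem cost_mono (d : ℕ → ℕ → ℕ) (J : List ℕ) {S T : List ℕ} (hS : S ≠ [])
    (h : ∀ s ∈ S, s ∈ T) : cost d J T ≤ cost d J S :=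
  List.sum_le_sum fun j _ => dl_mono d j hS h

theorem dl_le_cost (d : ℕ → ℕ → ℕ) {J : List ℕ} (S : List ℕ) {j : ℕ} (hj : j ∈ J) :
    dl d j S ≤ cost d J S :=
  List.single_le_sum (fun _ _ => Nat.zero_le _) _ (List.mem_map.2 ⟨j, hj, rfl⟩)

theorem Feas.mono {F S : List ℕ} {k k' : ℕ} (h : Feas F k S) (hk : k ≤ k') : Feas F k' S :=
  ⟨h.1, h.2.1, h.2.2.trans hk⟩

theorem opt_le (d : ℕ → ℕ → ℕ) (J : List ℕ) {F S : List ℕ} {k : ℕ} (h : Feas F k S) :
    opt d J F k ≤ cost d J S := Nat.sInf_le ⟨S, h, rfl⟩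

theorem feas_head {F : List ℕ} (hF : F ≠ []) {k : ℕ} (hk : 1 ≤ k) : Feas F k [F.headD 0] :=
  ⟨by simp, fun s hs => by rw [List.mem_singleton.1 hs]; exact headD_mem hF, hk⟩

/-- An optimal solution without repetitions. -/
theorem exists_opt (d : ℕ → ℕ → ℕ) (J : List ℕ) {F : List ℕ} (hF : F ≠ []) {k : ℕ} (hk : 1 ≤ k) :
    ∃ O, Feas F k O ∧ O.Nodup ∧ cost d J O = opt d J F k := by
  obtain ⟨S, hS, e⟩ : opt d J F k ∈ {r | ∃ S, Feas F k S ∧ cost d J S = r} :=
    Nat.sInf_mem ⟨_, _, feas_head hF hk, rfl⟩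
  have h1 : Feas F k S.dedup :=
    ⟨by simpa using hS.1, fun s hs => hS.2.1 s (List.mem_dedup.1 hs),
      (List.dedup_sublist S).length_le.trans hS.2.2⟩
  refine ⟨S.dedup, h1, List.nodup_dedup S, le_antisymm ?_ (opt_le d J h1)⟩
  rw [← e]
  exact cost_mono d J hS.1 fun s hs => List.mem_dedup.2 hs

theorem opt_anti (d : ℕ → ℕ → ℕ) (J : List ℕ) {F : List ℕ} (hF : F ≠ []) {k k' : ℕ} (hk : 1 ≤ k)
    (h : k ≤ k') : opt d J F k' ≤ opt d J F k := by
  obtain ⟨O, hO, -, e⟩ := exists_opt d J hF hk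
  rw [← e]
  exact opt_le d J (hO.mono h)

theorem Valid.F_ne {D : List (List ℕ)} {J F : List ℕ} {k U : ℕ} (h : Valid D J F k U) :
    F ≠ [] := by
  rintro rfl
  have h1 := h.one_le_k
  have h2 := h.k_le
  simp at h2
  omega

/-! ### Polynomial time -/

variable {α β : Type} [Enc α] [Enc β]

theorem pt_cl {D : α → List (List ℕ)} {a : α → ℕ} (hD : PT ∅ D) (ha : PT ∅ a) :
    PT ∅ fun x => cl (D x) (a x) := PT.ite (ha.lt hD.length) ha (PT.const 0)

theorem pt_dm {D : α → List (List ℕ)} {a b : α → ℕ} (hD : PT ∅ D) (ha : PT ∅ a) (hb : PT ∅ b) :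
    PT ∅ fun x => dm (D x) (a x) (b x) :=
  PT.getD (PT.getD hD (pt_cl hD ha) (PT.const [])) (pt_cl hD hb) (PT.const 0)

theorem pt_amin {f : α → β → ℕ} {x : α → β} {L : α → List β}
    (hf : PT ∅ fun p : α × β => f p.1 p.2) (hx : PT ∅ x) (hL : PT ∅ L) :
    PT ∅ fun a => amin (f a) (x a) (L a) := by
  refine PT.foldl (f := fun a b y => if f a y < f a b then y else b) hL hx
    (PT.ite ((hf.comp (PT.fst'.pair PT.snd'.snd)).lt (hf.comp (PT.fst'.pair PT.snd'.fst)))
      PT.snd'.snd PT.snd'.fst) (hx.pbd.add hL.pbd) fun a i => ?_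
  rcases amin_mem (f a) (x a) ((L a).take i) with h | h
  · rw [show List.foldl _ (x a) ((L a).take i) = amin (f a) (x a) ((L a).take i) from rfl, h]
    exact Nat.le_add_right _ _
  · exact (esize_le_of_mem (List.mem_of_mem_take h)).trans (Nat.le_add_left _ _)

theorem pt_near {D : α → List (List ℕ)} {j : α → ℕ} {S : α → List ℕ} (hD : PT ∅ D) (hj : PT ∅ j)
    (hS : PT ∅ S) : PT ∅ fun a => near (dm (D a)) (j a) (S a) :=
  pt_amin (f := fun a => dm (D a) (j a)) (pt_dm (hD.comp PT.fst') (hj.comp PT.fst') PT.snd')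
    (hS.headD (PT.const 0)) hS

theorem pt_dl {D : α → List (List ℕ)} {j : α → ℕ} {S : α → List ℕ} (hD : PT ∅ D) (hj : PT ∅ j)
    (hS : PT ∅ S) : PT ∅ fun a => dl (dm (D a)) (j a) (S a) :=
  pt_dm hD hj (pt_near hD hj hS)

theorem pt_cost {D : α → List (List ℕ)} {J S : α → List ℕ} (hD : PT ∅ D) (hJ : PT ∅ J)
    (hS : PT ∅ S) : PT ∅ fun a => cost (dm (D a)) (J a) (S a) :=
  PT.sum (PT.map hJ (pt_dl (hD.comp PT.fst') PT.snd' (hS.comp PT.fst')))

end Vale.Agent.P334
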