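import Vale.Agent.P334.Classes
import Vale.Agent.Lib.PCP.Final
import Vale.Agent.Lib.PCP.RandHard

/-!
The lower bound: a randomized polynomial time `c`-approximation algorithm for metric `k`-median
with `c < 1 + 2 / e` puts NP into BPP (reduction from maximum coverage).
-/

namespace Vale.Agent.P334

open Vale.Agent.Lib.PolyTime Vale.Agent.Lib.PCP Vale.Agent.Lib.PTM Finset

namespace Lower

theorem pairW_eq : pairW = pr := by
  funext x y
  induction x with
  | nil => rfl
  | cons b x ih => simp [pairW, pr, ih]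

theorem listW_eq {α : Type} [Enc α] (l : List α) : listW (l.map enc) = enc l := by
  induction l with
  | nil => rfl
  | cons a l ih => rw [List.map_cons, listW, ih, pairW_eq, enc_cons]

theorem polyTime_iff {f : List Bool → List Bool} : PolyTime f ↔ FP ∅ f :=
  polyTime_id_iff

/-- The names of the sets attached to the facilities. -/
def facs (l : List (List ℕ)) : List ℕ := 0 :: l.flatten

/-- The distance between the client `x` and the facility `y`. -/
def dCF (l : List (List ℕ)) (x y : ℕ) : ℕ :=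
  if (facs l).getD (y - l.length) 0 ∈ l.getD x [] then 1 else 3

theorem dCF_cases (l : List (List ℕ)) (x y : ℕ) : dCF l x y = 1 ∨ dCF l x y = 3 := by
  unfold dCF
  split_ifs <;> simp

/-- The metric: clients are the points below the number of elements. -/
def dN (l : List (List ℕ)) (x y : ℕ) : ℕ :=
  if x = y then 0 else if x < l.length then (if y < l.length then 2 else dCF l x y) else
    (if y < l.length then dCF l y x else 2)

theorem dN_comm (l : List (List ℕ)) (x y : ℕ) : dN l x y = dN l y x := by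
  unfold dN
  split_ifs <;> first | rfl | omega

theorem dN_eq_zero (l : List (List ℕ)) (x y : ℕ) : dN l x y = 0 ↔ x = y := by
  have h1 := dCF_cases l x y
  have h2 := dCF_cases l y x
  unfold dN
  split_ifs with e <;> simp only [e, iff_false] <;> omega

theorem dN_triangle (l : List (List ℕ)) (x y z : ℕ) : dN l x z ≤ dN l x y + dN l y z := by
  have h1 := dCF_cases l x y
  have h2 := dCF_cases l y x
  have h3 := dCF_cases l x z
  have h4 := dCF_cases l z x
  have h5 := dCF_cases l y z
  have h6 := dCF_cases l z y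
  by_cases e1 : x = y
  · subst e1
    simp [(dN_eq_zero l x x).2 rfl]
  by_cases e2 : y = z
  · subst e2
    simp [(dN_eq_zero l y y).2 rfl]
  unfold dN
  split_ifs <;> omega

theorem dN_cf (l : List (List ℕ)) {x y : ℕ} (hx : x < l.length) (hy : l.length ≤ y) :
    dN l x y = dCF l x y := by
  unfold dN
  rw [if_neg (by omega), if_pos hx, if_neg (by omega)]

theorem card_fac (m f : ℕ) : (univ.filter fun x : Fin (m + f) => m ≤ (x : ℕ)).card = f := by
  have h : (univ.filter fun x : Fin (m + f) => m ≤ (x : ℕ)) =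
      univ.map (Fin.natAddEmb m) := by
    ext x
    simp only [mem_filter, mem_univ, true_and, mem_map, Fin.natAddEmb_apply]
    constructor
    · intro h
      exact ⟨⟨x - m, by omega⟩, Fin.ext (by simp; omega)⟩
    · rintro ⟨y, rfl⟩
      simp
  rw [h, card_map, card_univ, Fintype.card_fin]

/-- The instance of `k`-median attached to a set system. -/
def inst (p : ℕ × List (List ℕ)) : Instance where
  n := p.2.length + (facs p.2).length
  d x y := dN p.2 x y
  J := univ.filter fun x => (x : ℕ) < p.2.length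
  F := univ.filter fun x => p.2.length ≤ (x : ℕ)
  k := min (max p.1 1) (facs p.2).length
  d_eq_zero x y := by rw [Nat.cast_eq_zero, dN_eq_zero, Fin.ext_iff]
  d_comm x y := by rw [dN_comm]
  d_triangle x y z := by exact_mod_cast dN_triangle p.2 x y z
  one_le_k := le_min (le_max_right _ _) (by simp [facs])
  k_le := by rw [card_fac]; exact min_le_right _ _

/-- The data which is written down. -/
def data (p : ℕ × List (List ℕ)) : List Raw :=
  [⟨(p.2.length + (facs p.2).length).bits⟩, ⟨(min (max p.1 1) (facs p.2).length).bits⟩,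
    ⟨(List.range (p.2.length + (facs p.2).length)).map fun x => decide (x < p.2.length)⟩,
    ⟨(List.range (p.2.length + (facs p.2).length)).map fun x => decide (p.2.length ≤ x)⟩,
    ⟨enc ((List.range (p.2.length + (facs p.2).length)).map fun x =>
      (List.range (p.2.length + (facs p.2).length)).map fun y => (dN p.2 x y, 1))⟩]

theorem ofFn_eq_map {α : Type} (n : ℕ) (f : ℕ → α) :
    (List.ofFn fun i : Fin n => f i) = (List.range n).map f := by
  apply List.ext_getElem <;> simp

theorem code_inst (p : ℕ × List (List ℕ)) : (inst p).code = enc (data p) := by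
  rw [← listW_eq, data, Instance.code]
  simp only [List.map_cons, List.map_nil, enc_raw]
  have h1 : setW (inst p).J = (List.range (p.2.length + (facs p.2).length)).map
      fun x => decide (x < p.2.length) := by
    rw [← ofFn_eq_map]
    exact congrArg List.ofFn (funext fun i => decide_eq_decide.2 (mem_filter.trans (and_iff_right (mem_univ _))))
  have h2 : setW (inst p).F = (List.range (p.2.length + (facs p.2).length)).map
      fun x => decide (p.2.length ≤ x) := by
    rw [← ofFn_eq_map]
    exact congrArg List.ofFn (funext fun i => decide_eq_decide.2 (mem_filter.trans (and_iff_right (mem_univ _))))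
  have h3 : listW (List.ofFn fun x => listW (List.ofFn fun y =>
      pairW ((inst p).d x y).num.natAbs.bits ((inst p).d x y).den.bits)) =
      enc ((List.range (p.2.length + (facs p.2).length)).map fun x =>
        (List.range (p.2.length + (facs p.2).length)).map fun y => (dN p.2 x y, 1)) := by
    rw [← listW_eq, List.map_map, ← ofFn_eq_map]
    congr 2
    funext x
    simp only [Function.comp_apply]
    rw [← listW_eq, List.map_map, ← ofFn_eq_map]
    congr 2
    funext y
    simp only [inst, Function.comp_apply, Rat.num_natCast, Int.natAbs_natCast, Rat.den_natCast,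
      pairW_eq]
    rfl
  rw [h1, h2, h3]
  rfl

theorem pt_raw {α β : Type} [Enc α] [Enc β] {f : α → β} (hf : PT ∅ f) :
    PT ∅ fun a => Raw.mk (enc (f a)) := by
  obtain ⟨g, hg, h⟩ := hf
  exact ⟨g, hg, h⟩

theorem pt_facs {α : Type} [Enc α] {l : α → List (List ℕ)} (hl : PT ∅ l) :
    PT ∅ fun a => facs (l a) := PT.cons (PT.const 0) hl.flatten

theorem pt_dCF {α : Type} [Enc α] {l : α → List (List ℕ)} {x y : α → ℕ} (hl : PT ∅ l)
    (hx : PT ∅ x) (hy : PT ∅ y) : PT ∅ fun a => dCF (l a) (x a) (y a) :=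
  PT.ite (PT.mem (PT.getD hl hx (PT.const [])) (PT.getD (pt_facs hl) (hy.sub hl.length)
    (PT.const 0))) (PT.const 1) (PT.const 3)

theorem pt_dN {α : Type} [Enc α] {l : α → List (List ℕ)} {x y : α → ℕ} (hl : PT ∅ l)
    (hx : PT ∅ x) (hy : PT ∅ y) : PT ∅ fun a => dN (l a) (x a) (y a) :=
  PT.ite (hx.eqNat hy) (PT.const 0) (PT.ite (hx.lt hl.length)
    (PT.ite (hy.lt hl.length) (PT.const 2) (pt_dCF hl hx hy))
    (PT.ite (hy.lt hl.length) (pt_dCF hl hy hx) (PT.const 2)))

theorem pt_data : PT ∅ data := by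
  have hl : PT ∅ fun p : ℕ × List (List ℕ) => p.2 := PT.snd'
  have hn : PT ∅ fun p : ℕ × List (List ℕ) => p.2.length + (facs p.2).length :=
    hl.length.add (pt_facs hl).length
  have hr : PT ∅ fun p : ℕ × List (List ℕ) => List.range (p.2.length + (facs p.2).length) :=
    PT.range hn ((PBd.length hl).add (PBd.length (pt_facs hl)))
  refine PT.cons (PT.rawBits hn) (PT.cons (PT.rawBits (PT.min (PT.max PT.fst' (PT.const 1))
    (pt_facs hl).length)) (PT.cons (PT.rawOfList (PT.map hr ?_)) (PT.cons
      (PT.rawOfList (PT.map hr ?_)) (PT.cons (pt_raw (PT.map hr ?_)) PT.nil))))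
  · exact PT.snd'.lt PT.fst'.snd.length
  · exact PT.fst'.snd.length.le PT.snd'
  · exact PT.map (hr.comp PT.fst') ((pt_dN PT.fst'.fst.snd PT.fst'.snd PT.snd').pair (PT.const 1))

/-! ### Costs -/

theorem d_nonneg (I : Instance) (x y : Fin I.n) : 0 ≤ I.d x y := by
  have h1 := I.d_triangle x y x
  rw [(I.d_eq_zero x x).2 rfl, I.d_comm y x] at h1
  linarith

theorem cost_nonneg (I : Instance) (S : Finset (Fin I.n)) : 0 ≤ I.cost S :=
  sum_nonneg fun j _ => Real.sInf_nonneg fun r ⟨i, _, e⟩ => by
    rw [e]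
    exact_mod_cast d_nonneg I j i

theorem opt_le (I : Instance) {S : Finset (Fin I.n)} (h : I.Feasible S) : I.opt ≤ I.cost S :=
  csInf_le ⟨0, fun r ⟨S', _, e⟩ => by rw [e]; exact cost_nonneg I S'⟩ ⟨S, h, rfl⟩

theorem sum_clients (p : ℕ × List (List ℕ)) (φ : ℕ → ℝ) :
    ∑ j ∈ (inst p).J, φ j = ∑ x ∈ range p.2.length, φ x := by
  simp only [inst]
  rw [sum_filter, Fin.sum_univ_eq_sum_range (fun x => if x < p.2.length then φ x else 0),
    ← sum_filter]
  congr 1
  ext x
  simp only [mem_filter, mem_range]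
  omega

theorem opt_le_of_yes {s : ℝ} {p : ℕ × List (List ℕ)} (h : (MaxCov ℕ s).yes p) :
    (inst p).opt ≤ p.2.length := by
  obtain ⟨hk, hne, T, hT, hcov⟩ := h
  have hlt : ∀ w ∈ facs p.2, p.2.length + (facs p.2).idxOf w < (inst p).n := fun w hw =>
    Nat.add_lt_add_left (List.idxOf_lt_length_iff.2 hw) _
  set S : Finset (Fin (inst p).n) := univ.filter fun i =>
    ∃ w ∈ T, w ∈ facs p.2 ∧ (i : ℕ) = p.2.length + (facs p.2).idxOf w with hS
  have hc : ∀ e ∈ p.2, ∃ i ∈ S, p.2.length ≤ (i : ℕ) ∧ (facs p.2).getD (i - p.2.length) 0 ∈ e := by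
    intro e he
    obtain ⟨w, hw, hwT⟩ := covered_iff.1 (hcov e he)
    have hw' : w ∈ facs p.2 := List.mem_cons_of_mem _ (List.mem_flatten.2 ⟨e, he, hw⟩)
    refine ⟨⟨_, hlt w hw'⟩, mem_filter.2 ⟨mem_univ _, w, hwT, hw', rfl⟩, by simp, ?_⟩
    simp only [Nat.add_sub_cancel_left]
    rw [List.getD_eq_getElem _ _ (List.idxOf_lt_length_iff.2 hw'), List.getElem_idxOf]
    exact hw
  have hSF : S ⊆ (inst p).F := by
    intro i hi
    obtain ⟨w, -, -, e⟩ := (mem_filter.1 hi).2
    exact mem_filter.2 ⟨mem_univ _, by omega⟩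
  have hfeas : (inst p).Feasible S := by
    refine ⟨hSF, ?_, le_min (le_trans ?_ (hT.trans (le_max_left _ _))) ?_⟩
    · obtain ⟨e, he⟩ := List.exists_mem_of_ne_nil _ hne
      obtain ⟨i, hi, -⟩ := hc e he
      exact card_pos.2 ⟨i, hi⟩
    · refine card_le_card_of_injOn (fun i => (facs p.2).getD (i - p.2.length) 0) ?_ ?_
      · intro i hi
        obtain ⟨w, hw, hw', e⟩ := (mem_filter.1 hi).2
        simp only [e, Nat.add_sub_cancel_left]
        rw [List.getD_eq_getElem _ _ (List.idxOf_lt_length_iff.2 hw'), List.getElem_idxOf]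
        exact hw
      · intro i hi i' hi' h
        obtain ⟨w, -, hw', e⟩ := (mem_filter.1 hi).2
        obtain ⟨w2, -, hw2', e2⟩ := (mem_filter.1 hi').2
        simp only [e, e2, Nat.add_sub_cancel_left] at h
        rw [List.getD_eq_getElem _ _ (List.idxOf_lt_length_iff.2 hw'), List.getElem_idxOf,
          List.getD_eq_getElem _ _ (List.idxOf_lt_length_iff.2 hw2'), List.getElem_idxOf] at h
        exact Fin.ext (by rw [e, e2, h])
    · exact (card_le_card hSF).trans (le_of_eq (card_fac _ _))
  refine (opt_le _ hfeas).trans ?_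
  have h1 : (inst p).cost S ≤ ∑ j ∈ (inst p).J, (fun _ : ℕ => (1 : ℝ)) j := by
    refine sum_le_sum fun j hj => ?_
    have hj' : (j : ℕ) < p.2.length := (mem_filter.1 hj).2
    obtain ⟨i, hi, h2, h3⟩ := hc (p.2.getD j []) (by
      rw [List.getD_eq_getElem _ _ hj']
      exact List.getElem_mem _)
    refine csInf_le_of_le ⟨0, fun r ⟨i', _, e⟩ => by
      rw [e]
      exact_mod_cast d_nonneg _ j i'⟩ ⟨i, hi, rfl⟩ (le_of_eq ?_)
    simp only [inst]
    rw [dN_cf _ hj' h2, dCF, if_pos h3]
    simp
  simpa using h1.trans_eq (sum_clients p fun _ => (1 : ℝ))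

/-- The names of the sets attached to the chosen facilities. -/
def names (p : ℕ × List (List ℕ)) (S : Finset (Fin (inst p).n)) : Finset ℕ :=
  S.image fun i : Fin (inst p).n => (facs p.2).getD (i - p.2.length) 0

theorem card_names {p : ℕ × List (List ℕ)} (hk : 0 < p.1) {S : Finset (Fin (inst p).n)}
    (h : (inst p).Feasible S) : (names p S).card ≤ p.1 :=
  card_image_le.trans (h.2.2.trans ((min_le_left _ _).trans (max_le le_rfl hk)))

theorem le_cost {p : ℕ × List (List ℕ)} {S : Finset (Fin (inst p).n)} (h : (inst p).Feasible S) :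
    3 * (p.2.length : ℝ) - 2 * cnt covered p.2 (names p S) ≤ (inst p).cost S := by
  have h1 : ∑ j ∈ (inst p).J, (fun x : ℕ => (3 : ℝ) -
      2 * if covered (p.2.getD x []) (names p S) = true then 1 else 0) j ≤ (inst p).cost S := by
    refine sum_le_sum fun j hj => ?_
    have hj' : (j : ℕ) < p.2.length := (mem_filter.1 hj).2
    obtain ⟨i₀, hi₀⟩ := card_pos.1 h.2.1
    refine le_csInf ⟨_, i₀, hi₀, rfl⟩ ?_
    rintro r ⟨i, hi, rfl⟩
    have h2 : p.2.length ≤ (i : ℕ) := (mem_filter.1 (h.1 hi)).2
    simp only [inst]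
    rw [dN_cf _ hj' h2, dCF]
    by_cases e : (facs p.2).getD (i - p.2.length) 0 ∈ p.2.getD j []
    · have e2 : covered (p.2.getD j []) (names p S) = true :=
        covered_iff.2 ⟨_, e, mem_image.2 ⟨i, hi, rfl⟩⟩
      rw [if_pos e, if_pos e2]
      norm_num
    · rw [if_neg e]
      split_ifs <;> norm_num
  have h2 := (sum_clients p fun x : ℕ => (3 : ℝ) -
      2 * if covered (p.2.getD x []) (names p S) = true then 1 else 0).symm.trans_le h1
  rw [sum_sub_distrib, ← mul_sum] at h2
  rw [cnt_eq_sum, sum_map_eq_sum_range _ []]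
  simpa [mul_comm] using h2

/-- The number of covered elements, computed from the output of the algorithm. -/
def cntOut (l : List (List ℕ)) (out : List Bool) : ℕ :=
  l.countP fun e => e.any fun w => (List.range (facs l).length).any fun i =>
    out.getD (l.length + i) false && decide ((facs l).getD i 0 = w)

theorem cntOut_setW {p : ℕ × List (List ℕ)} {S : Finset (Fin (inst p).n)}
    (h : (inst p).Feasible S) : cntOut p.2 (setW S) = cnt covered p.2 (names p S) := by
  refine List.countP_congr fun e _ => ?_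
  rw [covered_iff]
  simp only [List.any_eq_true, List.mem_range, Bool.and_eq_true, decide_eq_true_eq, names,
    mem_image]
  refine exists_congr fun w => and_congr_right fun _ => ⟨?_, ?_⟩
  · rintro ⟨i, hi, h1, h2⟩
    have h3 : p.2.length + i < (inst p).n := Nat.add_lt_add_left hi _
    refine ⟨⟨_, h3⟩, ?_, by simpa using h2⟩
    rw [List.getD_eq_getElem _ _ (by simpa [setW] using h3)] at h1
    simpa [setW] using h1
  · rintro ⟨i, hi, h1⟩
    have h2 : p.2.length ≤ (i : ℕ) := (mem_filter.1 (h.1 hi)).2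
    have h3 : (i : ℕ) < p.2.length + (facs p.2).length := i.2
    refine ⟨i - p.2.length, by omega, ?_, h1⟩
    rw [Nat.add_sub_cancel' h2, List.getD_eq_getElem _ _ (by simp [setW])]
    simpa [setW] using hi

theorem pt_cntOut {α : Type} [Enc α] {l : α → List (List ℕ)} {out : α → List Bool} (hl : PT ∅ l)
    (ho : PT ∅ out) : PT ∅ fun a => cntOut (l a) (out a) := by
  refine PT.countP hl (PT.any PT.snd' ?_)
  have h1 : PT ∅ fun z : (α × List ℕ) × ℕ => l z.1.1 := hl.comp PT.fst'.fst
  refine PT.any (PT.range (pt_facs h1).length (PBd.length (pt_facs h1))) ?_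
  have h2 : PT ∅ fun z : ((α × List ℕ) × ℕ) × ℕ => l z.1.1.1 := h1.comp PT.fst'
  exact (PT.getD (ho.comp PT.fst'.fst.fst) (h2.length.add PT.snd') (PT.const false)).and
    ((PT.getD (pt_facs h2) PT.snd' (PT.const 0)).eqNat PT.fst'.snd)

end Lower

open Lower

/-- An approximation algorithm with a factor below `1 + 2 / e` puts NP into BPP. -/
theorem np_subset_bpp_of_hasApprox {c : ℝ} (hc0 : 0 ≤ c) (hc : c < 1 + 2 / Real.exp 1)
    (h : HasApprox c) : NP ⊆ BPP := by
  obtain ⟨A, q, hA, h⟩ := h
  have he : 1 / Real.exp 1 ≤ 1 := by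
    rw [div_le_one (Real.exp_pos 1)]
    exact Real.one_le_exp zero_le_one
  obtain ⟨r, hr1, hr2⟩ := exists_rat_btwn (show 1 - 1 / Real.exp 1 < (3 - c) / 2 by
    have : 2 / Real.exp 1 = 2 * (1 / Real.exp 1) := by ring
    linarith)
  have hr0 : 0 ≤ r := by
    have : (0 : ℝ) ≤ r := by linarith
    exact_mod_cast this
  have hrd : (0 : ℝ) < r.den := by exact_mod_cast r.den_pos
  have hrn : ((r.num.natAbs : ℕ) : ℝ) = r * r.den := by
    have h1 : ((r.num.natAbs : ℕ) : ℤ) = r.num := Int.natAbs_of_nonneg (Rat.num_nonneg.2 hr0)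
    have h2 : ((r.num.natAbs : ℕ) : ℝ) = (r.num : ℝ) := by
      rw [← Int.cast_natCast, h1]
    rw [h2]
    exact_mod_cast (Rat.mul_den_eq_num r).symm
  have hard := hard_maxCov (ε := r - (1 - 1 / Real.exp 1)) (by linarith)
  rw [add_sub_cancel] at hard
  have hout : PT ∅ fun z : (ℕ × List (List ℕ)) × Raw => Raw.mk (A (pr (enc (data z.1)) z.2.w)) := by
    obtain ⟨g, hg, hg'⟩ := (pt_data.comp PT.fst').pair
      (PT.snd' : PT ∅ fun z : (ℕ × List (List ℕ)) × Raw => z.2)
    exact ⟨_, (polyTime_iff.1 hA).comp hg, fun z => by rw [hg']; rfl⟩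
  have hB : PT ∅ fun z : (ℕ × List (List ℕ)) × Raw => decide (r.num.natAbs * z.1.2.length <
      r.den * cntOut z.1.2 (A (pr (enc (data z.1)) z.2.w))) :=
    ((PT.const _).mul PT.fst'.snd.length).lt
      ((PT.const _).mul (pt_cntOut PT.fst'.snd (PT.listOfRaw hout)))
  have hq : PT ∅ fun p : ℕ × List (List ℕ) => q.eval (esize (data p)) := pt_polyEval q pt_data.size
  have hqb : PBd fun p : ℕ × List (List ℕ) => q.eval (esize (data p)) :=
    (PBd.of_PB (PB.of_polynomial q)).comp pt_data
  have h3r : 0 < 3 - 2 * (r : ℝ) := by linarith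
  have hiff : ∀ a b : ℕ, r.num.natAbs * a < r.den * b ↔ (r : ℝ) * a < b := by
    intro a b
    rw [← Nat.cast_lt (α := ℝ)]
    push_cast
    rw [hrn, mul_comm (r : ℝ), mul_assoc, mul_lt_mul_iff_right₀ hrd]
  have hyes : ∀ p, (MaxCov ℕ r).yes p → 1 - c / (3 - 2 * r) ≤ frq (q.eval (esize (data p)))
      fun ρ => decide (r.num.natAbs * p.2.length <
        r.den * cntOut p.2 (A (pr (enc (data p)) ρ))) = true := by
    intro p hp
    obtain ⟨S, hS, hE⟩ := h (inst p) (q.eval (esize (data p))) (by rw [code_inst]; rfl)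
    have hm : (0 : ℝ) < p.2.length := by exact_mod_cast List.length_pos_iff.2 hp.2.1
    have h1 := frq_markov (fun ρ => (inst p).cost (S ρ)) (fun ρ => cost_nonneg _ _)
      (fun ρ => ¬ (decide (r.num.natAbs * p.2.length <
        r.den * cntOut p.2 (A (pr (enc (data p)) ρ))) = true))
      (a := (3 - 2 * r) * p.2.length) (fun ρ hρ => by
        rw [← code_inst, ← pairW_eq, (hS ρ).2, cntOut_setW (hS ρ).1, decide_eq_true_eq, hiff,
          not_lt] at hρ
        have := le_cost (hS ρ).1
        linarith)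
    rw [frq_not] at h1
    have h2 := h1.trans (hE.trans (mul_le_mul_of_nonneg_left (opt_le_of_yes hp) hc0))
    rw [sub_le_comm, le_div_iff₀ h3r]
    refine le_of_mul_le_mul_right ?_ hm
    linarith
  have hno : ∀ p, (MaxCov ℕ r).no p → ∀ ρ : List Bool, ρ.length = q.eval (esize (data p)) →
      decide (r.num.natAbs * p.2.length <
        r.den * cntOut p.2 (A (pr (enc (data p)) ρ))) = false := by
    intro p hp ρ hρ
    obtain ⟨S, hS, -⟩ := h (inst p) (q.eval (esize (data p))) (by rw [code_inst]; rfl)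
    obtain ⟨ρ', rfl⟩ : ∃ ρ' : Fin (q.eval (esize (data p))) → Bool, ρ = List.ofFn ρ' :=
      ⟨fun i => ρ[(i : ℕ)]'(by rw [hρ]; exact i.2), by apply List.ext_getElem <;> simp [hρ]⟩
    rw [decide_eq_false_iff_not]
    rw [← code_inst, ← pairW_eq, (hS ρ').2, cntOut_setW (hS ρ').1, hiff, not_lt]
    exact hp.2.2 _ (card_names hp.1 (hS ρ').1)
  intro L hL
  obtain ⟨A', P, hA', h'⟩ := hard.rp hB hq hqb (γ := 1 - c / (3 - 2 * r))
    (by rw [sub_pos, div_lt_one h3r]; linarith) hyes hno (L := L) (by
      obtain ⟨V, q, hV, hL⟩ := hL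
      refine ⟨V, q, hV, fun x => ?_⟩
      rw [hL x, pairW_eq, pairW_eq_pr])
  refine ⟨A', P, polyTime_iff.2 hA', fun x m hm => ?_⟩
  rw [frq_eq m fun ρ => A' (pairW x ρ) = [true], mul_div_cancel_right₀ _ (by positivity), hm,
    pairW_eq]
  refine ⟨(h' x).1, fun hx => ?_⟩
  have h1 := frq_mono (Q := fun _ => False) ((h' x).2 hx)
  rw [frq_const] at h1
  simp only [ind, if_false] at h1
  linarith

/-- The lower bound for the threshold, once some approximation algorithm exists. -/
theorem le_alphaStar (hNP : ¬ NP ⊆ BPP) {c₀ : ℝ} (h1 : 1 ≤ c₀) (h0 : HasApprox c₀) :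
    1 + 2 / Real.exp 1 ≤ alphaStar :=
  le_csInf ⟨c₀, h1, h0⟩ fun _ hc => not_lt.1 fun h =>
    hNP (np_subset_bpp_of_hasApprox (zero_le_one.trans hc.1) h hc.2)

/-- The value of the threshold follows from the upper bound. -/
theorem alphaStar_eq (hup : ∀ ε : ℝ, 0 < ε → HasApprox (1 + 2 / Real.exp 1 + ε))
    (hNP : ¬ NP ⊆ BPP) : alphaStar = 1 + 2 / Real.exp 1 := by
  have he : 0 < 2 / Real.exp 1 := by positivity
  refine le_antisymm (le_of_forall_pos_le_add fun ε hε => ?_)
    (le_alphaStar hNP (by linarith) (hup 1 one_pos))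
  exact csInf_le ⟨1, fun _ hc => hc.1⟩ ⟨by linarith, hup ε hε⟩

end Vale.Agent.P334
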