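import Vale.Agent.P334.Outer
import Vale.Agent.P334.Lower

/-!
From integer instances to the instances of the statement.
-/

namespace Vale.Agent.P334

open Vale.Agent.Lib.PolyTime Vale.Agent.Lib.PTM Vale.Agent.Lib.PCP Finset Lower

/-- The type of the data in the code of an instance. -/
abbrev Dat : Type := ℕ × ℕ × Raw × Raw × List (List (ℕ × ℕ)) × Unit

/-- The matrix of numerators and denominators. -/
def mat (I : Instance) : List (List (ℕ × ℕ)) :=
  List.ofFn fun x => List.ofFn fun y => ((I.d x y).num.natAbs, (I.d x y).den)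

/-- The data of an instance. -/
def dat (I : Instance) : Dat := (I.n, I.k, ⟨setW I.J⟩, ⟨setW I.F⟩, mat I, ())

theorem code_eq (I : Instance) : I.code = enc (dat I) := by
  have h : listW (List.ofFn fun x => listW (List.ofFn fun y =>
      pairW (I.d x y).num.natAbs.bits (I.d x y).den.bits)) = enc (mat I) := by
    rw [← listW_eq, mat, List.map_ofFn]
    congr 2
    funext x
    simp only [Function.comp_apply]
    rw [← listW_eq, List.map_ofFn]
    congr 2
    funext y
    simp only [Function.comp_apply, pairW_eq]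
    rfl
  rw [Instance.code, h]
  simp only [listW, pairW_eq]
  rfl

/-- The common denominator. -/
def den (X : List (List (ℕ × ℕ))) : ℕ := (X.flatten.map fun p => p.2).prod

/-- The integer matrix. -/
def imat (X : List (List (ℕ × ℕ))) : List (List ℕ) :=
  X.map fun r => r.map fun p => p.1 * (den X / p.2)

/-- The list of the positions of `true`. -/
def pos (n : ℕ) (w : Raw) : List ℕ := (List.range n).filter fun i => w.w.getD i false

/-- The integer instance. -/
def conv (t : Dat) : Inp0 :=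
  (imat t.2.2.2.2.1, pos t.2.2.2.2.1.length t.2.2.1, pos t.2.2.2.2.1.length t.2.2.2.1, t.2.1)

theorem pt_conv : PT ∅ conv := by
  have hX : PT ∅ fun t : Dat => t.2.2.2.2.1 := PT.snd'.snd.snd.snd.fst
  have hQ : PT ∅ fun t : Dat => den t.2.2.2.2.1 := PT.prod (PT.map hX.flatten PT.snd'.snd)
  have hr : PT ∅ fun t : Dat => List.range t.2.2.2.2.1.length :=
    PT.range hX.length (PBd.length hX)
  refine PT.pair (PT.map hX (PT.map PT.snd' (PT.snd'.fst.mul
    ((hQ.comp PT.fst'.fst).div PT.snd'.snd)))) (PT.pair ?_ (PT.pair ?_ PT.snd'.fst))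
  · exact PT.filter hr (PT.rawGetD PT.fst'.snd.snd.fst PT.snd')
  · exact PT.filter hr (PT.rawGetD PT.fst'.snd.snd.snd.fst PT.snd')

variable (I : Instance)

theorem mat_length : (mat I).length = I.n := by simp [mat]

theorem n_pos : 0 < I.n := by
  obtain ⟨i, -⟩ := card_pos.1 (lt_of_lt_of_le I.one_le_k I.k_le)
  exact i.pos

theorem den_dvd (x y : Fin I.n) : (I.d x y).den ∣ den (mat I) := by
  refine List.dvd_prod (List.mem_map.2 ⟨((I.d x y).num.natAbs, (I.d x y).den), ?_, rfl⟩)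
  refine List.mem_flatten.2 ⟨_, List.mem_ofFn.2 ⟨x, rfl⟩, List.mem_ofFn.2 ⟨y, rfl⟩⟩

theorem den_pos : 0 < den (mat I) := by
  refine List.prod_pos fun a ha => ?_
  obtain ⟨p, hp, rfl⟩ := List.mem_map.1 ha
  obtain ⟨r, hr, hp⟩ := List.mem_flatten.1 hp
  obtain ⟨x, rfl⟩ := List.mem_ofFn.1 hr
  obtain ⟨y, rfl⟩ := List.mem_ofFn.1 hp
  exact (I.d x y).den_pos

theorem imat_length : (imat (mat I)).length = I.n := by simp [imat, mat]

theorem dm_imat (x y : Fin I.n) : (dm (imat (mat I)) x y : ℚ) = den (mat I) * I.d x y := by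
  have h1 : ∀ z : Fin I.n, cl (imat (mat I)) z = z := fun z => by
    rw [cl, if_pos (by rw [imat_length]; exact z.2)]
  have h2 : dm (imat (mat I)) x y = (I.d x y).num.natAbs * (den (mat I) / (I.d x y).den) := by
    rw [dm, h1, h1]
    simp [imat, mat]
  have h3 : (((I.d x y).num.natAbs : ℕ) : ℚ) = I.d x y * (I.d x y).den := by
    rw [Rat.mul_den_eq_num, ← Int.cast_natCast,
      Int.natAbs_of_nonneg (Rat.num_nonneg.2 (d_nonneg I x y))]
  rw [h2, Nat.cast_mul, Nat.cast_div (den_dvd I x y) (by simp), h3]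
  field_simp

theorem dm_cl (D : List (List ℕ)) (h : 0 < D.length) (a b : ℕ) :
    dm D a b = dm D (cl D a) (cl D b) := by
  have : ∀ z, cl D (cl D z) = cl D z := fun z => by
    unfold cl
    split_ifs <;> rfl
  rw [dm, dm, this, this]

theorem cl_lt (D : List (List ℕ)) (h : 0 < D.length) (a : ℕ) : cl D a < D.length := by
  unfold cl
  split_ifs with e
  · exact e
  · exact h

theorem pm_imat : PM (dm (imat (mat I))) := by
  have h0 : 0 < (imat (mat I)).length := by rw [imat_length]; exact n_pos I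
  have h : ∀ a : ℕ, ∃ x : Fin I.n, cl (imat (mat I)) a = x := fun a =>
    ⟨⟨_, (cl_lt _ h0 a).trans_eq (imat_length I)⟩, rfl⟩
  have hQ : (0 : ℚ) ≤ den (mat I) := Nat.cast_nonneg _
  refine ⟨fun a => ?_, fun a b => ?_, fun a b c => ?_⟩
  · obtain ⟨x, hx⟩ := h a
    rw [dm_cl _ h0, hx, ← Nat.cast_eq_zero (R := ℚ), dm_imat, (I.d_eq_zero x x).2 rfl, mul_zero]
  · obtain ⟨x, hx⟩ := h a
    obtain ⟨y, hy⟩ := h b
    rw [dm_cl _ h0 a b, dm_cl _ h0 b a, hx, hy, ← Nat.cast_inj (R := ℚ), dm_imat, dm_imat,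
      I.d_comm]
  · obtain ⟨x, hx⟩ := h a
    obtain ⟨y, hy⟩ := h b
    obtain ⟨z, hz⟩ := h c
    rw [dm_cl _ h0 a b, dm_cl _ h0 b c, dm_cl _ h0 a c, hx, hy, hz, ← Nat.cast_le (α := ℚ),
      Nat.cast_add, dm_imat, dm_imat, dm_imat, ← mul_add]
    exact mul_le_mul_of_nonneg_left (I.d_triangle x y z) hQ

theorem mem_pos {n : ℕ} (S : Finset (Fin n)) (a : ℕ) :
    a ∈ pos n ⟨setW S⟩ ↔ ∃ x ∈ S, (x : ℕ) = a := by
  simp only [pos, List.mem_filter, List.mem_range]
  constructor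
  · rintro ⟨h1, h2⟩
    refine ⟨⟨a, h1⟩, ?_, rfl⟩
    rw [List.getD_eq_getElem _ _ (by simpa [setW] using h1)] at h2
    simpa [setW] using h2
  · rintro ⟨x, hx, rfl⟩
    refine ⟨x.2, ?_⟩
    rw [List.getD_eq_getElem _ _ (by simp [setW])]
    simpa [setW] using hx

theorem pos_nodup (n : ℕ) (w : Raw) : (pos n w).Nodup := List.nodup_range.filter _

theorem pos_toFinset {n : ℕ} (S : Finset (Fin n)) :
    (pos n ⟨setW S⟩).toFinset = S.map Fin.valEmbedding := by
  ext a
  rw [List.mem_toFinset, mem_pos]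
  simp

theorem pos_length {n : ℕ} (S : Finset (Fin n)) : (pos n ⟨setW S⟩).length = S.card := by
  rw [← List.toFinset_card_of_nodup (pos_nodup _ _), pos_toFinset, card_map]

theorem conv_dat : conv (dat I) =
    (imat (mat I), pos I.n ⟨setW I.J⟩, pos I.n ⟨setW I.F⟩, I.k) := by
  simp only [conv, dat, mat_length]

theorem valid_conv : Valid0 (imat (mat I)) (pos I.n ⟨setW I.J⟩) (pos I.n ⟨setW I.F⟩) I.k := by
  refine ⟨pm_imat I, pos_nodup _ _, pos_nodup _ _, fun j hj => ?_, fun j hj => ?_, I.one_le_k,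
    I.k_le.trans_eq (pos_length _).symm, fun j hj i hi h => ?_⟩
  · obtain ⟨x, -, rfl⟩ := (mem_pos _ _).1 hj
    rw [imat_length]
    exact x.2
  · obtain ⟨x, -, rfl⟩ := (mem_pos _ _).1 hj
    rw [imat_length]
    exact x.2
  · obtain ⟨x, -, rfl⟩ := (mem_pos _ _).1 hj
    obtain ⟨y, -, rfl⟩ := (mem_pos _ _).1 hi
    have h1 := dm_imat I x y
    rw [h, Nat.cast_zero, eq_comm, mul_eq_zero] at h1
    rcases h1 with h1 | h1
    · exact absurd (Nat.cast_eq_zero.1 h1) (den_pos I).ne'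
    · rw [(I.d_eq_zero x y).1 h1]

/-- The set of points given by a list. -/
def toSet (n : ℕ) (S : List ℕ) : Finset (Fin n) := univ.filter fun i => (i : ℕ) ∈ S

theorem setW_toSet (n : ℕ) (S : List ℕ) :
    setW (toSet n S) = (List.range n).map fun i => decide (i ∈ S) := by
  rw [← ofFn_eq_map]
  simp [setW, toSet]

theorem feasible_toSet {S : List ℕ} (h : Feas (pos I.n ⟨setW I.F⟩) I.k S) :
    I.Feasible (toSet I.n S) := by
  refine ⟨fun i hi => ?_, ?_, le_trans ?_ ((List.toFinset_card_le S).trans h.2.2)⟩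
  · obtain ⟨x, hx, e⟩ := (mem_pos _ _).1 (h.2.1 _ (mem_filter.1 hi).2)
    rwa [← Fin.ext e]
  · obtain ⟨x, -, e⟩ := (mem_pos _ _).1 (h.2.1 _ (headD_mem h.1))
    exact card_pos.2 ⟨x, mem_filter.2 ⟨mem_univ _, e ▸ headD_mem h.1⟩⟩
  · exact card_le_card_of_injOn (fun i => (i : ℕ))
      (fun i hi => List.mem_toFinset.2 (mem_filter.1 hi).2) fun _ _ _ _ e => Fin.ext e

theorem cost_toSet {S : List ℕ} (h1 : S ≠ []) (h2 : ∀ s ∈ S, s < I.n) :
    I.cost (toSet I.n S) = cost (dm (imat (mat I))) (pos I.n ⟨setW I.J⟩) S / den (mat I) := by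
  have hQ : (0 : ℝ) < den (mat I) := by exact_mod_cast den_pos I
  have hd : ∀ x y : Fin I.n, (I.d x y : ℝ) = dm (imat (mat I)) x y / den (mat I) := by
    intro x y
    rw [eq_div_iff hQ.ne', mul_comm]
    exact_mod_cast (dm_imat I x y).symm
  rw [cost_eq_sum _ (pos_nodup _ _), pos_toFinset, sum_map, Nat.cast_sum, sum_div, Instance.cost]
  refine sum_congr rfl fun j _ => IsLeast.csInf_eq ⟨?_, ?_⟩
  · have h3 := near_mem (dm (imat (mat I))) j h1
    exact ⟨⟨_, h2 _ h3⟩, mem_filter.2 ⟨mem_univ _, h3⟩, by rw [hd]; rfl⟩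
  · rintro r ⟨i, hi, rfl⟩
    rw [hd]
    refine div_le_div_of_nonneg_right ?_ hQ.le
    exact_mod_cast dl_le _ _ (mem_filter.1 hi).2

theorem opt_conv : (opt (dm (imat (mat I))) (pos I.n ⟨setW I.J⟩) (pos I.n ⟨setW I.F⟩) I.k : ℝ) /
    den (mat I) ≤ I.opt := by
  have hQ : (0 : ℝ) < den (mat I) := by exact_mod_cast den_pos I
  refine le_csInf ⟨_, _, feasible_toSet I (feas_head (valid_conv I).F_ne I.one_le_k), rfl⟩ ?_
  rintro r ⟨S, hS, rfl⟩
  have h1 : Feas (pos I.n ⟨setW I.F⟩) I.k (pos I.n ⟨setW S⟩) := by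
    refine ⟨fun h => ?_, fun s hs => ?_, (pos_length S).trans_le hS.2.2⟩
    · have h1 := pos_length S
      have h2 := hS.2.1
      rw [h, List.length_nil] at h1
      omega
    · obtain ⟨x, hx, e⟩ := (mem_pos _ _).1 hs
      exact (mem_pos _ _).2 ⟨x, hS.1 hx, e⟩
  have h2 : toSet I.n (pos I.n ⟨setW S⟩) = S := by
    ext x
    simp [toSet, mem_pos, Fin.val_inj]
  have h3 := cost_toSet I h1.1 fun s hs => by
    obtain ⟨x, -, rfl⟩ := (mem_pos _ _).1 hs
    exact x.2
  rw [h2] at h3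
  rw [h3]
  refine div_le_div_of_nonneg_right ?_ hQ.le
  exact_mod_cast opt_le _ _ h1

/-- Pseudo-approximation algorithms give approximation algorithms. -/
theorem hasApprox_of_pseudo {α : ℝ} (hα : 1 ≤ α) (hα2 : α ≤ 2) (h : Pseudo α) {ε : ℝ}
    (hε : 0 < ε) : HasApprox (α + ε) := by
  obtain ⟨g, e, hg, h⟩ := outer hα hα2 h hε
  have hc : PT ∅ fun z : Dat × Raw => conv z.1 := pt_conv.comp PT.fst'
  have hA : PT ∅ fun z : Dat × Raw => Raw.mk ((List.range (conv z.1).1.length).map fun i =>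
      decide (i ∈ g (conv z.1, z.2))) :=
    PT.rawOfList (PT.map (PT.range hc.fst.length (PBd.length hc.fst))
      (PT.mem ((hg.comp (hc.pair PT.snd')).comp PT.fst') PT.snd'))
  obtain ⟨A, hA, hA'⟩ := hA
  obtain ⟨e1, he1⟩ := pt_conv.pbd
  obtain ⟨q, hq⟩ := ((PB.pb e).comp (PB.pb e1)).exists_polynomial
  refine ⟨A, q, polyTime_iff.2 hA, fun I m hm => ?_⟩
  obtain ⟨h1, h2⟩ := h _ _ _ _ (valid_conv I)
  refine ⟨fun ρ => toSet I.n (g (conv (dat I), ⟨List.ofFn ρ⟩)), fun ρ => ⟨?_, ?_⟩, ?_⟩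
  · rw [conv_dat]
    exact feasible_toSet I (h1 _)
  · have := hA' (dat I, ⟨List.ofFn ρ⟩)
    rw [setW_toSet, code_eq, pairW_eq]
    refine this.trans ?_
    simp only [enc_raw, conv_dat, imat_length]
  · have hQ : (0 : ℝ) < den (mat I) := by exact_mod_cast den_pos I
    have h3 := h2 m (by
      rw [hm, code_eq, ← conv_dat]
      exact (pb_mono e (he1 (dat I))).trans (hq _))
    have h4 : ∀ ρ : Fin m → Bool, I.cost (toSet I.n (g (conv (dat I), ⟨List.ofFn ρ⟩))) =
        cost (dm (imat (mat I))) (pos I.n ⟨setW I.J⟩) (g (conv (dat I), ⟨List.ofFn ρ⟩)) /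
          den (mat I) := by
      intro ρ
      rw [conv_dat]
      refine cost_toSet I (h1 _).1 fun s hs => ?_
      obtain ⟨x, -, rfl⟩ := (mem_pos _ _).1 ((h1 _).2.1 s hs)
      exact x.2
    simp only [h4]
    rw [← sum_div, div_right_comm, conv_dat]
    refine (div_le_div_of_nonneg_right h3 hQ.le).trans ?_
    rw [mul_div_assoc]
    exact mul_le_mul_of_nonneg_left (opt_conv I) (by linarith)

/-- The value of the threshold follows from a pseudo-approximation algorithm. -/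
theorem final_of_pseudo (h : Pseudo (1 + 2 / Real.exp 1)) :
    (∀ ε : ℝ, 0 < ε → HasApprox (1 + 2 / Real.exp 1 + ε)) ∧
      (¬ NP ⊆ BPP → alphaStar = 1 + 2 / Real.exp 1) := by
  have h1 : 0 < 2 / Real.exp 1 := by positivity
  have h2 : 2 / Real.exp 1 ≤ 1 := by
    rw [div_le_one (Real.exp_pos 1)]
    have := Real.add_one_le_exp (1 : ℝ)
    linarith
  have h3 : ∀ ε : ℝ, 0 < ε → HasApprox (1 + 2 / Real.exp 1 + ε) := fun ε hε =>
    hasApprox_of_pseudo (by linarith) (by linarith) h hε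
  exact ⟨h3, alphaStar_eq h3⟩

end Vale.Agent.P334
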