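import Vale.Agent.P334.Defs

/-!
The complexity classes NP and BPP.
-/

namespace Vale.Agent.P334

/-- The class NP: languages with polynomially long witnesses checked in polynomial time. -/
def NP : Set (Set (List Bool)) :=
  {L | ∃ (V : List Bool → List Bool) (q : Polynomial ℕ), PolyTime V ∧
    ∀ x, x ∈ L ↔ ∃ w : List Bool, w.length ≤ q.eval x.length ∧ V (pairW x w) = [true]}

/-- The class BPP: a polynomial time function `A` and a polynomial `q` such that, with
`m = q (length of x)` random bits, `A` accepts with probability at least `2 / 3` if `x` is in the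
language and at most `1 / 3` if it is not. -/
def BPP : Set (Set (List Bool)) :=
  {L | ∃ (A : List Bool → List Bool) (q : Polynomial ℕ), PolyTime A ∧
    ∀ (x : List Bool) (m : ℕ), m = q.eval x.length →
      (x ∈ L → (2 : ℝ) / 3 ≤
        Nat.card {ρ : Fin m → Bool // A (pairW x (List.ofFn ρ)) = [true]} / 2 ^ m) ∧
      (x ∉ L → Nat.card {ρ : Fin m → Bool // A (pairW x (List.ofFn ρ)) = [true]} / 2 ^ m ≤
        (1 : ℝ) / 3)}

end Vale.Agent.P334
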