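import Mathlib.Computability.TuringMachine.Computable
import Mathlib.Analysis.SpecialFunctions.Exp

/-!
Metric `k`-median: instances, their binary code, and randomized polynomial time approximation
algorithms.
-/

namespace Vale.Agent.P334

/-- A function on binary words is computed in polynomial time by a Turing machine (the multi-stack
machines of Mathlib, with finite alphabets). -/
def PolyTime (A : List Bool → List Bool) : Prop :=
  ∃ M : Turing.TM2ComputableInPolyTime (fun w : List Bool => w) (fun w : List Bool => w) A,
    ∀ k, Finite (M.tm.Γ k)

/-- The word `x` in self-delimiting form (each bit is preceded by `true`, the end is marked by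
`false`), followed by the word `y`. -/
def pairW : List Bool → List Bool → List Bool
  | [], y => false :: y
  | c :: x, y => true :: c :: pairW x y

/-- A list of words, each of them in self-delimiting form. -/
def listW : List (List Bool) → List Bool
  | [] => []
  | x :: l => pairW x (listW l)

/-- The characteristic word of a set of points. -/
def setW {n : ℕ} (S : Finset (Fin n)) : List Bool := List.ofFn fun i => decide (i ∈ S)

/-- An instance of metric `k`-median: a rational metric `d` on the points `0, …, n - 1`, a set `J`
of clients, a set `F` of candidate facilities, and an integer `k` with `1 ≤ k ≤ |F|`. -/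
structure Instance where
  n : ℕ
  d : Fin n → Fin n → ℚ
  J : Finset (Fin n)
  F : Finset (Fin n)
  k : ℕ
  d_eq_zero : ∀ x y, d x y = 0 ↔ x = y
  d_comm : ∀ x y, d x y = d y x
  d_triangle : ∀ x y z, d x z ≤ d x y + d y z
  one_le_k : 1 ≤ k
  k_le : k ≤ F.card

namespace Instance

/-- Feasible solutions: `S ⊆ F` and `1 ≤ |S| ≤ k`. -/
def Feasible (I : Instance) (S : Finset (Fin I.n)) : Prop :=
  S ⊆ I.F ∧ 1 ≤ S.card ∧ S.card ≤ I.k

/-- The sum over the clients `j` of the least distance from `j` to a point of `S`. -/
noncomputable def cost (I : Instance) (S : Finset (Fin I.n)) : ℝ :=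
  ∑ j ∈ I.J, sInf {r : ℝ | ∃ i ∈ S, r = I.d j i}

/-- The least cost of a feasible solution. -/
noncomputable def opt (I : Instance) : ℝ :=
  sInf {r : ℝ | ∃ S, I.Feasible S ∧ r = I.cost S}

/-- The binary code of an instance: `n` and `k` in binary, the characteristic words of `J` and `F`,
and the matrix of distances row by row, each entry as numerator and denominator in binary. -/
def code (I : Instance) : List Bool :=
  listW [I.n.bits, I.k.bits, setW I.J, setW I.F,
    listW (List.ofFn fun x => listW (List.ofFn fun y =>
      pairW (I.d x y).num.natAbs.bits (I.d x y).den.bits))]

end Instance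

/-- There is a randomized polynomial time `c`-approximation algorithm: a polynomial time function
`A` and a polynomial `q` such that for every instance, with `m = q (length of the code)` random
bits, `A` always outputs the characteristic word of a feasible solution, and the expected cost of
this solution is at most `c` times the optimum. -/
def HasApprox (c : ℝ) : Prop :=
  ∃ (A : List Bool → List Bool) (q : Polynomial ℕ), PolyTime A ∧
    ∀ (I : Instance) (m : ℕ), m = q.eval I.code.length →
      ∃ S : (Fin m → Bool) → Finset (Fin I.n),
        (∀ ρ, I.Feasible (S ρ) ∧ A (pairW I.code (List.ofFn ρ)) = setW (S ρ)) ∧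
        (∑ ρ, I.cost (S ρ)) / 2 ^ m ≤ c * I.opt

/-- The approximation threshold: the infimum of all `c ≥ 1` for which there is a polynomial time
`c`-approximation algorithm. -/
noncomputable def alphaStar : ℝ := sInf {c : ℝ | 1 ≤ c ∧ HasApprox c}

end Vale.Agent.P334
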