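import Vale.Agent.P334.ProcBasic
import Vale.Agent.P334.PQ2

/-! The clients, and the total potential at the start and at the end. -/

namespace Vale.Agent.P334.Proc

open Finset

/-- The nearest assignment of a client. -/
theorem client_exists (P : Par) (j : ℕ) (y0 x : ℕ → ℝ) (hy : ∀ i, 0 ≤ y0 i)
    (hx : ∀ i ∈ P.I, 0 ≤ x i ∧ x i ≤ y0 i) (hs : ∑ i ∈ P.I, x i = 1) :
    ∃ C : Client, C.OK P ∧ C.j = j ∧ C.y0 = y0 ∧ C.G0 P ≤ ∑ i ∈ P.I, x i * P.d j i := by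
  classical
  set S : Finset ℕ := P.I.filter fun c => 1 ≤ ∑ c' ∈ P.I with P.d j c' ≤ P.d j c, y0 c' with hS
  have aux : ∀ F ⊆ P.I, 1 ≤ ∑ c ∈ F, y0 c → ∃ c ∈ F, c ∈ S := by
    intro F hF h1
    have hne : F.Nonempty := by
      rw [nonempty_iff_ne_empty]
      rintro rfl
      rw [sum_empty] at h1
      linarith
    obtain ⟨c, hc, hmax⟩ := exists_max_image F (P.d j) hne
    refine ⟨c, hc, mem_filter.2 ⟨hF hc, h1.trans ?_⟩⟩
    exact sum_le_sum_of_subset_of_nonneg (fun c' hc' => mem_filter.2 ⟨hF hc', hmax c' hc'⟩)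
      fun c' _ _ => hy c'
  have hSne : S.Nonempty := by
    obtain ⟨c, -, hc⟩ := aux P.I Subset.rfl (hs.symm.le.trans (sum_le_sum fun i hi => (hx i hi).2))
    exact ⟨c, hc⟩
  obtain ⟨c₀, hc₀, hmin⟩ := exists_min_image S (P.d j) hSne
  set R : ℝ := P.d j c₀ with hR
  set m₁ : ℝ := ∑ c ∈ P.I with P.d j c < R, y0 c with hm₁
  set m₂ : ℝ := ∑ c ∈ P.I with P.d j c = R, y0 c with hm₂
  have h1 : m₁ < 1 := by
    by_contra h
    obtain ⟨c, hc, hcS⟩ := aux _ (filter_subset _ _) (not_lt.1 h)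
    exact absurd (hmin c hcS) (not_le.2 (mem_filter.1 hc).2)
  have h2 : 1 ≤ m₁ + m₂ := by
    refine (mem_filter.1 hc₀).2.trans (le_of_eq ?_)
    rw [hm₁, hm₂, sum_filter, sum_filter, sum_filter, ← sum_add_distrib]
    refine sum_congr rfl fun c _ => ?_
    rcases lt_trichotomy (P.d j c) R with h | h | h
    · rw [if_pos h.le, if_pos h, if_neg h.ne, add_zero]
    · rw [if_pos h.le, if_neg h.ge.not_gt, if_pos h, zero_add]
    · rw [if_neg h.not_ge, if_neg h.le.not_gt, if_neg h.ne', add_zero]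
  have h3 : 0 < m₂ := by linarith
  set lam : ℕ → ℝ := fun i =>
    if P.d j i < R then 1 else if P.d j i = R then (1 - m₁) / m₂ else 0 with hlam
  have ht0 : 0 ≤ (1 - m₁) / m₂ := div_nonneg (by linarith) h3.le
  have ht1 : (1 - m₁) / m₂ ≤ 1 := (div_le_one h3).2 (by linarith)
  have hsum : ∑ i ∈ P.I, lam i * y0 i = 1 := by
    have h4 : ∑ i ∈ P.I, lam i * y0 i = m₁ + (1 - m₁) / m₂ * m₂ := by
      conv_rhs => rw [hm₂, mul_sum, sum_filter]; enter [1]; rw [hm₁, sum_filter]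
      rw [← sum_add_distrib]
      refine sum_congr rfl fun c _ => ?_
      rcases lt_trichotomy (P.d j c) R with h | h | h
      · simp only [hlam, if_pos h, if_neg h.ne, one_mul, add_zero]
      · simp only [hlam, if_neg h.ge.not_gt, if_pos h, zero_add, hm₂]
      · simp only [hlam, if_neg h.le.not_gt, if_neg h.ne', zero_mul, add_zero]
    rw [h4, div_mul_cancel₀ _ h3.ne']
    ring
  refine ⟨⟨j, lam, y0, R⟩, ⟨fun i => ?_, fun i => ?_, hy, hsum, fun i _ hi => ?_, fun w hw => ?_⟩,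
    rfl, rfl, ?_⟩
  · simp only [hlam]
    split_ifs
    exacts [zero_le_one, ht0, le_rfl]
  · simp only [hlam]
    split_ifs
    exacts [le_rfl, ht1, zero_le_one]
  · by_contra h
    have h4 : R < P.d j i := not_le.1 h
    exact hi (by simp only [hlam, if_neg h4.le.not_gt, if_neg h4.ne'])
  · obtain ⟨c, hc, hcS⟩ := aux _ (filter_subset _ _) hw
    exact (hmin c hcS).trans (mem_filter.1 hc).2
  · have h4 : ∑ i ∈ P.I, lam i * y0 i * (P.d j i - R) ≤ ∑ i ∈ P.I, x i * (P.d j i - R) := by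
      refine sum_le_sum fun i hi => ?_
      rcases lt_trichotomy (P.d j i) R with h | h | h
      · simp only [hlam, if_pos h, one_mul]
        exact mul_le_mul_of_nonpos_right (hx i hi).2 (by linarith)
      · rw [h, sub_self, mul_zero, mul_zero]
      · simp only [hlam, if_neg h.le.not_gt, if_neg h.ne', zero_mul]
        exact mul_nonneg (hx i hi).1 (by linarith)
    simp only [mul_sub, sum_sub_distrib, ← sum_mul, hsum, hs] at h4
    simp only [Client.G0]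
    linarith

variable {P : Par} {C : Client} {V : View}

theorem phi0_ge (hP : P.OK) {θ b : ℝ} (hθ : 0 ≤ θ) {ν : ℕ → ℝ} (hν : ∀ i ∈ P.I, 0 ≤ ν i) :
    (1 - ∑ i ∈ P.I, ν i) * b ≤ C.Phi0 P θ b ν := by
  have h0 : 0 < Real.exp (-θ) := Real.exp_pos _
  have h1 : Real.exp (-θ) ≤ 1 := Real.exp_le_one_iff.2 (by linarith)
  have hq := one_le_qf h0 h1
  have hp := half_le_pf h0 h1
  have ha : 0 ≤ ∑ i ∈ P.I, ν i := sum_nonneg hν
  have hG : 0 ≤ ∑ i ∈ P.I, ν i * P.d C.j i :=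
    sum_nonneg fun i hi => mul_nonneg (hν i hi) (hP.d_pos _ _).le
  have h2 : 0 ≤ (qf (Real.exp (-θ)) + pf (Real.exp (-θ)) * ∑ i ∈ P.I, ν i) *
      ∑ i ∈ P.I, ν i * P.d C.j i :=
    mul_nonneg (add_nonneg (by linarith) (mul_nonneg (by linarith) ha)) hG
  rw [Client.Phi0]
  linarith

theorem one_sub_A_le_phi0 (hP : P.OK) (hV : V.OK P) {ν : ℕ → ℝ}
    (hν : ∀ i ∈ P.I, 0 ≤ ν i ∧ ν i ≤ C.x V i) :
    (1 - C.A P V) * V.D C.j ≤ C.Phi0 P V.θ (V.D C.j) ν := by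
  refine le_trans ?_ (phi0_ge hP hV.θ_nonneg fun i hi => (hν i hi).1)
  have h1 : ∑ i ∈ P.I, ν i ≤ C.A P V := sum_le_sum fun i hi => (hν i hi).2
  exact mul_le_mul_of_nonneg_right (by linarith) (hV.D_pos _).le

theorem phi_le_phi0 (hP : P.OK) (hV : V.OK P) {ν : ℕ → ℝ}
    (hν : ∀ i ∈ P.I, 0 ≤ ν i ∧ ν i ≤ C.x V i) : C.Phi P V ≤ C.Phi0 P V.θ (V.D C.j) ν :=
  csInf_le ⟨(1 - C.A P V) * V.D C.j, by
    rintro r ⟨ν', hν', rfl⟩
    exact one_sub_A_le_phi0 hP hV hν'⟩ ⟨ν, hν, rfl⟩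

theorem one_sub_A_le_phi (hP : P.OK) (hC : C.OK P) (hV : V.OK P) :
    (1 - C.A P V) * V.D C.j ≤ C.Phi P V :=
  le_csInf ⟨_, fun _ => 0, fun i _ => ⟨le_rfl, hC.x_nonneg hV i⟩, rfl⟩ (by
    rintro r ⟨ν', hν', rfl⟩
    exact one_sub_A_le_phi0 hP hV hν')

theorem hh_nonneg' (hP : P.OK) (hC : C.OK P) (hV : V.OK P) (hI : C.Inv P V) (i : ℕ) :
    0 ≤ C.hh P V i := by
  rw [Client.hh]
  split_ifs
  · exact hV.rho_nonneg hP i
  · have h1 := mul_nonneg (hC.R_pos hP).le (sub_nonneg.2 (hC.A_le_one hI))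
    have h2 := (hP.d_pos C.j i).le
    have h3 := hC.G0_nonneg hP
    have h4 := mul_nonneg hP.δ_nonneg hP.U_pos.le
    nlinarith

theorem phi_le_psi (hP : P.OK) (hC : C.OK P) (hV : V.OK P) (hI : C.Inv P V) :
    C.Phi P V ≤ C.Psi P V := by
  have hH : 0 ≤ C.H P V :=
    mul_nonneg (mul_nonneg (hC.A_nonneg hV) (sub_nonneg.2 (hC.A_le_one hI))) (hV.D_pos _).le
  have hW : 0 ≤ C.W P V :=
    sum_nonneg fun i _ => mul_nonneg (hC.x0_nonneg i) (hh_nonneg' hP hC hV hI i)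
  have h1 : 0 ≤ P.η * (2 * C.H P V + 6 * C.W P V) := mul_nonneg hP.η_pos.le (by linarith)
  have h2 : 0 ≤ 200 * (P.η + P.ε) * C.G P V :=
    mul_nonneg (by linarith [hP.η_pos, hP.ε_nonneg]) (hC.G_nonneg hP hV)
  rw [Client.Psi]
  linarith

/-- The total potential dominates the final cost. -/
theorem psi_final (hP : P.OK) (hC : C.OK P) (hV : V.OK P) (hI : C.Inv P V) :
    V.D C.j ≤ C.Psi P V + V.mass P * P.U ∧ 0 ≤ C.Psi P V := by
  have h1 := (one_sub_A_le_phi hP hC hV).trans (phi_le_psi hP hC hV hI)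
  have hb := (hV.D_pos C.j).le
  refine ⟨?_, le_trans (mul_nonneg (sub_nonneg.2 (hC.A_le_one hI)) hb) h1⟩
  have h2 : C.A P V ≤ V.mass P := sum_le_sum fun i _ => hC.x_le_y hV i
  have h3 : C.A P V * V.D C.j ≤ V.mass P * P.U :=
    mul_le_mul h2 (hV.D_le _) hb hV.mass_nonneg
  linarith

/-- The total potential at the start. -/
theorem psi_init (hP : P.OK) (hC : C.OK P) (hV : V.OK P) (hy : ∀ i, V.y i = C.y0 i)
    (hθ : V.θ = 0) :
    C.Psi P V ≤ (1 + 2 / Real.exp 1 + 17000 * (P.η + P.ε)) * C.G0 P + 120 * P.δ * P.U := by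
  have hI : C.Inv P V := ⟨fun i => (hy i).le, Or.inr fun c _ _ => hy c⟩
  have hx : ∀ i, C.x V i = C.lam i * C.y0 i := fun i => by rw [Client.x, hy]
  have hA : C.A P V = 1 := by
    rw [← hC.sum_eq]; exact sum_congr rfl fun i _ => hx i
  have hG : C.G P V = C.G0 P := sum_congr rfl fun i _ => by rw [hx]
  have hG0 := hC.G0_nonneg hP
  have hδ := mul_nonneg hP.δ_nonneg hP.U_pos.le
  have h1 : C.Phi P V ≤ (1 + 2 / Real.exp 1) * C.G0 P := by
    refine (phi_le_phi0 hP hV (ν := C.x V) fun i _ => ⟨hC.x_nonneg hV i, le_rfl⟩).trans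
      (le_of_eq ?_)
    have h2 : ∑ i ∈ P.I, C.x V i = 1 := hA
    have h3 : ∑ i ∈ P.I, C.x V i * P.d C.j i = C.G0 P := hG
    rw [Client.Phi0, h2, h3, hθ, neg_zero, Real.exp_zero, mul_one, qf_add_pf_one]
    ring
  have h2 : C.H P V = 0 := by rw [Client.H, hA]; ring
  have h3 : C.W P V ≤ ∑ i ∈ P.I, C.lam i * C.y0 i *
      (1400 * P.d C.j i + (1400 * C.G0 P + 200 * (P.δ * P.U))) := by
    refine sum_le_sum fun i hi => ?_
    by_cases hl : C.lam i = 0
    · rw [hl, zero_mul, zero_mul, zero_mul]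
    · refine mul_le_mul_of_nonneg_left ?_ (hC.x0_nonneg i)
      have h4 := hC.rho_le hP hV hI hi hl
      have h5 := (hP.d_pos C.j i).le
      rw [Client.hh]
      rw [hA] at h4 ⊢
      split_ifs <;> linarith
  have h4 : ∑ i ∈ P.I, C.lam i * C.y0 i *
      (1400 * P.d C.j i + (1400 * C.G0 P + 200 * (P.δ * P.U)))
      = 2800 * C.G0 P + 200 * (P.δ * P.U) := by
    simp only [mul_add (C.lam _ * C.y0 _) (1400 * P.d C.j _), sum_add_distrib, ← sum_mul,
      hC.sum_eq]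
    have h5 : ∑ i ∈ P.I, C.lam i * C.y0 i * (1400 * P.d C.j i) = 1400 * C.G0 P := by
      rw [Client.G0, mul_sum]
      exact sum_congr rfl fun i _ => by ring
    rw [h5]; ring
  rw [h4] at h3
  have h5 := mul_le_mul_of_nonneg_left h3 hP.η_pos.le
  have h6 := mul_le_mul_of_nonneg_right hP.η_le hδ
  have h7 := mul_nonneg hP.ε_nonneg hG0
  rw [Client.Psi, h2, hG]
  nlinarith

end Vale.Agent.P334.Proc
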