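import Vale.Agent.P334.PQ3

/-!
The static inequality, family `C`, far facilities.
-/

namespace Vale.Agent.P334

open Real

/-- The second order excess is paid by the slack. -/
theorem c2_excess {k dd ε S Z B X Y t w W : ℝ} (hk : 0 ≤ k) (hk' : k ≤ 1 / 2) (hd0 : 0 ≤ dd)
    (hε0 : 0 ≤ ε) (hε : ε ≤ (1 - k) * dd) (hεX : ε * X ≤ S) (hw : 0 ≤ w) (hZ : Z = k * dd * w)
    (hS : S = Z * dd) (hB : B ≤ Z) (hY0 : 0 ≤ Y) (hYX : Y ≤ X) (ht : 0 ≤ t) (hW : w ≤ W) :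
    t * (B - (1 - k) * Y - (1 - k) * t) ≤ k * W * (S - ε * Y) := by
  have hεY : ε * Y ≤ S := (mul_le_mul_of_nonneg_left hYX hε0).trans hεX
  have hW0 : 0 ≤ k * W := mul_nonneg hk (hw.trans hW)
  rcases le_total (Z - (1 - k) * Y) 0 with hR | hR
  · have h1 : 0 ≤ k * W * (S - ε * Y) := mul_nonneg hW0 (by linarith)
    have h2 : B - (1 - k) * Y - (1 - k) * t ≤ 0 := by nlinarith
    nlinarith
  · set R := Z - (1 - k) * Y with hRdef
    have h1 : dd * R ≤ S - ε * Y := by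
      have := mul_le_mul_of_nonneg_right hε hY0
      rw [hS, hRdef]; nlinarith
    have h2 : k * W * (dd * R) ≤ k * W * (S - ε * Y) := mul_le_mul_of_nonneg_left h1 hW0
    have h3 : k * w * (dd * R) ≤ k * W * (dd * R) :=
      mul_le_mul_of_nonneg_right (mul_le_mul_of_nonneg_left hW hk) (mul_nonneg hd0 hR)
    have h4 : k * w * (dd * R) = Z * R := by rw [hZ]; ring
    have h5 : R * R ≤ Z * R := by
      refine mul_le_mul_of_nonneg_right ?_ hR
      have : 0 ≤ (1 - k) * Y := mul_nonneg (by linarith) hY0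
      linarith
    have h6 : t * (B - (1 - k) * Y - (1 - k) * t) ≤ t * (R - (1 - k) * t) :=
      mul_le_mul_of_nonneg_left (by linarith) ht
    have h7 : t * t / 2 ≤ (1 - k) * (t * t) := by nlinarith [mul_self_nonneg t]
    nlinarith [sq_nonneg (R - t), mul_self_nonneg R]

/-- The right side is nonnegative. -/
theorem c2_rhs {c lam r μ ε A S M y : ℝ} (hlam : 0 ≤ lam) (hcr : c * r ≤ 1)
    (hr : r ≤ 1) (hM : 0 ≤ M) (hy : 0 ≤ y) (hμ0 : 0 ≤ μ) (hμ : μ ≤ 1 - ε) (hε : 0 ≤ ε)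
    (h0 : (1 - ε) * M ≤ lam * M + A + S) (h1 : (1 - r) * M ≤ A + S) :
    0 ≤ A + S + μ * (y - M) + lam * max (M - c * y) 0 := by
  have hrM : 0 ≤ (1 - r) * M := mul_nonneg (by linarith) hM
  have hμr : μ * ((1 - r) * M) ≤ (1 - r) * M := by nlinarith
  rcases le_total (r * M) y with hy1 | hy1
  · have h2 : 0 ≤ lam * max (M - c * y) 0 := mul_nonneg hlam (le_max_right _ _)
    have h3 : μ * (r * M) ≤ μ * y := mul_le_mul_of_nonneg_left hy1 hμ0
    nlinarith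
  · have h2 : lam * (M - c * y) ≤ lam * max (M - c * y) 0 :=
      mul_le_mul_of_nonneg_left (le_max_left _ _) hlam
    rcases le_total 0 (μ - lam * c) with hs | hs
    · have h3 : 0 ≤ (μ - lam * c) * y := mul_nonneg hs hy
      have h4 : μ * M ≤ (1 - ε) * M := mul_le_mul_of_nonneg_right hμ hM
      nlinarith
    · have h3 : (μ - lam * c) * (r * M) ≤ (μ - lam * c) * y := mul_le_mul_of_nonpos_left hy1 hs
      have h4 : 0 ≤ lam * ((1 - c * r) * M) := mul_nonneg hlam (mul_nonneg (by linarith) hM)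
      nlinarith

/-- Small slope of the kernel term. -/
theorem c2_caseA {k γ A S M x v y L ρ : ℝ} (hγ0 : 0 ≤ γ) (hγ : A + (v - x - M) = γ * (k * v))
    (hexc : (1 - γ) * (v - x - M) ≤ S) (hL0 : 0 ≤ L) (hρ : 0 ≤ ρ)
    (hJ : k * v * L ≤ k * v - (v - x - y)) :
    L * (A + (v - x - M) - ρ) ≤ A + S + γ * (y - M) := by
  have h3 : 0 ≤ L * ρ := mul_nonneg hL0 hρ
  have h4 : γ * (k * v * L) ≤ γ * (k * v - (v - x - y)) := mul_le_mul_of_nonneg_left hJ hγ0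
  have h5 : L * (A + (v - x - M)) = γ * (k * v * L) := by rw [hγ]; ring
  have e1 : L * (A + (v - x - M) - ρ) = L * (A + (v - x - M)) - L * ρ := by ring
  have e2 : γ * (k * v - (v - x - y)) = γ * (k * v) - γ * (v - x - M) + γ * (y - M) := by ring
  have e3 : (1 - γ) * (v - x - M) = (v - x - M) - γ * (v - x - M) := by ring
  linarith

/-- Large slope, near target. -/
theorem c2_caseB {k ε A S M X x v y L : ℝ} (hkv : 0 < k * v) (hA : 0 ≤ A) (hω : 0 ≤ v - x - M)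
    (hε0 : 0 ≤ ε) (hεX : ε * X ≤ S) (hcase : (1 - ε) * (k * v) ≤ A + (v - x - M))
    (hex : ∀ Y t : ℝ, 0 ≤ Y → Y ≤ X → 0 ≤ t →
      t * (k * (x + M) - A - (1 - k) * Y - (1 - k) * t) ≤ k * v * (S - ε * Y))
    (hX : 0 ≤ X) (hy : y - M ≤ X) (hL1 : L ≤ 1)
    (hJ : k * v * L ≤ k * v - (v - x - y)) :
    L * (A + (v - x - M)) ≤ A + S + (1 - ε) * (y - M) := by
  have hV0 : 0 ≤ A + (v - x - M) := by linarith
  rcases le_total (v - x - y) 0 with ht | ht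
  · have h1 : L * (A + (v - x - M)) ≤ 1 * (A + (v - x - M)) := mul_le_mul_of_nonneg_right hL1 hV0
    have h2 : ε * (y - M) ≤ ε * X := mul_le_mul_of_nonneg_left hy hε0
    have e : (1 - ε) * (y - M) = (y - M) - ε * (y - M) := by ring
    linarith
  · refine le_of_mul_le_mul_left ?_ hkv
    have h4 : k * v * L * (A + (v - x - M)) ≤ (k * v - (v - x - y)) * (A + (v - x - M)) :=
      mul_le_mul_of_nonneg_right hJ hV0
    have e0 : k * v * (L * (A + (v - x - M))) = k * v * L * (A + (v - x - M)) := by ring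
    rcases le_total 0 (y - M) with hY | hY
    · have h5 := hex (y - M) (v - x - y) hY hy ht
      have e : (k * v - (v - x - y)) * (A + (v - x - M)) =
          k * v * (A + S + (1 - ε) * (y - M)) - k * v * (S - ε * (y - M)) +
          (v - x - y) * (k * (x + M) - A - (1 - k) * (y - M) - (1 - k) * (v - x - y)) := by
        ring
      linarith
    · have h5 : (ε * (k * v) - (k * v - (A + (v - x - M)))) * (y - M) ≤ 0 :=
        mul_nonpos_of_nonneg_of_nonpos (by linarith) hY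
      have h6 := hex 0 (v - x - M) le_rfl hX hω
      have e : (k * v - (v - x - y)) * (A + (v - x - M)) =
          k * v * (A + S + (1 - ε) * (y - M)) - k * v * (S - ε * 0) +
          (ε * (k * v) - (k * v - (A + (v - x - M)))) * (y - M) +
          (v - x - M) * (k * (x + M) - A - (1 - k) * 0 - (1 - k) * (v - x - M)) := by
        ring
      linarith

/-- Large slope, far target. -/
theorem c2_caseC {k ε A S M X x v y L : ℝ} (hk0 : 0 ≤ k) (hkv : 0 < k * v) (hA : 0 ≤ A)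
    (hεu : ε ≤ 1 - k) (hεX : ε * X ≤ S)
    (hex : ∀ Y t : ℝ, 0 ≤ Y → Y ≤ X → 0 ≤ t →
      t * (k * (x + M) - A - (1 - k) * Y - (1 - k) * t) ≤ k * v * (S - ε * Y))
    (hX : 0 ≤ X) (hy : X ≤ y - M) (hL0 : 0 ≤ L) (hL1 : L ≤ 1)
    (hJ : k * v * L ≤ k * v - (v - x - y)) :
    L * (A + (v - x - M) - (y - M - X)) ≤ A + S + (1 - ε) * (y - M) := by
  have hη : k * (y - M - X) ≤ (1 - ε) * (y - M - X) :=
    mul_le_mul_of_nonneg_right (by linarith) (by linarith)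
  have hη0 : 0 ≤ k * (y - M - X) := mul_nonneg hk0 (by linarith)
  have eV : A + (v - x - M) - (y - M - X) = (v - x - y) + (A + X) := by ring
  rw [eV]
  have e1 : (1 - ε) * (y - M) = (1 - ε) * (y - M - X) + X - ε * X := by ring
  suffices h : L * ((v - x - y) + (A + X)) ≤ A + X + (S - ε * X) + k * (y - M - X) by linarith
  rcases le_total (v - x - y) 0 with ht | ht
  · have h3 : L * (v - x - y) ≤ 0 := mul_nonpos_of_nonneg_of_nonpos hL0 ht
    have h4 : L * (A + X) ≤ 1 * (A + X) := mul_le_mul_of_nonneg_right hL1 (by linarith)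
    have e : L * ((v - x - y) + (A + X)) = L * (v - x - y) + L * (A + X) := by ring
    linarith
  · refine le_of_mul_le_mul_left ?_ hkv
    have h4 : k * v * L * ((v - x - y) + (A + X)) ≤
        (k * v - (v - x - y)) * ((v - x - y) + (A + X)) :=
      mul_le_mul_of_nonneg_right hJ (by linarith)
    have h5 := hex X (v - x - y) hX le_rfl ht
    have h6 : v - x - y ≤ k * v := by linarith [mul_nonneg hkv.le hL0]
    have h7 : (v - x - y) * (k * (y - M - X)) ≤ k * v * (k * (y - M - X)) :=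
      mul_le_mul_of_nonneg_right h6 hη0
    have e0 : k * v * (L * ((v - x - y) + (A + X))) = k * v * L * ((v - x - y) + (A + X)) := by
      ring
    have e : (k * v - (v - x - y)) * ((v - x - y) + (A + X)) =
        k * v * (A + X + (S - ε * X) + k * (y - M - X)) - k * v * (S - ε * X) -
        k * v * (k * (y - M - X)) + (v - x - y) * (k * (y - M - X)) +
        (v - x - y) * (k * (x + M) - A - (1 - k) * X - (1 - k) * (v - x - y)) := by
      ring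
    linarith

/-- The case analysis, given `ε`. -/
theorem c2_main {k dd ε lam c r A S M x v : ℝ} (hk : 1 / 4 ≤ k) (hk' : k ≤ 1 / 2) (hd0 : 0 ≤ dd)
    (hd1 : dd ≤ 1) (hlam : 0 ≤ lam) (hcr : c * r ≤ 1) (hr : r ≤ 1) (hM : 0 ≤ M)
    (hx : 0 ≤ x) (hw : M ≤ c * x) (hv : M + x ≤ v) (hA : 0 ≤ A) (hS : S = k * dd * (x + M) * dd)
    (hB : k * (x + M) - A ≤ k * dd * (x + M))
    (hε0 : 0 ≤ ε) (hε : ε ≤ (1 - k) * dd) (hεX : ε * (c * x - M) ≤ S)
    (h0 : (1 - ε) * M ≤ lam * M + A + S) (h1 : (1 - r) * M ≤ A + S) :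
    ∃ μ : ℝ, ∀ y L : ℝ, 0 ≤ y → 0 ≤ L → L ≤ 1 → (L = 0 ∨ k * v * L ≤ k * v - (v - x - y)) →
      L * (A + (v - x - M) - max (y - c * x) 0) ≤
        A + S + μ * (y - M) + lam * max (M - c * y) 0 := by
  have hk0 : 0 ≤ k := by linarith
  have hxM : 0 ≤ x + M := by linarith
  have hS0 : 0 ≤ S := by rw [hS]; positivity
  have hεu : ε ≤ 1 - k := by
    have : (1 - k) * dd ≤ (1 - k) * 1 := mul_le_mul_of_nonneg_left hd1 (by linarith)
    linarith
  have hex : ∀ Y t : ℝ, 0 ≤ Y → Y ≤ c * x - M → 0 ≤ t →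
      t * (k * (x + M) - A - (1 - k) * Y - (1 - k) * t) ≤ k * v * (S - ε * Y) :=
    fun Y t hY0 hYX ht => c2_excess hk0 hk' hd0 hε0 hε hεX hxM rfl hS hB hY0 hYX ht (by linarith)
  have hω : 0 ≤ v - x - M := by linarith
  have hX : 0 ≤ c * x - M := by linarith
  clear hS hB hε
  rcases (show 0 ≤ v by linarith).eq_or_lt with hv0 | hv0
  · refine ⟨0, fun y L hy hL0 hL1 _ => ?_⟩
    have h2 : 0 ≤ lam * max (M - c * y) 0 := mul_nonneg hlam (le_max_right _ _)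
    have h3 : 0 ≤ L * max (y - c * x) 0 := mul_nonneg hL0 (le_max_right _ _)
    have h4 : L * A ≤ 1 * A := mul_le_mul_of_nonneg_right hL1 hA
    have h5 : v - x - M = 0 := by linarith
    rw [h5, add_zero, mul_sub]
    linarith
  have hkv : 0 < k * v := mul_pos (by linarith) hv0
  rcases le_total (A + (v - x - M)) ((1 - ε) * (k * v)) with hcase | hcase
  · obtain ⟨γ, hγ⟩ : ∃ γ, A + (v - x - M) = γ * (k * v) :=
      ⟨(A + (v - x - M)) / (k * v), by field_simp⟩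
    have hγ0 : 0 ≤ γ := by
      by_contra h
      have : γ * (k * v) < 0 := mul_neg_of_neg_of_pos (not_le.mp h) hkv
      linarith
    have hγ1 : γ ≤ 1 - ε := le_of_mul_le_mul_right (by linarith) hkv
    have hexc : (1 - γ) * (v - x - M) ≤ S := by
      refine le_of_mul_le_mul_left ?_ hkv
      have h6 := hex 0 (v - x - M) le_rfl hX hω
      have : k * v * ((1 - γ) * (v - x - M)) =
          (v - x - M) * (k * (x + M) - A - (1 - k) * 0 - (1 - k) * (v - x - M)) := by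
        have : A = γ * (k * v) - (v - x - M) := by linarith
        rw [this]; ring
      rw [mul_zero, sub_zero] at h6
      linarith
    refine ⟨γ, fun y L hy hL0 hL1 hJ => ?_⟩
    rcases hJ with hJ | hJ
    · rw [hJ, zero_mul]
      exact c2_rhs hlam hcr hr hM hy hγ0 hγ1 hε0 h0 h1
    · have h2 : 0 ≤ lam * max (M - c * y) 0 := mul_nonneg hlam (le_max_right _ _)
      have := c2_caseA hγ0 hγ hexc hL0 (le_max_right (y - c * x) 0) hJ
      linarith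
  · refine ⟨1 - ε, fun y L hy hL0 hL1 hJ => ?_⟩
    rcases hJ with hJ | hJ
    · rw [hJ, zero_mul]
      exact c2_rhs hlam hcr hr hM hy (by linarith) le_rfl hε0 h0 h1
    have h2 : 0 ≤ lam * max (M - c * y) 0 := mul_nonneg hlam (le_max_right _ _)
    rcases le_total y (c * x) with hy1 | hy1
    · have h3 : 0 ≤ L * max (y - c * x) 0 := mul_nonneg hL0 (le_max_right _ _)
      have := c2_caseB hkv hA hω hε0 hεX hcase hex hX (by linarith) hL1 hJ
      rw [mul_sub]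
      linarith
    · rw [max_eq_left (by linarith : 0 ≤ y - c * x)]
      have := c2_caseC hk0 hkv hA hεu hεX hex hX (by linarith) hL0 hL1 hJ
      rw [show y - M - (c * x - M) = y - c * x by ring] at this
      linarith

theorem c2_U1 {τ : ℝ} (h0 : 0 < τ) (h1 : τ ≤ 9 / 16) :
    pp τ * (13 / 8 * τ + 7 / 8 + 49 / 256) + 5 / 8 * qq τ ≤ 135 / 64 := by
  have hp := mul_le_mul_of_nonneg_right (pp_le_cubic h0 (by linarith))
    (by positivity : 0 ≤ 13 / 8 * τ + 7 / 8 + 49 / 256)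
  have hq := qq_le h0 (by linarith)
  have h2 : 0 ≤ τ * (9 / 16 - τ) := mul_nonneg h0.le (by linarith)
  nlinarith [mul_nonneg h2 h0.le, mul_nonneg h2 h2, pow_pos h0 4]

theorem c2_U2 {τ : ℝ} (h0 : 9 / 16 ≤ τ) (h1 : τ ≤ 1) :
    pp τ * (13 / 8 * τ + 7 / 8 + 7 / 8 * (1 - τ) - (1 - τ) ^ 2) + 5 / 8 * qq τ ≤ 135 / 64 := by
  have hτ : 0 < τ := by linarith
  have hp4 : pp τ ≤ 1 - 2 * τ / 3 + τ ^ 2 / 4 - τ ^ 3 / 15 + τ ^ 4 / 72 := by
    linarith [(pp_bounds' hτ h1).2, pow_pos hτ 5]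
  have hp := mul_le_mul_of_nonneg_right hp4
    (by nlinarith : 0 ≤ 13 / 8 * τ + 7 / 8 + 7 / 8 * (1 - τ) - (1 - τ) ^ 2)
  have hq := qq_le_quartic hτ h1
  have hs : 0 ≤ τ - 9 / 16 := by linarith
  have ht : 0 ≤ 1 - τ := by linarith
  have b0 : 0 ≤ (1 - τ) ^ 7 := by positivity
  have b1 : 0 ≤ (τ - 9 / 16) * (1 - τ) ^ 6 := by positivity
  have b2 : 0 ≤ (τ - 9 / 16) ^ 2 * (1 - τ) ^ 5 := by positivity
  have b3 : 0 ≤ (τ - 9 / 16) ^ 3 * (1 - τ) ^ 4 := by positivity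
  have b4 : 0 ≤ (τ - 9 / 16) ^ 4 * (1 - τ) ^ 3 := by positivity
  have b5 : 0 ≤ (τ - 9 / 16) ^ 5 * (1 - τ) ^ 2 := by positivity
  have b6 : 0 ≤ (τ - 9 / 16) ^ 6 * (1 - τ) := by positivity
  have b7 : 0 ≤ (τ - 9 / 16) ^ 7 := by positivity
  linarith

theorem c2_U3 {τ : ℝ} (h0 : 1 / 2 ≤ τ) (h1 : τ ≤ 1) : pp τ * (6 - τ) ≤ 4 := by
  have hτ : 0 < τ := by linarith
  have hp := mul_le_mul_of_nonneg_right (pp_le_cubic hτ h1) (by linarith : 0 ≤ 6 - τ)
  have h2 : 0 ≤ (τ - 1 / 2) * (1 - τ) := mul_nonneg (by linarith) (by linarith)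
  nlinarith [mul_nonneg h2 hτ.le, mul_nonneg h2 h2]

theorem c2_U4 {τ : ℝ} (h0 : 0 < τ) (h1 : τ ≤ 1 / 2) :
    pp τ * (13 / 8 * τ + 7 / 8 + 75 / 256) + 5 / 8 * qq τ ≤ 135 / 64 ∧
    pp τ * (13 / 8 * τ + 7 / 8 + 75 / 256 + 19 / 16) + 5 / 8 * qq τ ≤ 135 / 64 + 1 := by
  have hp := mul_le_mul_of_nonneg_right (pp_le_cubic h0 (by linarith))
    (by positivity : 0 ≤ 13 / 8 * τ + 7 / 8 + 75 / 256)
  have hp' := mul_le_mul_of_nonneg_right (pp_le_cubic h0 (by linarith))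
    (by positivity : 0 ≤ 13 / 8 * τ + 7 / 8 + 75 / 256 + 19 / 16)
  have hq := qq_le_quartic h0 (by linarith)
  have h2 : 0 ≤ τ * (1 / 2 - τ) := mul_nonneg h0.le (by linarith)
  constructor
  · nlinarith [mul_nonneg h2 h0.le, mul_nonneg h2 h2, pow_pos h0 4]
  · nlinarith [mul_nonneg h2 h0.le, mul_nonneg h2 h2, pow_pos h0 4]

theorem c2_U5 {τ : ℝ} (h0 : 0 < τ) (h1 : τ ≤ 1) :
    pp τ * (7 / 4 - 3 / 4 * (1 - τ) ^ 2) + 3 / 4 * qq τ ≤ 2 := by
  have hp := mul_le_mul_of_nonneg_right (pp_le_cubic h0 h1)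
    (by nlinarith : 0 ≤ 7 / 4 - 3 / 4 * (1 - τ) ^ 2)
  have hq := qq_le_quartic h0 h1
  have h2 : 0 ≤ τ * (1 - τ) := mul_nonneg h0.le (by linarith)
  nlinarith [mul_nonneg h2 h0.le, mul_nonneg h2 h2, pow_pos h0 4, mul_nonneg (mul_nonneg h2 h0.le) h0.le,
    sq_nonneg (τ - 1 / 2), mul_nonneg h0.le (sq_nonneg (τ - 1 / 2)), mul_nonneg (mul_nonneg h2 h2) h0.le]
theorem c2_Fb {τ a : ℝ} (h0 : 0 < τ) (h1 : τ ≤ 1) (ha1 : a ≤ 1) :
    pp τ * (13 / 8 * a + 7 / 8) + 5 / 8 * qq τ - 135 / 64 ≤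
      pp τ * (max (a - τ) 0) ^ 2 + 3 / 4 * pp τ * max (a - τ) 0 := by
  have hp : 0 ≤ pp τ := by linarith [half_le_pp h0 h1]
  obtain ⟨d, hd, hd0, hd1, hd2⟩ : ∃ d, max (a - τ) 0 = d ∧ 0 ≤ d ∧ d ≤ 1 - τ ∧ a ≤ τ + d :=
    ⟨_, rfl, le_max_right _ _, max_le (by linarith) (by linarith),
      by linarith [le_max_left (a - τ) 0]⟩
  rw [hd]
  rcases le_total τ (9 / 16) with hc | hc
  · have h := c2_U1 h0 hc
    have : pp τ * (13 / 8 * a + 7 / 8 - d ^ 2 - 3 / 4 * d) ≤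
        pp τ * (13 / 8 * τ + 7 / 8 + 49 / 256) :=
      mul_le_mul_of_nonneg_left (by nlinarith [sq_nonneg (d - 7 / 16)]) hp
    linarith
  · have h := c2_U2 hc h1
    have h2 : 0 ≤ (1 - τ - d) * (7 / 8 - (1 - τ) - d) := mul_nonneg (by linarith) (by linarith)
    have : pp τ * (13 / 8 * a + 7 / 8 - d ^ 2 - 3 / 4 * d) ≤
        pp τ * (13 / 8 * τ + 7 / 8 + 7 / 8 * (1 - τ) - (1 - τ) ^ 2) :=
      mul_le_mul_of_nonneg_left (by nlinarith) hp
    linarith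

theorem c2_Fa {τ a : ℝ} (h0 : 0 < τ) (h1 : τ ≤ 1) (ha1 : a ≤ 1) :
    pp τ * (13 / 8 * a + 7 / 8) + 5 / 8 * qq τ - 135 / 64 ≤
      3 / 4 * pp τ * (max (a - τ) 0) ^ 2 + (1 - pp τ / 2) * max (a - τ) 0 := by
  have hp : 0 ≤ pp τ := by linarith [half_le_pp h0 h1]
  have hb := c2_Fb h0 h1 ha1
  obtain ⟨d, hd, hd0, hd1, hd2⟩ : ∃ d, max (a - τ) 0 = d ∧ 0 ≤ d ∧ d ≤ 1 - τ ∧ a ≤ τ + d :=
    ⟨_, rfl, le_max_right _ _, max_le (by linarith) (by linarith),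
      by linarith [le_max_left (a - τ) 0]⟩
  rw [hd] at hb ⊢
  rcases le_total τ (1 / 2) with hc | hc
  · obtain ⟨h, h'⟩ := c2_U4 h0 hc
    have h2 : pp τ * (13 / 8 * a + 7 / 8 - 3 / 4 * d ^ 2 + d / 2) ≤
        pp τ * (13 / 8 * τ + 7 / 8 + 75 / 256 + 19 / 16 * d) :=
      mul_le_mul_of_nonneg_left (by nlinarith [sq_nonneg (d - 5 / 8)]) hp
    have h3 := mul_le_mul_of_nonneg_left h (by linarith : 0 ≤ 1 - d)
    have h4 := mul_le_mul_of_nonneg_left h' hd0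
    linarith
  · have h := c2_U3 hc h1
    have h2 : pp τ * (5 + d) ≤ pp τ * (6 - τ) := mul_le_mul_of_nonneg_left (by linarith) hp
    have h3 : d * (pp τ * (5 + d)) ≤ d * 4 := mul_le_mul_of_nonneg_left (h2.trans h) hd0
    linarith

theorem c2_Fc {τ a : ℝ} (h0 : 0 < τ) (h1 : τ ≤ 1) (ha1 : a ≤ 1) :
    pp τ * (7 / 4 * a - 3 / 4 * (max (a - τ) 0) ^ 2) + 3 / 4 * qq τ ≤ 2 := by
  have hp : 0 ≤ pp τ := by linarith [half_le_pp h0 h1]
  obtain ⟨d, hd, hd0, hd1, hd2⟩ : ∃ d, max (a - τ) 0 = d ∧ 0 ≤ d ∧ d ≤ 1 - τ ∧ a ≤ τ + d :=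
    ⟨_, rfl, le_max_right _ _, max_le (by linarith) (by linarith),
      by linarith [le_max_left (a - τ) 0]⟩
  rw [hd]
  have h := c2_U5 h0 h1
  have h2 : 0 ≤ (1 - τ - d) * (7 / 4 - 3 / 4 * (1 - τ + d)) :=
    mul_nonneg (by linarith) (by linarith)
  have : pp τ * (7 / 4 * a - 3 / 4 * d ^ 2) ≤ pp τ * (7 / 4 - 3 / 4 * (1 - τ) ^ 2) :=
    mul_le_mul_of_nonneg_left (by nlinarith) hp
  linarith

/-- The choice of `ε`. -/
theorem c2_eps {u X S E M : ℝ} (hu : 0 ≤ u) (hS : 0 ≤ S) (hX : 0 ≤ X)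
    (ha : E ≤ u * M) (hb : E * X ≤ S * M) :
    ∃ ε, 0 ≤ ε ∧ ε ≤ u ∧ ε * X ≤ S ∧ E ≤ ε * M := by
  rcases le_or_gt (u * X) S with h | h
  · exact ⟨u, hu, le_rfl, h, ha⟩
  · have hX0 : 0 < X := by
      rcases hX.eq_or_lt with h0 | h0
      · rw [← h0, mul_zero] at h; linarith
      · exact h0
    refine ⟨S / X, by positivity, ?_, ?_, ?_⟩
    · rw [div_le_iff₀ hX0]; exact h.le
    · rw [div_mul_cancel₀ _ hX0.ne']
    · rw [div_mul_eq_mul_div, le_div_iff₀ hX0]; exact hb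

theorem c2_geom {w M X x : ℝ} (hw0 : 0 ≤ w) (hM : 0 ≤ M) (hx : 0 ≤ x) (hX0 : 0 ≤ X)
    (hX : X = (2 - w) * x - M) :
    (M + X) / 2 ≤ x ∧ (5 / 8 * w - 1 / 64) * M + w * X / 2 ≤ w * x ∧ w * M / 2 ≤ w * x := by
  have hcr : (2 - w) * (1 / 2 + w / 4) ≤ 1 := by nlinarith [sq_nonneg w]
  have hxr : (1 / 2 + w / 4) * (M + X) ≤ x := by
    have h1 : (2 - w) * (1 / 2 + w / 4) * x ≤ 1 * x := mul_le_mul_of_nonneg_right hcr hx
    have e : (1 / 2 + w / 4) * (M + X) = (2 - w) * (1 / 2 + w / 4) * x := by rw [hX]; ring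
    linarith
  clear hX hcr
  have hwM : 0 ≤ w * M := mul_nonneg hw0 hM
  have hwX : 0 ≤ w * X := mul_nonneg hw0 hX0
  have hx2 : (M + X) / 2 ≤ x := by linarith
  refine ⟨hx2, ?_, ?_⟩
  · have h1 := mul_le_mul_of_nonneg_left hxr hw0
    have h2 : 0 ≤ (w - 1 / 4) ^ 2 * M := by positivity
    have h3 : 0 ≤ w * (w * X) := mul_nonneg hw0 hwX
    linarith
  · have := mul_le_mul_of_nonneg_left hx2 hw0
    linarith

theorem c2_lam {k dd S' w D E M X x : ℝ} (hk0 : 0 ≤ k) (hS' : S' = k * dd ^ 2) (hw0 : 0 ≤ w)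
    (hFa : D ≤ 3 / 2 * S' + (1 - k) * dd) (hFb : D ≤ 2 * S' + 3 / 2 * k * dd)
    (hFd : 3 / 4 * k ≤ w + S') (hM : 0 ≤ M) (hX0 : 0 ≤ X) (hx2 : (M + X) / 2 ≤ x)
    (hE : E ≤ (D - 3 / 2 * S') * M - (w + S') * X / 2) :
    E ≤ (1 - k) * dd * M ∧ E * X ≤ S' * (x + M) * M := by
  have hS'0 : 0 ≤ S' := by rw [hS']; positivity
  have hSx : S' * (3 / 2 * M + X / 2) ≤ S' * (x + M) :=
    mul_le_mul_of_nonneg_left (by linarith) hS'0
  constructor
  · have h1 := mul_le_mul_of_nonneg_right hFa hM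
    have h2 : 0 ≤ (w + S') * X := mul_nonneg (by linarith) hX0
    linarith
  · have h1 := mul_le_mul_of_nonneg_right hE hX0
    have h2 := mul_le_mul_of_nonneg_right hSx hM
    have h3 := mul_le_mul_of_nonneg_right hFb (mul_nonneg hM hX0)
    have h4 := mul_le_mul_of_nonneg_right hFd (mul_self_nonneg X)
    have h5 : 0 ≤ k * (X - 2 * dd * M) ^ 2 := by positivity
    have h6 : S' * (M * M) = k * dd ^ 2 * (M * M) := by rw [hS']
    linarith

/-- The abstract form, with `w = 2 - c`. -/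
theorem c2_abs {k dd lam w s D M x v : ℝ} (hk : 1 / 4 ≤ k) (hk' : k ≤ 1 / 2) (hd0 : 0 ≤ dd)
    (hd1 : dd ≤ 1) (hlam : 0 ≤ lam) (hw0 : 0 ≤ w) (hw1 : w ≤ 1) (hs1 : s ≤ 1)
    (hb1 : k - 1 + s ≤ k * dd) (hb2 : k - w ≤ k * dd)
    (hD : s - lam - 5 / 8 * w + 1 / 64 ≤ D)
    (hFa : D ≤ 3 / 2 * (k * dd ^ 2) + (1 - k) * dd)
    (hFb : D ≤ 2 * (k * dd ^ 2) + 3 / 2 * k * dd)
    (hFc : s ≤ 1 / 2 + 3 / 4 * w + 3 / 2 * (k * dd ^ 2))
    (hFd : 3 / 4 * k ≤ w + k * dd ^ 2)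
    (hM : 0 ≤ M) (hx : 0 ≤ x) (hw : M ≤ (2 - w) * x) (hv : M + x ≤ v) :
    ∃ μ : ℝ, ∀ y L : ℝ, 0 ≤ y → 0 ≤ L → L ≤ 1 → (L = 0 ∨ k * v * L ≤ k * v - (v - x - y)) →
      L * ((M + w * x - s * M) + (v - x - M) - max (y - (2 - w) * x) 0) ≤
        (M + w * x - s * M) + k * dd * (x + M) * dd + μ * (y - M) +
          lam * max (M - (2 - w) * y) 0 := by
  have hk0 : 0 ≤ k := by linarith
  obtain ⟨S', hS'⟩ : ∃ S', S' = k * dd ^ 2 := ⟨_, rfl⟩
  rw [← hS'] at hFa hFb hFc hFd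
  have hS'0 : 0 ≤ S' := by rw [hS']; positivity
  have eS : k * dd * (x + M) * dd = S' * (x + M) := by rw [hS']; ring
  obtain ⟨X, hX⟩ : ∃ X, X = (2 - w) * x - M := ⟨_, rfl⟩
  have hX0 : 0 ≤ X := by linarith
  have hcr : (2 - w) * (1 / 2 + w / 4) ≤ 1 := by
    have := sq_nonneg w
    linarith
  obtain ⟨hx2, hwx, hwx'⟩ := c2_geom hw0 hM hx hX0 hX
  have hSx : S' * (3 / 2 * M + X / 2) ≤ S' * (x + M) :=
    mul_le_mul_of_nonneg_left (by linarith) hS'0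
  have hSX : 0 ≤ S' * X := mul_nonneg hS'0 hX0
  have hDM := mul_le_mul_of_nonneg_right hD hM
  have hE : s * M - lam * M - w * x - S' * (x + M) ≤
      (D - 3 / 2 * S') * M - (w + S') * X / 2 := by linarith
  obtain ⟨ha, hb⟩ := c2_lam hk0 hS' hw0 hFa hFb hFd hM hX0 hx2 hE
  obtain ⟨ε, hε0, hε, hεX, hεE⟩ := c2_eps (mul_nonneg (by linarith : 0 ≤ 1 - k) hd0)
    (mul_nonneg hS'0 (by linarith : 0 ≤ x + M)) hX0 ha hb
  have hsM : s * M ≤ 1 * M := mul_le_mul_of_nonneg_right hs1 hM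
  have hwx0 : 0 ≤ w * x := mul_nonneg hw0 hx
  refine c2_main (ε := ε) (r := 1 / 2 + w / 4) hk hk' hd0 hd1 hlam hcr (by linarith) hM hx hw hv
    (by linarith) rfl ?_ hε0 hε ?_ ?_ ?_
  · have h1 := mul_le_mul_of_nonneg_right hb1 hM
    have h2 := mul_le_mul_of_nonneg_right hb2 hx
    linarith
  · rw [eS, ← hX]; exact hεX
  · rw [eS]; linarith
  · rw [eS]
    have := mul_le_mul_of_nonneg_right hFc hM
    linarith

theorem coreC2 (τ a M x v : ℝ) (h0 : 0 < τ) (h1 : τ ≤ 1) (ha0 : 0 ≤ a) (ha1 : a ≤ 1)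
    (hM : 0 ≤ M) (hx : 0 ≤ x) (hw : M ≤ (qq τ + pp τ * a) * x) (hv : M + x ≤ v) :
    ∃ μ : ℝ, ∀ y J : ℝ, 0 ≤ y → 0 ≤ J → J ≤ 1 → (J = 1 ∨ v - x - y ≤ pp τ / 2 * v * J) →
      0 ≤ (y - (v - x)) + J * (v - (qq τ + pp τ * a - 1) * x - pp τ * a * M) +
        (1 - J) * max (y - (qq τ + pp τ * a) * x) 0 +
        7 / 8 * (1 - pp τ) * max (M - (qq τ + pp τ * a) * y) 0 - μ * (y - M) +
        pp τ / 2 * (a - τ) ^ 2 * (x + M) := by
  have hp0 := half_le_pp h0 h1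
  have hp1 := pp_le_one h0 h1
  have hq := one_le_qq h0 h1
  have hpq := pq_le_two h0 h1
  have hFa := c2_Fa h0 h1 ha1
  have hFb := c2_Fb h0 h1 ha1
  have hFc := c2_Fc h0 h1 ha1
  obtain ⟨d, hd, hd0, hd1, hd2, hd3⟩ : ∃ d, max (a - τ) 0 = d ∧ 0 ≤ d ∧ d ≤ 1 - τ ∧ a ≤ τ + d ∧
      d ^ 2 ≤ (a - τ) ^ 2 := by
    refine ⟨_, rfl, le_max_right _ _, max_le (by linarith) (by linarith),
      by linarith [le_max_left (a - τ) 0], ?_⟩
    rcases le_total (a - τ) 0 with h | h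
    · rw [max_eq_right h]; nlinarith [sq_nonneg (a - τ)]
    · rw [max_eq_left h]
  rw [hd] at hFa hFb hFc
  generalize pp τ = p at *
  generalize qq τ = q at *
  have hpa : p * a ≤ p * (τ + d) := mul_le_mul_of_nonneg_left hd2 (by linarith)
  have hpa1 : p * a ≤ p * 1 := mul_le_mul_of_nonneg_left ha1 (by linarith)
  have hpa0 : 0 ≤ p * a := mul_nonneg (by linarith) ha0
  have hpτ : 0 ≤ p * τ := mul_nonneg (by linarith) h0.le
  have hFd : 3 / 4 * (p / 2) ≤ (2 - q - p * a) + p / 2 * d ^ 2 := by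
    have : 0 ≤ p * (d - 1 / 2) ^ 2 := mul_nonneg (by linarith) (sq_nonneg _)
    nlinarith
  obtain ⟨μ, hμ⟩ := c2_abs (k := p / 2) (dd := d) (lam := 7 / 8 * (1 - p)) (w := 2 - q - p * a)
    (s := p * a) (D := p * (13 / 8 * a + 7 / 8) + 5 / 8 * q - 135 / 64) (M := M) (x := x) (v := v)
    (by linarith) (by linarith) hd0 (by linarith) (by linarith) (by linarith) (by linarith)
    (by linarith) (by linarith) (by linarith) (by linarith) (by linarith) (by linarith)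
    (by linarith) hFd hM hx (by linarith) hv
  refine ⟨1 - μ, fun y J hy hJ0 hJ1 hJ => ?_⟩
  have h := hμ y (1 - J) hy (by linarith) (by linarith)
    (hJ.imp (fun h => by linarith) (fun h => by linarith))
  rw [show 2 - (2 - q - p * a) = q + p * a by ring] at h
  have h2 : p / 2 * d ^ 2 * (x + M) ≤ p / 2 * (a - τ) ^ 2 * (x + M) :=
    mul_le_mul_of_nonneg_right (mul_le_mul_of_nonneg_left hd3 (by linarith)) (by linarith)
  linarith

end Vale.Agent.P334
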