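import Vale.Agent.P334.PQ

/-!
Sharper polynomial bounds for the coefficients `p, q`.
-/

namespace Vale.Agent.P334

open Real

theorem pp_mul_le_one {τ : ℝ} (h0 : 0 < τ) (h1 : τ ≤ 1) :
    pp τ * (1 + 2 * τ / 3 + τ ^ 2 / 6) ≤ 1 := by
  have h := (pp_bounds h0 h1).2
  have hpos : 0 ≤ 1 + 2 * τ / 3 + τ ^ 2 / 6 := by positivity
  refine (mul_le_mul_of_nonneg_right h hpos).trans ?_
  have h2 : 0 ≤ τ ^ 2 := by positivity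
  have h3 : 0 ≤ τ ^ 3 := by positivity
  have h4 : τ ^ 4 ≤ τ ^ 2 := by nlinarith
  have h5 : τ ^ 5 ≤ τ ^ 3 := by nlinarith
  have h6 : τ ^ 6 ≤ τ ^ 3 := by nlinarith
  nlinarith

theorem exp_neg_taylor7 {τ : ℝ} (h0 : 0 ≤ τ) (h1 : τ ≤ 1) :
    |exp (-τ) - (1 - τ + τ ^ 2 / 2 - τ ^ 3 / 6 + τ ^ 4 / 24 - τ ^ 5 / 120 + τ ^ 6 / 720)| ≤
      τ ^ 7 / 4410 := by
  have habs : |(-τ)| ≤ 1 := by rw [abs_neg, abs_of_nonneg h0]; exact h1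
  have h := Real.exp_bound habs (n := 7) (by norm_num)
  rw [abs_neg, abs_of_nonneg h0] at h
  simp only [Finset.sum_range_succ, Finset.sum_range_zero, Nat.factorial] at h
  norm_num at h
  convert h using 2 <;> ring

theorem pp_bounds' {τ : ℝ} (h0 : 0 < τ) (h1 : τ ≤ 1) :
    1 - 2 * τ / 3 + τ ^ 2 / 4 - τ ^ 3 / 15 + τ ^ 4 / 72 - τ ^ 5 / 270 ≤ pp τ ∧
      pp τ ≤ 1 - 2 * τ / 3 + τ ^ 2 / 4 - τ ^ 3 / 15 + τ ^ 4 / 72 - τ ^ 5 / 540 := by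
  have hE := abs_le.mp (exp_neg_taylor7 h0.le h1)
  have hm := pp_mul h0
  have h2 : 0 < τ ^ 2 := by positivity
  have h6 : 0 ≤ τ ^ 7 := by positivity
  have h7 : τ * τ ^ 7 ≤ τ ^ 7 := by nlinarith
  set r := exp (-τ) - (1 - τ + τ ^ 2 / 2 - τ ^ 3 / 6 + τ ^ 4 / 24 - τ ^ 5 / 120 + τ ^ 6 / 720)
    with hr
  have hr1 : (1 + τ) * r ≤ 2 * τ ^ 7 / 4410 := by nlinarith [hE.1, hE.2]
  have hr2 : -(2 * τ ^ 7 / 4410) ≤ (1 + τ) * r := by nlinarith [hE.1, hE.2]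
  have key : pp τ * τ ^ 2 =
      (1 - 2 * τ / 3 + τ ^ 2 / 4 - τ ^ 3 / 15 + τ ^ 4 / 72 - τ ^ 5 / 360) * τ ^ 2
      - 2 * ((1 + τ) * r) := by rw [hm, hr]; ring
  constructor
  · refine le_of_mul_le_mul_right ?_ h2
    rw [key]; nlinarith
  · refine le_of_mul_le_mul_right ?_ h2
    rw [key]; nlinarith

theorem qq_bounds' {τ : ℝ} (h0 : 0 < τ) (h1 : τ ≤ 1) :
    1 + τ ^ 2 / 3 - τ ^ 3 / 6 + τ ^ 4 / 20 - τ ^ 5 / 90 + τ ^ 6 / 720 ≤ qq τ ∧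
      qq τ ≤ 1 + τ ^ 2 / 3 - τ ^ 3 / 6 + τ ^ 4 / 20 - τ ^ 5 / 90 + τ ^ 6 / 240 := by
  have hE := abs_le.mp (exp_neg_taylor7 h0.le h1)
  have hm := qq_mul h0
  have h6 : 0 ≤ τ ^ 7 := by positivity
  have h7 : τ * τ ^ 7 ≤ τ ^ 7 := by nlinarith
  set r := exp (-τ) - (1 - τ + τ ^ 2 / 2 - τ ^ 3 / 6 + τ ^ 4 / 24 - τ ^ 5 / 120 + τ ^ 6 / 720)
    with hr
  have hr1 : (4 + 2 * τ) * r ≤ 6 * τ ^ 7 / 4410 := by nlinarith [hE.1, hE.2]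
  have hr2 : -(6 * τ ^ 7 / 4410) ≤ (4 + 2 * τ) * r := by nlinarith [hE.1, hE.2]
  have key : qq τ * τ =
      (1 + τ ^ 2 / 3 - τ ^ 3 / 6 + τ ^ 4 / 20 - τ ^ 5 / 90 + τ ^ 6 / 360) * τ
      + (4 + 2 * τ) * r := by rw [hm, hr]; ring
  constructor
  · refine le_of_mul_le_mul_right ?_ h0
    rw [key]; nlinarith
  · refine le_of_mul_le_mul_right ?_ h0
    rw [key]; nlinarith

/-- A cubic upper bound for `p`. -/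
theorem pp_le_cubic {τ : ℝ} (h0 : 0 < τ) (h1 : τ ≤ 1) :
    pp τ ≤ 1 - 2 * τ / 3 + τ ^ 2 / 4 - τ ^ 3 / 20 := by
  have h := (pp_bounds' h0 h1).2
  have h3 : 0 ≤ τ ^ 3 := by positivity
  have h4 : τ ^ 4 ≤ τ ^ 3 := by nlinarith
  have h5 : 0 ≤ τ ^ 5 := by positivity
  linarith

/-- A quartic upper bound for `q`. -/
theorem qq_le_quartic {τ : ℝ} (h0 : 0 < τ) (h1 : τ ≤ 1) :
    qq τ ≤ 1 + τ ^ 2 / 3 - τ ^ 3 / 6 + τ ^ 4 / 20 := by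
  have h := (qq_bounds' h0 h1).2
  have h5 : 0 ≤ τ ^ 5 := by positivity
  have h6 : τ ^ 6 ≤ τ ^ 5 := by nlinarith
  linarith

end Vale.Agent.P334
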