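import Vale.Agent.Lib.MathlibUsed

/-!
The potential of one client in the rounding process, and the interface of the static inequality.
-/

namespace Vale.Agent.P334.Step

open Finset

variable {ι : Type}

/-- Sub-measures of `y` of total mass at most one. -/
def Sub (s : Finset ι) (y ν : ι → ℝ) : Prop :=
  (∀ i ∈ s, 0 ≤ ν i ∧ ν i ≤ y i) ∧ ∑ i ∈ s, ν i ≤ 1

/-- The potential of a sub-measure `ν`; `x i` is the distance of the client to `i`, and `b` is its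
distance to the open set. -/
noncomputable def psi (s : Finset ι) (x : ι → ℝ) (ε b p q : ℝ) (ν : ι → ℝ) : ℝ :=
  (1 - ∑ i ∈ s, ν i) * (1 + 2 * ε ^ 2 * ∑ i ∈ s, ν i) * b +
    (q + p * ∑ i ∈ s, ν i + 40 * ε) * ∑ i ∈ s, ν i * x i

/-- The potential of a client. -/
noncomputable def Psi (s : Finset ι) (x : ι → ℝ) (ε b p q : ℝ) (y : ι → ℝ) : ℝ :=
  sInf (psi s x ε b p q '' {ν | Sub s y ν})

/-- The static inequality. -/
def Static (p q τ : ℝ) : Prop :=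
  ∀ (ι : Type) (s : Finset ι) (ν x v B : ι → ℝ) (a G : ℝ), a = ∑ i ∈ s, ν i →
    G = ∑ i ∈ s, ν i * x i → a ≤ 1 → (∀ i ∈ s, 0 ≤ ν i) → (∀ i ∈ s, 0 ≤ x i) →
    (∀ i ∈ s, 0 < v i) → ∃ F : ι → ℝ,
      (∀ i ∈ s, ∀ J : ℝ, 0 ≤ J → J ≤ 1 →
        B i + x i - p * G - (q + p * a) * x i + p * (a * x i + G) * J / 2 -
          max 0 (B i - v i + p * v i * J / 2) ≤ F i) ∧
      ∀ J : ι → ι → ℝ, (∀ i ∈ s, ∀ c ∈ s, 0 ≤ J i c ∧ J i c ≤ 1 ∧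
          (J i c < 1 → 2 * (v i - x i - x c) ≤ p * v i * J i c)) →
        ∑ i ∈ s, ν i * F i * (1 - ∑ c ∈ s, ν c * J i c) -
            ∑ i ∈ s, ∑ c ∈ s, ν i * ν c * (1 - J i c) * max 0 (x c - (q + p * a) * x i) ≤
          (1 - a) * ∑ i ∈ s, ν i * (B i + x i) +
            G * (3 * a - q - 2 * p * a + p * (a - τ) ^ 2)

/-- What the analysis of one client uses about the state of the process: masses `y`, radii `v`,
kernel `J`, decay rates `σ`, distances `x`, `b` of the client. -/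
structure Env (s : Finset ι) (ε p b : ℝ) (x y v σ : ι → ℝ) (J : ι → ι → ℝ) : Prop where
  b_nonneg : 0 ≤ b
  x_nonneg : ∀ i ∈ s, 0 ≤ x i
  y_nonneg : ∀ i ∈ s, 0 ≤ y i
  v_pos : ∀ i ∈ s, 0 < v i
  σ_nonneg : ∀ i ∈ s, 0 ≤ σ i
  σ_le : ∀ i ∈ s, σ i ≤ 1
  J_nonneg : ∀ i ∈ s, ∀ c ∈ s, 0 ≤ J i c
  J_le : ∀ i ∈ s, ∀ c ∈ s, J i c ≤ 1
  /-- rows are full -/
  row_ge : ∀ i ∈ s, 1 ≤ ∑ c ∈ s, y c * J i c + σ i
  /-- the excess of a row is small -/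
  row_le : ∀ i ∈ s, ∑ c ∈ s, y c * J i c + σ i ≤ 1 + ε
  row_le_v : ∀ i ∈ s, (∑ c ∈ s, y c * J i c + σ i - 1) * v i ≤ ε * x i
  /-- `v i ≤ (1 - 3 ε) d(i, S)` -/
  cap : ∀ i ∈ s, (1 + 3 * ε) * v i ≤ b + x i
  /-- decay only if `v i = (1 - 3 ε) d(i, S)` -/
  decay : ∀ i ∈ s, 0 < σ i → b - x i ≤ (1 + 4 * ε) * v i
  ker_le : ∀ i ∈ s, ∀ c ∈ s, 0 < J i c → x c ≤ x i + v i - p * v i * J i c / 2
  ker_ge : ∀ i ∈ s, ∀ c ∈ s, J i c < 1 → 2 * (v i - x i - x c) ≤ p * v i * (J i c + ε)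
  ker_one : ∀ i ∈ s, ∀ c ∈ s, J i c < 1 → v i ≤ 2 * (x i + x c)

end Vale.Agent.P334.Step
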