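import Vale.Agent.P334.StaticSum
import Vale.Agent.P334.PQ3
import Vale.Agent.P334.Proc
import Vale.Agent.P334.StepDefs

/-!
The static inequality follows from the family `C` for large `x`.
-/

namespace Vale.Agent.P334.Stat

open Finset

theorem pa_pq {τ a : ℝ} (h0 : 0 < τ) (h1 : τ ≤ 1) (ha0 : 0 ≤ a) (ha1 : a ≤ 1) :
    Pa (pp τ / 2) (qq τ) τ a (qq τ + pp τ * a) (7 / 8 * (1 - pp τ)) (pp τ / 2 * (a - τ) ^ 2) where
  k0 := by linarith [half_le_pp h0 h1]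
  q1 := one_le_qq h0 h1
  s := by linarith [pq_le_two h0 h1]
  τ0 := h0.le
  τ1 := h1
  a0 := ha0
  a1 := ha1
  hκ := by ring
  hlam := by ring
  hσ := rfl

/-- The family `C` for large `x`, for the tangent line at `τ`. -/
def C2pq (τ : ℝ) : Prop :=
  ∀ a : ℝ, 0 ≤ a → a ≤ 1 →
    C2 (pp τ / 2) a (qq τ + pp τ * a) (7 / 8 * (1 - pp τ)) (pp τ / 2 * (a - τ) ^ 2)

theorem rows_exist {τ a M : ℝ} (h0 : 0 < τ) (h1 : τ ≤ 1) (h2 : C2pq τ) (ha0 : 0 ≤ a)
    (ha1 : a ≤ 1) (hM : 0 ≤ M) {ι : Type} {s : Finset ι} {x v : ι → ℝ} (b : ι → ℝ)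
    (hx : ∀ i ∈ s, 0 ≤ x i) (hv : ∀ i ∈ s, 0 < v i) :
    ∃ F : ι → ℝ, ∀ i ∈ s, Row (pp τ / 2) a (qq τ + pp τ * a) (7 / 8 * (1 - pp τ))
      (pp τ / 2 * (a - τ) ^ 2) M (x i) (v i) (b i) (F i) := by
  have h3 : 2 * (pp τ / 2) * (1 + 2 * τ / 3 + τ ^ 2 / 6) ≤ 1 := by
    have := pp_mul_le_one h0 h1
    linarith
  have : ∀ i, ∃ F : ℝ, i ∈ s → Row (pp τ / 2) a (qq τ + pp τ * a) (7 / 8 * (1 - pp τ))
      (pp τ / 2 * (a - τ) ^ 2) M (x i) (v i) (b i) F := by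
    intro i
    by_cases hi : i ∈ s
    · obtain ⟨F, hF⟩ := (pa_pq h0 h1 ha0 ha1).row_exists h3 (h2 a ha0 ha1) (b := b i) hM
        (hx i hi) (hv i hi)
      exact ⟨F, fun _ => hF⟩
    · exact ⟨0, fun h => absurd h hi⟩
  choose F hF using this
  exact ⟨F, hF⟩

theorem ker_cases {p d v J : ℝ} (hp : 0 < p) (hv : 0 < v) (h : Proc.ker (2 / p) d v ≤ J)
    (hJ : J ≤ 1) : 0 ≤ J ∧ (J = 1 ∨ v - d ≤ p / 2 * v * J) := by
  unfold Proc.ker at h
  refine ⟨le_trans (le_max_left _ _) h, ?_⟩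
  have h' := le_trans (le_max_right _ _) h
  rcases min_le_iff.1 h' with g | g
  · exact Or.inl (le_antisymm hJ g)
  · right
    rw [div_le_iff₀ hv, div_mul_eq_mul_div, div_le_iff₀ hp] at g
    linarith

theorem static_of_C2 {τ : ℝ} (h0 : 0 < τ) (h1 : τ ≤ 1) (h2 : C2pq τ) :
    Proc.Static (pp τ) (qq τ) τ := by
  intro I ν x v a G b hν ha ha1 hx hG hb hv _
  have hx' : ∀ i ∈ I, 0 ≤ x i := fun i hi => (hx i hi).le
  have ha0 : 0 ≤ a := ha ▸ sum_nonneg hν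
  have hp : 0 < pp τ := by linarith [half_le_pp h0 h1]
  obtain ⟨M, hM, rfl⟩ := exists_mean ha hG hν hx'
  obtain ⟨F, hF⟩ := rows_exist h0 h1 h2 ha0 ha1 hM (fun _ => b) hx' hv
  refine ⟨F, fun i hi => ⟨(hF i hi).1.1 hb, (hF i hi).1.2⟩, fun J β hJ hβ hJβ => ?_,
    fun i hi h => by have := (hF i hi).2.2.1 h; linarith, fun J hJ => ?_⟩
  · have g1 := mul_sum_le (J := J) ha hG hν hx'
    have g2 : ∑ i ∈ I, ν i * J i * (b - pp τ * (a * M) - (qq τ + pp τ * a) * x i - β +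
        pp τ / 2 * (J i * (a * M + a * x i))) ≤ ∑ i ∈ I, ν i * J i * F i := by
      refine sum_le_sum fun i hi => ?_
      rcases (hJ i hi).1.eq_or_lt with h | h
      · rw [← h]; simp
      · refine mul_le_mul_of_nonneg_left ?_ (mul_nonneg (hν i hi) h.le)
        have := (hF i hi).2.1 (J i) β h.le (hJ i hi).2 hβ (by linarith [hJβ i hi h])
        linarith
    have g3 : ∑ i ∈ I, ν i * J i * (b - pp τ * (a * M) - (qq τ + pp τ * a) * x i - β +
        pp τ / 2 * (J i * (a * M + a * x i))) =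
        ∑ i ∈ I, ν i * J i * (b - pp τ * (a * M) - (qq τ + pp τ * a) * x i) -
          (∑ i ∈ I, ν i * J i) * β +
          pp τ / 2 * ∑ i ∈ I, ν i * J i * (J i * (a * M + a * x i)) := by
      simp only [sum_mul, mul_sum, ← sum_add_distrib, ← sum_sub_distrib]
      exact sum_congr rfl fun i _ => by ring
    have g4 := mul_le_mul_of_nonneg_left g1 (show 0 ≤ pp τ / 2 by linarith)
    have g5 : 0 ≤ (1 - a) * β := mul_nonneg (by linarith) hβ
    linarith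
  · have g1 := all_sum (b := fun _ => b) (q := qq τ) (τ := τ) (by ring) rfl (by linarith) ha1 hM
      ha hG hν hx' hF J (fun i hi c hc => by
        obtain ⟨e1, e2⟩ := ker_cases hp (hv i hi) (hJ i hi c hc).1 (hJ i hi c hc).2
        exact ⟨e1, (hJ i hi c hc).2, e2.imp id fun h => by linarith⟩)
    rw [← sum_mul, ← ha] at g1
    linarith

theorem stepStatic_of_C2 {τ : ℝ} (h0 : 0 < τ) (h1 : τ ≤ 1) (h2 : C2pq τ) :
    Step.Static (pp τ) (qq τ) τ := by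
  intro ι s ν x v B a G ha hG ha1 hν hx hv
  have ha0 : 0 ≤ a := ha ▸ sum_nonneg hν
  have hp : 0 < pp τ := by linarith [half_le_pp h0 h1]
  obtain ⟨M, hM, rfl⟩ := exists_mean ha hG hν hx
  obtain ⟨F, hF⟩ := rows_exist h0 h1 h2 ha0 ha1 hM (fun i => B i + x i) hx hv
  refine ⟨F, fun i hi J hJ0 hJ1 => ?_, fun J hJ => ?_⟩
  · have := (hF i hi).2.1 J (max 0 (B i - v i + pp τ * v i * J / 2)) hJ0 hJ1 (le_max_left _ _)
      (le_trans (by linarith) (le_max_right _ _))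
    linarith
  · have g1 := all_sum (b := fun i => B i + x i) (q := qq τ) (τ := τ) (by ring) rfl (by linarith)
      ha1 hM ha hG hν hx hF J (fun i hi c hc => by
        obtain ⟨e1, e2, e3⟩ := hJ i hi c hc
        refine ⟨e1, e2, ?_⟩
        rcases e2.eq_or_lt with h | h
        · exact Or.inl h
        · right; linarith [e3 h])
    linarith

end Vale.Agent.P334.Stat
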