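import Vale.Agent.P334.ProcBasic

/-!
The drift of the potential which pays for speeding up.
-/

namespace Vale.Agent.P334.Proc

open Finset

variable {P : Par} {V V' Vd Vt : View} {Vr : ℕ → View} {C : Client}

namespace StepW

theorem ker_near {K d v d' v' s : ℝ} (hK0 : 0 ≤ K) (hK : K ≤ 4) (hs : 0 ≤ s) (hd : 0 ≤ d)
    (hdv : d ≤ v) (hv : 0 < v) (hsv : 2 * s ≤ v) (hd' : d' ≤ d + s) (hv' : v - s ≤ v') :
    ker K d v ≤ ker K d' v' + 16 * s / v := by
  have hv0 : 0 < v' := by linarith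
  refine clip_le (by positivity) ?_
  have h1 : d' / v' ≤ (d + 4 * s) / v := by
    rw [div_le_div_iff₀ hv0 hv]
    have i1 := mul_le_mul_of_nonneg_right hd' hv.le
    have i2 := mul_le_mul_of_nonneg_left hv' (by positivity : 0 ≤ d + 4 * s)
    nlinarith [mul_le_mul_of_nonneg_left hdv hs, mul_le_mul_of_nonneg_left hsv hs]
  have e1 : K * (v - d) / v = K - K * ((d + 4 * s) / v) + K * (4 * s / v) := by
    field_simp
    ring
  have e2 : K * (v' - d') / v' = K - K * (d' / v') := by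
    field_simp
  have h2 := mul_le_mul_of_nonneg_left h1 hK0
  have h3 : K * (4 * s / v) ≤ 4 * (4 * s / v) := mul_le_mul_of_nonneg_right hK (by positivity)
  have e3 : 4 * (4 * s / v) = 16 * s / v := by ring
  linarith

theorem rho_next (hP : P.OK) (hV' : V'.OK P) {f : ℕ → ℝ} (h : Next P V f V') {i : ℕ}
    (hi : V'.D i ≤ V.v i) :
    C.hh P V' i ≤ ∑ c ∈ P.I, V.J i c * P.d i c * V'.y c := by
  have h1 := h.v_eq hi
  rw [Client.hh, if_pos h1]
  refine sum_le_sum fun c _ => ?_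
  have := mul_le_mul_of_nonneg_right
    (mul_le_mul_of_nonneg_left (h.J_le i (h1.le.trans hi) c) (hV'.y_nonneg c)) (hP.d_pos i c).le
  linarith

theorem phase_two (hP : P.OK) (st : Step P V Vd Vt Vr) {i : ℕ} (hi : V.v i = V.D i) :
    drift P V Vd Vt Vr (fun W => C.hh P W i) ≤ -(P.h / 2) * V.rho P i + P.n * P.U * P.ξ := by
  have e : ∑ c ∈ P.I, V.J i c * P.d i c * V.y c = V.rho P i :=
    sum_congr rfl fun c _ => by ring
  have e' : C.hh P V i = V.rho P i := by rw [Client.hh, if_pos hi]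
  have h1 := drift_lin hP st (w := fun c => V.J i c * P.d i c) hP.U_pos.le fun c _ =>
    ⟨mul_nonneg (st.ok.J_nonneg i c) (hP.d_pos i c).le,
      (mul_le_of_le_one_left (hP.d_pos i c).le (st.ok.J_le_one i c)).trans (hP.le_U i c)⟩
  have h2 : drift P V Vd Vt Vr (fun W => C.hh P W i) ≤
      drift P V Vd Vt Vr (fun W => ∑ c ∈ P.I, V.J i c * P.d i c * W.y c) := by
    refine drift_mono hP st.ok ?_ ?_ fun c hc => ?_
    · linarith [rho_next (C := C) hP st.okd st.nd ((st.nd.D_le i).trans hi.ge)]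
    · linarith [rho_next (C := C) hP st.okt st.nt ((st.nt.D_le i).trans hi.ge)]
    · linarith [rho_next (C := C) hP (st.okr c hc) (st.nr c hc) (((st.nr c hc).D_le i).trans hi.ge)]
  rw [e] at h1
  have h3 := mul_nonneg hP.h_pos.le (st.ok.rho_nonneg hP i)
  nlinarith [hP.η_le]

/-- The value in the first phase bounds the value in the second phase. -/
theorem hh_le (hP : P.OK) (hC : C.OK P) (hV' : V'.OK P) (hI' : C.Inv P V') {f : ℕ → ℝ}
    (h : Next P V f V') {i : ℕ} (hi : i ∈ P.I) (hl : C.lam i ≠ 0) (hv : V.v i ≠ V.D i) :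
    C.hh P V' i - C.hh P V i ≤ 14 * C.R * ∑ k ∈ P.I, C.x V k * f k := by
  have h1 := mul_le_mul_of_nonneg_left (hC.A_lo h) (hC.R_pos hP).le
  have h2 : C.hh P V' i ≤
      14 * C.R * (1 - C.A P V') + 1400 * (P.d C.j i + C.G0 P) + 200 * P.δ * P.U := by
    rw [Client.hh]
    split_ifs
    · have i1 := hC.rho_le hP hV' hI' hi hl
      have i2 := mul_nonneg (hC.R_pos hP).le (sub_nonneg.2 (hC.A_le_one hI'))
      have i3 := mul_nonneg hP.δ_nonneg hP.U_pos.le
      linarith [hP.d_pos C.j i, hC.G0_nonneg hP]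
    · exact le_rfl
  have h3 : C.hh P V i =
      14 * C.R * (1 - C.A P V) + 1400 * (P.d C.j i + C.G0 P) + 200 * P.δ * P.U := by
    rw [Client.hh, if_neg hv]
  linarith

theorem B_le_ball (hV : V.OK P) (i : ℕ) :
    V.B P i = ∑ c ∈ P.I with P.d i c < V.v i, V.y c * V.J i c := by
  rw [View.B, sum_filter]
  refine sum_congr rfl fun c _ => ?_
  split_ifs with h
  · rfl
  · rcases (hV.J_nonneg i c).eq_or_lt with e | e
    · rw [← e, mul_zero]
    · exact absurd (hV.lt_v e) h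

/-- The rate at which `k` is killed by events which do not end the first phase of `i`. -/
theorem bad_le (hP : P.OK) (hC : C.OK P) (hV : V.OK P) (hI : C.Inv P V) {i : ℕ}
    (hv : V.v i < V.D i) (k : ℕ) :
    C.R * (V.sg P k + ∑ c ∈ P.I with ¬P.d i c < V.v i, V.y c * V.J k c) ≤
      (∑ c ∈ P.I with P.d i c < V.v i, V.y c) *
        (24 * (P.d C.j i + P.d C.j k) + 2 * P.δ * P.U) := by
  have hM : 1 ≤ ∑ c ∈ P.I with P.d i c < V.v i, V.y c := by
    refine (hV.B_ge i hv).trans ?_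
    rw [B_le_ball hV]
    exact sum_le_sum fun c _ => mul_le_of_le_one_right (hV.y_nonneg c) (hV.J_le_one i c)
  have hdi := hP.d_pos C.j i
  have hdk := hP.d_pos C.j k
  have hδ := mul_nonneg hP.δ_nonneg hP.U_pos.le
  have hR := hC.R_pos hP
  have hRv := hC.R_le_v hP hV hI hv
  have hvi := hV.v_pos i
  have hik : P.d i k ≤ P.d C.j i + P.d C.j k := by
    rw [hP.comm C.j i]
    exact hP.tri _ _ _
  have hsplit := sum_filter_add_sum_filter_not P.I (fun c => P.d i c < V.v i)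
    fun c => V.y c * V.J k c
  have hB := hV.B_add_sg_le hP k
  rw [View.B] at hB
  have hin : 0 ≤ ∑ c ∈ P.I with P.d i c < V.v i, V.y c * V.J k c :=
    sum_nonneg fun c _ => mul_nonneg (hV.y_nonneg c) (hV.J_nonneg k c)
  generalize hs : P.d C.j i + P.d C.j k = s at *
  have hs0 : 0 < s := by linarith
  rcases le_or_gt (V.v k + s) (V.v i) with h1 | h1
  · have i1 : V.sg P k = 0 := by
      by_contra h
      linarith [hV.v_eq h, hV.D_tri i k]
    have i2 : ∑ c ∈ P.I with ¬P.d i c < V.v i, V.y c * V.J k c = 0 := by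
      refine sum_eq_zero fun c hc => ?_
      rcases (hV.J_nonneg k c).eq_or_lt with e | e
      · rw [← e, mul_zero]
      · exact absurd (by linarith [hV.lt_v e, hP.tri i k c]) (mem_filter.1 hc).2
    rw [i1, i2, add_zero, mul_zero]
    exact mul_nonneg (by linarith) (by linarith)
  rcases le_total (V.v i) (2 * s) with h2 | h2
  · have i1 : C.R * (V.sg P k + ∑ c ∈ P.I with ¬P.d i c < V.v i, V.y c * V.J k c) ≤ C.R * 2 :=
      mul_le_mul_of_nonneg_left (by linarith [hP.δ_le]) hR.le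
    have i2 := mul_le_mul_of_nonneg_right hM (by linarith : 0 ≤ 24 * s + 2 * P.δ * P.U)
    linarith
  · have i1 : ∑ c ∈ P.I with P.d i c < V.v i, V.y c * V.J i c ≤
        ∑ c ∈ P.I with P.d i c < V.v i, (V.y c * V.J k c + V.y c * (16 * s / V.v i + P.δ)) := by
      refine sum_le_sum fun c hc => ?_
      have j1 := ker_near (d' := P.d k c) (v' := V.v k) (by linarith [hV.two_le_K]) hV.K_le_four
        hs0.le (hP.d_pos i c).le (mem_filter.1 hc).2.le hvi h2
        (by linarith [hP.tri k i c, hP.comm k i]) (by linarith)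
      have j2 : V.J i c ≤ V.J k c + (16 * s / V.v i + P.δ) := by
        linarith [hV.J_le i c, hV.J_ge k c]
      linarith [mul_le_mul_of_nonneg_left j2 (hV.y_nonneg c)]
    rw [sum_add_distrib, ← sum_mul, ← B_le_ball hV] at i1
    have i2 := hV.B_ge i hv
    generalize ∑ c ∈ P.I with P.d i c < V.v i, V.y c = M at *
    have i3 := mul_le_mul_of_nonneg_right hM hP.δ_nonneg
    have i4 : V.sg P k + ∑ c ∈ P.I with ¬P.d i c < V.v i, V.y c * V.J k c ≤
        M * (16 * s / V.v i + 2 * P.δ) := by linarith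
    have i5 : C.R * (16 * s / V.v i) ≤ 24 * s := by
      rw [← mul_div_assoc, div_le_iff₀ hvi]
      nlinarith
    have i6 := mul_le_mul_of_nonneg_left (hC.R_le_U hP) hP.δ_nonneg
    have i7 : M * (C.R * (16 * s / V.v i + 2 * P.δ)) ≤ M * (24 * s + 2 * P.δ * P.U) :=
      mul_le_mul_of_nonneg_left (by linarith) (by linarith)
    linarith [mul_le_mul_of_nonneg_left i4 hR.le]

theorem phase_one (hP : P.OK) (hC : C.OK P) (st : Step P V Vd Vt Vr) (hI : C.Inv P V) {i : ℕ}
    (hi : i ∈ P.I) (hl : C.lam i ≠ 0) (hv : V.v i ≠ V.D i) :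
    drift P V Vd Vt Vr (fun W => C.hh P W i) ≤ -(P.h / 2) * V.rho P i := by
  have hV := st.ok
  have hv' : V.v i < V.D i := lt_of_le_of_ne (V.v_le_D i) hv
  have hR := hC.R_pos hP
  have hρ := hC.rho_le hP hV hI hi hl
  have hA := mul_nonneg hR.le (sub_nonneg.2 (hC.A_le_one hI))
  have hδ := mul_nonneg hP.δ_nonneg hP.U_pos.le
  have hdi := hP.d_pos C.j i
  have hG0 := hC.G0_nonneg hP
  have hM : 1 ≤ ∑ c ∈ P.I with P.d i c < V.v i, V.y c := by
    refine (hV.B_ge i hv').trans ?_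
    rw [B_le_ball hV]
    exact sum_le_sum fun c _ => mul_le_of_le_one_right (hV.y_nonneg c) (hV.J_le_one i c)
  obtain ⟨γ, hγ⟩ : ∃ γ, γ = 7 * C.R * (1 - C.A P V) + 1398 * (P.d C.j i + C.G0 P) +
    199 * P.δ * P.U := ⟨_, rfl⟩
  have hγ0 : 0 ≤ γ := by linarith
  have h1 := drift_le (Ψ := fun W => C.hh P W i) (Vr := Vr) hP hV
    (e := fun c => if P.d i c < V.v i then -γ
      else 14 * C.R * ∑ k ∈ P.I, C.x V k * (V.J k c / V.bc P c))
    (hh_le hP hC st.okd (hC.inv_d hP st hI) st.nd hi hl hv)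
    (hh_le hP hC st.okt (hC.inv_t hP st hI) st.nt hi hl hv) fun c hc => by
      split_ifs with h
      · have i1 := rho_next (C := C) hP (st.okr c hc) (st.nr c hc) ((st.Dr c hc i).trans h.le)
        have i2 : ∑ e ∈ P.I, V.J i e * P.d i e * (Vr c).y e ≤ V.rho P i :=
          sum_le_sum fun e _ => by
            have := mul_le_mul_of_nonneg_left ((st.nr c hc).le e)
              (mul_nonneg (hV.J_nonneg i e) (hP.d_pos i e).le)
            linarith
        have i3 : C.hh P V i =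
            14 * C.R * (1 - C.A P V) + 1400 * (P.d C.j i + C.G0 P) + 200 * P.δ * P.U := by
          rw [Client.hh, if_neg hv]
        linarith
      · exact hh_le hP hC (st.okr c hc) (hC.inv_r hP st hI hc) (st.nr c hc) hi hl hv
  simp only [mul_ite, mul_zero, sum_const_zero, zero_div, add_zero] at h1
  rw [sum_ite] at h1
  have h2 : ∑ c ∈ P.I with P.d i c < V.v i, V.rt P c * -γ ≤
      -(9 / 10 * γ) * ∑ c ∈ P.I with P.d i c < V.v i, V.y c := by
    rw [mul_sum]
    refine sum_le_sum fun c _ => ?_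
    have i1 : 9 / 10 ≤ V.bc P c * (1 + P.η * V.ac P c) := by
      have := mul_le_mul (V.one_le_bc (P := P) c) (hV.fac_ge hP c) (by linarith [hP.η_le])
        (V.bc_pos c).le
      linarith [hP.η_le]
    have i2 := mul_le_mul_of_nonneg_left i1 (mul_nonneg (hV.y_nonneg c) hγ0)
    rw [View.rt]
    linarith
  have h3 : ∑ c ∈ P.I with ¬P.d i c < V.v i,
      V.rt P c * (14 * C.R * ∑ k ∈ P.I, C.x V k * (V.J k c / V.bc P c)) ≤
      28 * ∑ k ∈ P.I, C.x V k * (C.R * ∑ c ∈ P.I with ¬P.d i c < V.v i, V.y c * V.J k c) := by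
    simp only [mul_sum]
    rw [sum_comm]
    refine sum_le_sum fun k _ => sum_le_sum fun c _ => ?_
    have i1 := V.rt_mul (P := P) c (V.J k c)
    have i2 : 1 + P.η * V.ac P c ≤ 2 := by linarith [V.fac_le hP c, hP.η_le]
    have i3 := mul_le_mul_of_nonneg_left i2 (mul_nonneg (mul_nonneg (hC.x_nonneg hV k) hR.le)
      (mul_nonneg (hV.y_nonneg c) (hV.J_nonneg k c)))
    have i4 : V.rt P c * (14 * C.R * (C.x V k * (V.J k c / V.bc P c))) =
        14 * C.R * C.x V k * (V.rt P c * (V.J k c / V.bc P c)) := by ring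
    rw [i4, i1]
    linarith
  have h4 : 14 * C.R * (∑ k ∈ P.I, C.x V k * (4 * P.h * V.sg P k)) / 4 ≤
      P.h * (28 * ∑ k ∈ P.I, C.x V k * (C.R * V.sg P k)) := by
    have e : 14 * C.R * (∑ k ∈ P.I, C.x V k * (4 * P.h * V.sg P k)) / 4 =
        P.h * (14 * ∑ k ∈ P.I, C.x V k * (C.R * V.sg P k)) := by
      simp only [mul_sum, sum_div]
      exact sum_congr rfl fun k _ => by ring
    have : 0 ≤ ∑ k ∈ P.I, C.x V k * (C.R * V.sg P k) :=
      sum_nonneg fun k _ => mul_nonneg (hC.x_nonneg hV k) (mul_nonneg hR.le (V.sg_nonneg k))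
    rw [e]
    exact mul_le_mul_of_nonneg_left (by linarith) hP.h_pos.le
  have h5 := sum_le_sum fun k (_ : k ∈ P.I) =>
    mul_le_mul_of_nonneg_left (bad_le hP hC hV hI hv' k) (hC.x_nonneg hV k)
  generalize ∑ c ∈ P.I with P.d i c < V.v i, V.y c = M at *
  have e5 : ∑ k ∈ P.I, C.x V k * (M * (24 * (P.d C.j i + P.d C.j k) + 2 * P.δ * P.U)) =
      M * ((24 * P.d C.j i + 2 * P.δ * P.U) * C.A P V + 24 * C.G P V) := by
    rw [Client.A, Client.G, mul_sum, mul_sum, ← sum_add_distrib, mul_sum]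
    exact sum_congr rfl fun k _ => by ring
  simp only [mul_add C.R, mul_add (C.x V _), sum_add_distrib] at h5
  rw [e5] at h5
  have h6 : (24 * P.d C.j i + 2 * P.δ * P.U) * C.A P V ≤ 24 * P.d C.j i + 2 * P.δ * P.U :=
    mul_le_of_le_one_right (by linarith) (hC.A_le_one hI)
  have h7 := hC.G_le_G0 hP hI
  have h8 : M * (28 * ((24 * P.d C.j i + 2 * P.δ * P.U) * C.A P V + 24 * C.G P V) - 9 / 10 * γ) ≤
      M * -(V.rho P i / 2) := mul_le_mul_of_nonneg_left (by linarith) (by linarith)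
  have h9 := mul_le_mul_of_nonneg_right hM (hV.rho_nonneg hP i)
  have h10 := mul_le_mul_of_nonneg_left (add_le_add h2 h3) hP.h_pos.le
  have h11 : P.h * (28 * ∑ k ∈ P.I, C.x V k * (C.R * V.sg P k) + (-(9 / 10 * γ) * M +
      28 * ∑ k ∈ P.I, C.x V k * (C.R * ∑ c ∈ P.I with ¬P.d i c < V.v i, V.y c * V.J k c))) ≤
      P.h * -(V.rho P i / 2) := mul_le_mul_of_nonneg_left (by linarith) hP.h_pos.le
  linarith

end StepW

theorem step_W (hP : P.OK) (hC : C.OK P) (st : Step P V Vd Vt Vr) (hI : C.Inv P V) :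
    drift P V Vd Vt Vr (C.W P) ≤ -(P.h / 2) * C.Q P V + P.n * P.U * P.ξ := by
  have hξ : 0 ≤ P.n * P.U * P.ξ :=
    mul_nonneg (mul_nonneg (by linarith [hP.one_le_n]) hP.U_pos.le) hP.ξ_nonneg
  have e : drift P V Vd Vt Vr (C.W P) =
      ∑ i ∈ P.I, C.lam i * C.y0 i * drift P V Vd Vt Vr fun W => C.hh P W i := by
    simp only [← drift_mul]
    exact drift_sum P.I fun i W => C.lam i * C.y0 i * C.hh P W i
  have h1 : ∀ i ∈ P.I, C.lam i * C.y0 i * drift P V Vd Vt Vr (fun W => C.hh P W i) ≤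
      -(P.h / 2) * (C.lam i * C.y0 i * V.rho P i) + C.lam i * C.y0 i * (P.n * P.U * P.ξ) := by
    intro i hi
    by_cases hl : C.lam i = 0
    · simp [hl]
    have h2 : drift P V Vd Vt Vr (fun W => C.hh P W i) ≤
        -(P.h / 2) * V.rho P i + P.n * P.U * P.ξ := by
      by_cases hv : V.v i = V.D i
      · exact StepW.phase_two hP st hv
      · linarith [StepW.phase_one hP hC st hI hi hl hv]
    linarith [mul_le_mul_of_nonneg_left h2 (hC.x0_nonneg i)]
  have h2 := sum_le_sum h1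
  rw [sum_add_distrib, ← mul_sum, ← sum_mul, hC.sum_eq, one_mul] at h2
  rw [e]
  exact h2

end Vale.Agent.P334.Proc
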