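import Vale.Agent.P334.StepPsi
import Vale.Agent.P334.StepW
import Vale.Agent.P334.StaticOf
import Vale.Agent.P334.StaticC2

/-!
The total potential of a client is a supermartingale up to small errors.
-/

namespace Vale.Agent.P334.Proc

theorem static_all {τ : ℝ} (h0 : 0 < τ) (h1 : τ ≤ 1) : Static (pf τ) (qf τ) τ :=
  Stat.static_of_C2 h0 h1 fun a ha0 ha1 M x v hM hx hw hv => by
    have e : 2 * (pp τ / 2) = pp τ := by ring
    rw [e]
    exact coreC2 τ a M x v h0 h1 ha0 ha1 hM hx hw hv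

theorem psi_step {P : Par} {V Vd Vt : View} {Vr : ℕ → View} {C : Client} (hP : P.OK)
    (hC : C.OK P) (st : Step P V Vd Vt Vr) (hI : C.Inv P V) :
    drift P V Vd Vt Vr (C.Psi P) ≤
      30 * P.h * P.δ * P.U + 4 * P.h ^ 2 * P.U + 250 * P.n * P.U * P.ξ :=
  psi_step_of hP hC st hI
    (static_all (pq_facts st.ok.θ_nonneg).1 (pq_facts st.ok.θ_nonneg).2.1) (step_W hP hC st hI)

end Vale.Agent.P334.Proc
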