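import Vale.Agent.P334.AlgFinal
import Vale.Agent.P334.PsiEnds
import Vale.Agent.P334.PsiStep
import Vale.Agent.P334.Bridge

/-!
The approximation threshold of metric `k`-median.
-/

namespace Vale.Agent.P334

theorem facts : Alg.Facts :=
  ⟨fun _ _ _ _ _ _ hP hC st hI => Proc.psi_step hP hC st hI,
    fun _ _ _ hP hC hV hy hθ => Proc.psi_init hP hC hV hy hθ,
    fun _ _ _ hP hC hV hI => Proc.psi_final hP hC hV hI,
    fun P y0 x j _ hy hx hs => Proc.client_exists P j y0 x hy hx hs⟩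

theorem pseudo : Pseudo (1 + 2 / Real.exp 1) := Alg.pseudo_of_facts facts

theorem final : (∀ ε : ℝ, 0 < ε → HasApprox (1 + 2 / Real.exp 1 + ε)) ∧
    (¬ NP ⊆ BPP → alphaStar = 1 + 2 / Real.exp 1) := final_of_pseudo pseudo

end Vale.Agent.P334
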