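import Vale.Agent.P334.Basic

/-!
An approximate solution of the linear programming relaxation by multiplicative weights.
-/

namespace Vale.Agent.P334

open Vale.Agent.Lib.PolyTime Finset

namespace LP

/-- The total weight of the facilities. -/
def tot (F W : List ℕ) : ℕ := (F.map fun i => W.getD i 0).sum

/-- The weight of the facilities at distance at most `r` from `j`. -/
def ball (d : ℕ → ℕ → ℕ) (F W : List ℕ) (j r : ℕ) : ℕ :=
  ((F.filter fun i => d j i ≤ r).map fun i => W.getD i 0).sum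

/-- The least radius at which the fraction `1 / k` of the weight is reached. -/
def rad (d : ℕ → ℕ → ℕ) (F W : List ℕ) (k U j : ℕ) : ℕ :=
  amin (fun r => r) U ((F.filter fun i => tot F W ≤ k * ball d F W j (d j i)).map fun i => d j i)

/-- The gain of the facility `i`. -/
def gain (d : ℕ → ℕ → ℕ) (J F W : List ℕ) (k U i : ℕ) : ℕ :=
  (J.map fun j => rad d F W k U j - d j i).sum

/-- The inverse of the learning rate. -/
def par (E : ℕ) (x : Inp) : ℕ := E * x.2.2.2.1 * (x.2.1.length + 1) ^ 3 * x.2.2.2.2 + 1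

/-- The number of rounds. -/
def rounds (E : ℕ) (x : Inp) : ℕ :=
  4 * E ^ 2 * min x.2.2.2.1 x.2.2.1.length ^ 2 * x.2.2.1.length * (x.2.1.length + 1) ^ 4

/-- One round. -/
def step (E : ℕ) (x : Inp) (s : List ℕ × List ℕ) : List ℕ × List ℕ :=
  ((List.range x.1.length).map fun i => s.1.getD i 0 *
      (par E x + gain (dm x.1) x.2.1 x.2.2.1 s.1 x.2.2.2.1 x.2.2.2.2 i),
    (List.range x.1.length).map fun i => s.2.getD i 0 +
      (x.2.2.1.length * x.2.2.2.1 * s.1.getD i 0 / tot x.2.2.1 s.1 + 1))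

/-- The initial state. -/
def init (x : Inp) : List ℕ × List ℕ :=
  ((List.range x.1.length).map fun _ => 1, (List.range x.1.length).map fun _ => 0)

/-- The state after `t` rounds. -/
def st (E : ℕ) (x : Inp) (t : ℕ) : List ℕ × List ℕ := (step E x)^[t] (init x)

/-- The result: numerators and the common denominator. -/
def lp (E : ℕ) (x : Inp) : List ℕ × ℕ :=
  ((List.range x.1.length).map fun i =>
    min ((st E x (rounds E x)).2.getD i 0) (x.2.2.1.length * rounds E x),
    x.2.2.1.length * rounds E x)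

theorem getD_map_range (n : ℕ) (g : ℕ → ℕ) {i : ℕ} (h : i < n) :
    ((List.range n).map g).getD i 0 = g i := by
  rw [List.getD_eq_getElem _ _ (by simpa using h)]
  simp

theorem getD_map_range_le (n : ℕ) (g : ℕ → ℕ) (i : ℕ) :
    ((List.range n).map g).getD i 0 ≤ g i := by
  by_cases h : i < n
  · exact (getD_map_range n g h).le
  · rw [List.getD_eq_default _ _ (by simpa using h)]
    exact Nat.zero_le _

theorem st_succ (E : ℕ) (x : Inp) (t : ℕ) : st E x (t + 1) = step E x (st E x t) :=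
  Function.iterate_succ_apply' _ _ _

theorem rad_le (d : ℕ → ℕ → ℕ) (F W : List ℕ) (k U j : ℕ) : rad d F W k U j ≤ U :=
  amin_le_init (fun r => r) _ _

theorem gain_le (d : ℕ → ℕ → ℕ) (J F W : List ℕ) (k U i : ℕ) :
    gain d J F W k U i ≤ J.length * U := by
  have := List.sum_le_card_nsmul (J.map fun j => rad d F W k U j - d j i) U fun x hx => by
    obtain ⟨j, -, rfl⟩ := List.mem_map.1 hx
    exact (Nat.sub_le _ _).trans (rad_le _ _ _ _ _ _)
  simpa [gain] using this

/-! ### Polynomial time -/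

section pt

variable {α : Type} [Enc α]

theorem pt_tot {F W : α → List ℕ} (hF : PT ∅ F) (hW : PT ∅ W) :
    PT ∅ fun a => tot (F a) (W a) :=
  PT.sum (PT.map hF (PT.getD (hW.comp PT.fst') PT.snd' (PT.const 0)))

theorem pt_ball {D : α → List (List ℕ)} {F W : α → List ℕ} {j r : α → ℕ} (hD : PT ∅ D)
    (hF : PT ∅ F) (hW : PT ∅ W) (hj : PT ∅ j) (hr : PT ∅ r) :
    PT ∅ fun a => ball (dm (D a)) (F a) (W a) (j a) (r a) :=
  PT.sum (PT.map (PT.filter hF ((pt_dm (hD.comp PT.fst') (hj.comp PT.fst') PT.snd').le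
    (hr.comp PT.fst'))) (PT.getD (hW.comp PT.fst') PT.snd' (PT.const 0)))

theorem pt_rad {D : α → List (List ℕ)} {F W : α → List ℕ} {k U j : α → ℕ} (hD : PT ∅ D)
    (hF : PT ∅ F) (hW : PT ∅ W) (hk : PT ∅ k) (hU : PT ∅ U) (hj : PT ∅ j) :
    PT ∅ fun a => rad (dm (D a)) (F a) (W a) (k a) (U a) (j a) := by
  have h1 : PT ∅ fun p : α × ℕ => dm (D p.1) (j p.1) p.2 :=
    pt_dm (hD.comp PT.fst') (hj.comp PT.fst') PT.snd'
  exact pt_amin (f := fun _ r => r) PT.snd' hU (PT.map (PT.filter hF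
    ((pt_tot (hF.comp PT.fst') (hW.comp PT.fst')).le ((hk.comp PT.fst').mul
      (pt_ball (hD.comp PT.fst') (hF.comp PT.fst') (hW.comp PT.fst') (hj.comp PT.fst') h1)))) h1)

theorem pt_gain {D : α → List (List ℕ)} {J F W : α → List ℕ} {k U i : α → ℕ} (hD : PT ∅ D)
    (hJ : PT ∅ J) (hF : PT ∅ F) (hW : PT ∅ W) (hk : PT ∅ k) (hU : PT ∅ U) (hi : PT ∅ i) :
    PT ∅ fun a => gain (dm (D a)) (J a) (F a) (W a) (k a) (U a) (i a) :=
  PT.sum (PT.map hJ ((pt_rad (hD.comp PT.fst') (hF.comp PT.fst') (hW.comp PT.fst')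
    (hk.comp PT.fst') (hU.comp PT.fst') PT.snd').sub
      (pt_dm (hD.comp PT.fst') PT.snd' (hi.comp PT.fst'))))

theorem pt_par (E : ℕ) : PT ∅ (par E) :=
  ((((PT.const E).mul PT.snd'.snd.snd.fst).mul
    ((PT.snd'.fst.length.add (PT.const 1)).powConst 3)).mul PT.snd'.snd.snd.snd).add (PT.const 1)

theorem pt_rounds (E : ℕ) : PT ∅ (rounds E) :=
  (((PT.const (4 * E ^ 2)).mul ((PT.min PT.snd'.snd.snd.fst PT.snd'.snd.fst.length).powConst
    2)).mul PT.snd'.snd.fst.length).mul ((PT.snd'.fst.length.add (PT.const 1)).powConst 4)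

theorem pbd_rounds (E : ℕ) : PBd (rounds E) := by
  have h1 : PBd fun x : Inp => x.2.2.1.length := PBd.length (A := ∅) PT.snd'.snd.fst
  have h2 : PBd fun x : Inp => x.2.1.length := PBd.length (A := ∅) PT.snd'.fst
  exact (((PBd.const (4 * E ^ 2)).mul ((h1.mono fun x => min_le_right _ _).pow 2)).mul h1).mul
    ((h2.add (PBd.const 1)).pow 4)

theorem pt_range : PT ∅ fun x : Inp => List.range x.1.length :=
  PT.range PT.fst'.length (PBd.length (A := ∅) PT.fst')

theorem pt_step (E : ℕ) : PT ∅ fun p : Inp × (List ℕ × List ℕ) => step E p.1 p.2 := by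
  have hx : PT ∅ fun q : (Inp × (List ℕ × List ℕ)) × ℕ => q.1.1 := PT.fst'.fst
  have hs : PT ∅ fun q : (Inp × (List ℕ × List ℕ)) × ℕ => q.1.2 := PT.fst'.snd
  have hw : PT ∅ fun q : (Inp × (List ℕ × List ℕ)) × ℕ => q.1.2.1.getD q.2 0 :=
    PT.getD hs.fst PT.snd' (PT.const 0)
  refine PT.pair (PT.map (pt_range.comp PT.fst') (hw.mul (((pt_par E).comp hx).add
    (pt_gain hx.fst hx.snd.fst hx.snd.snd.fst hs.fst hx.snd.snd.snd.fst hx.snd.snd.snd.snd
      PT.snd')))) (PT.map (pt_range.comp PT.fst') ?_)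
  exact (PT.getD hs.snd PT.snd' (PT.const 0)).add
    ((((hx.snd.snd.fst.length.mul hx.snd.snd.snd.fst).mul hw).div
      (pt_tot hx.snd.snd.fst hs.fst)).add (PT.const 1))

theorem st_bound (E : ℕ) (x : Inp) (t : ℕ) : (st E x t).1.length = x.1.length ∧
    (st E x t).2.length = x.1.length ∧ ∀ i,
    (st E x t).1.getD i 0 ≤ (par E x + x.2.1.length * x.2.2.2.2) ^ t ∧
    (st E x t).2.getD i 0 ≤ t * (x.2.2.1.length * x.2.2.2.1 *
      (par E x + x.2.1.length * x.2.2.2.2) ^ t + 1) := by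
  have hG : 1 ≤ par E x + x.2.1.length * x.2.2.2.2 := by
    rw [par]
    omega
  induction t with
  | zero =>
    refine ⟨by simp [st, init], by simp [st, init], fun i => ⟨?_, ?_⟩⟩
    · exact getD_map_range_le _ _ i
    · exact (getD_map_range_le _ _ i).trans (Nat.zero_le _)
  | succ t ih =>
    rw [st_succ]
    refine ⟨by simp [step], by simp [step], fun i => ⟨?_, ?_⟩⟩
    · refine (getD_map_range_le _ _ i).trans ?_
      rw [pow_succ]
      exact Nat.mul_le_mul (ih.2.2 i).1 (Nat.add_le_add_left (gain_le _ _ _ _ _ _ _) _)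
    · refine (getD_map_range_le _ _ i).trans ?_
      have h1 : (par E x + x.2.1.length * x.2.2.2.2) ^ t ≤
          (par E x + x.2.1.length * x.2.2.2.2) ^ (t + 1) := Nat.pow_le_pow_right hG (by omega)
      have h2 := Nat.mul_le_mul_left (x.2.2.1.length * x.2.2.2.1) h1
      have h3 := Nat.mul_le_mul_left (x.2.2.1.length * x.2.2.2.1) (ih.2.2 i).1
      have h4 := Nat.div_le_self (x.2.2.1.length * x.2.2.2.1 * (st E x t).1.getD i 0)
        (tot x.2.2.1 (st E x t).1)
      have h5 := (ih.2.2 i).2.trans (Nat.mul_le_mul_left t (Nat.add_le_add_right h2 1))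
      rw [add_mul, one_mul]
      omega

theorem esize_le_of_getD {l : List ℕ} {B : ℕ} (h : ∀ i, l.getD i 0 ≤ B) :
    esize l ≤ l.length * (2 * esize B + 1) := by
  refine esize_list_le fun y hy => esize_nat_mono ?_
  obtain ⟨i, hi, rfl⟩ := List.getElem_of_mem hy
  rw [← List.getD_eq_getElem _ 0 hi]
  exact h i

theorem pt_st (E : ℕ) : PT ∅ fun x : Inp => st E x (rounds E x) := by
  have hG : PT ∅ fun x : Inp => (par E x + x.2.1.length * x.2.2.2.2) ^ rounds E x :=
    ((pt_par E).add (PT.snd'.fst.length.mul PT.snd'.snd.snd.snd)).pow (pt_rounds E)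
      (pbd_rounds E)
  have hB : PT ∅ fun x : Inp => (rounds E x + 1) * (x.2.2.1.length * x.2.2.2.1 *
      (par E x + x.2.1.length * x.2.2.2.2) ^ rounds E x + 1) +
      (par E x + x.2.1.length * x.2.2.2.2) ^ rounds E x :=
    (((pt_rounds E).add (PT.const 1)).mul (((PT.snd'.snd.fst.length.mul
      PT.snd'.snd.snd.fst).mul hG).add (PT.const 1))).add hG
  have hn : PBd fun x : Inp => x.1.length := PBd.length (A := ∅) PT.fst'
  refine PT.iterate' (pt_rounds E) (pbd_rounds E)
    ((PT.map pt_range (PT.const 1)).pair (PT.map pt_range (PT.const 0))) (pt_step E)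
    (((PBd.const 3).mul (hn.mul (((PBd.const 2).mul hB.pbd).add (PBd.const 1)))).add
      (PBd.const 1)) fun x t ht => ?_
  obtain ⟨h1, h2, h3⟩ := st_bound E x t
  have hG : 1 ≤ par E x + x.2.1.length * x.2.2.2.2 := by
    rw [par]
    omega
  have h4 := Nat.pow_le_pow_right hG ht
  have h5 := esize_le_of_getD fun i => ((h3 i).1.trans h4).trans (Nat.le_add_left _
    ((rounds E x + 1) * (x.2.2.1.length * x.2.2.2.1 *
      (par E x + x.2.1.length * x.2.2.2.2) ^ rounds E x + 1)))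
  have h6 := esize_le_of_getD fun i => ((h3 i).2.trans (Nat.mul_le_mul (Nat.le_succ_of_le ht)
    (Nat.add_le_add_right (Nat.mul_le_mul_left _ h4) 1))).trans (Nat.le_add_right _
      ((par E x + x.2.1.length * x.2.2.2.2) ^ rounds E x))
  rw [h1] at h5
  rw [h2] at h6
  change esize (st E x t) ≤ _
  rw [show st E x t = ((st E x t).1, (st E x t).2) from rfl, esize_pair]
  simp only [Nat.succ_eq_add_one] at h6
  omega

theorem pt_lp (E : ℕ) : PT ∅ (lp E) := by
  have h : PT ∅ fun x : Inp => x.2.2.1.length * rounds E x :=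
    PT.snd'.snd.fst.length.mul (pt_rounds E)
  exact (PT.map pt_range (PT.min (PT.getD ((pt_st E).comp PT.fst').snd PT.snd' (PT.const 0))
    (h.comp PT.fst'))).pair h

theorem pbd_lp (E : ℕ) : PBd fun x => (lp E x).2 :=
  (PBd.length (A := ∅) PT.snd'.snd.fst).mul (pbd_rounds E)

end pt

/-! ### The fractional assignment of one round -/

theorem tot_eq {F : List ℕ} (hF : F.Nodup) (W : List ℕ) :
    tot F W = ∑ i ∈ F.toFinset, W.getD i 0 := by
  rw [tot, List.sum_toFinset _ hF]

theorem ball_eq (d : ℕ → ℕ → ℕ) {F : List ℕ} (hF : F.Nodup) (W : List ℕ) (j r : ℕ) :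
    ball d F W j r = ∑ i ∈ F.toFinset with d j i ≤ r, W.getD i 0 := by
  rw [ball, ← List.sum_toFinset _ (hF.filter _)]
  refine sum_congr ?_ fun _ _ => rfl
  ext i
  simp

theorem rad_spec (d : ℕ → ℕ → ℕ) {F : List ℕ} (hF : F.Nodup) (W : List ℕ) {k U : ℕ} (j : ℕ)
    (hk : 1 ≤ k) (hU : ∀ a b, d a b ≤ U) :
    tot F W ≤ k * ∑ i ∈ F.toFinset with d j i ≤ rad d F W k U j, W.getD i 0 ∧
    k * ∑ i ∈ F.toFinset with d j i < rad d F W k U j, W.getD i 0 ≤ tot F W := by
  constructor
  · rcases amin_mem (fun r => r) U ((F.filter fun i => tot F W ≤ k * ball d F W j (d j i)).map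
      fun i => d j i) with h | h
    · rw [rad, h, filter_true_of_mem fun i _ => hU j i, ← tot_eq hF]
      exact Nat.le_mul_of_pos_left _ hk
    · obtain ⟨i, hi, e⟩ := List.mem_map.1 h
      rw [rad, ← e, ← ball_eq d hF]
      simpa using (List.mem_filter.1 hi).2
  · rcases (F.toFinset.filter fun i => d j i < rad d F W k U j).eq_empty_or_nonempty with h | h
    · rw [h]; simp
    obtain ⟨i, hi, hm⟩ := exists_max_image _ (d j) h
    obtain ⟨h1, h2⟩ := mem_filter.1 hi
    have h3 : ¬ tot F W ≤ k * ball d F W j (d j i) := fun h3 => by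
      have := amin_le (fun r => r) U (L := (F.filter fun i =>
        tot F W ≤ k * ball d F W j (d j i)).map fun i => d j i) (List.mem_map.2 ⟨i,
          List.mem_filter.2 ⟨List.mem_toFinset.1 h1, by simpa using h3⟩, rfl⟩)
      exact absurd h2 (not_lt.2 this)
    refine le_trans (Nat.mul_le_mul_left k ?_) (not_le.1 h3).le
    rw [ball_eq d hF]
    exact sum_le_sum_of_subset fun i' hi' => mem_filter.2 ⟨(mem_filter.1 hi').1, hm i' hi'⟩

/-- The nearest unit of mass. -/
theorem exists_assign (F : Finset ℕ) (g : ℕ → ℕ) (y : ℕ → ℝ) (hy : ∀ i, 0 ≤ y i) (v : ℕ)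
    (h1 : 1 ≤ ∑ i ∈ F with g i ≤ v, y i) (h2 : ∑ i ∈ F with g i < v, y i ≤ 1) :
    ∃ x : ℕ → ℝ, (∀ i, 0 ≤ x i ∧ x i ≤ y i) ∧ ∑ i ∈ F, x i = 1 ∧
      ∑ i ∈ F, x i * g i = v - ∑ i ∈ F, y i * ((v - g i : ℕ) : ℝ) := by
  set a := ∑ i ∈ F with g i < v, y i with ha
  set b := ∑ i ∈ F with g i = v, y i with hb
  have hab : ∑ i ∈ F with g i ≤ v, y i = a + b := by
    rw [ha, hb, sum_filter, sum_filter, sum_filter, ← sum_add_distrib]
    refine sum_congr rfl fun i _ => ?_
    rcases lt_trichotomy (g i) v with h | h | h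
    · simp [h, h.le, h.ne]
    · simp [h]
    · simp [h.not_ge, h.ne', h.le.not_gt]
  have hb0 : 0 ≤ b := sum_nonneg fun i _ => hy i
  obtain ⟨θ, t0, t1, t2⟩ : ∃ θ : ℝ, 0 ≤ θ ∧ θ ≤ 1 ∧ θ * b = 1 - a := by
    rcases hb0.eq_or_lt with h | h
    · exact ⟨0, le_rfl, zero_le_one, by linarith⟩
    · exact ⟨(1 - a) / b, div_nonneg (by linarith) hb0, (div_le_one h).2 (by linarith),
        div_mul_cancel₀ _ h.ne'⟩
  have hs : ∑ i ∈ F, (if g i < v then y i else if g i = v then θ * y i else 0) = 1 := by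
    rw [show (1 : ℝ) = a + θ * b by linarith, ha, hb, mul_sum, sum_filter, sum_filter,
      ← sum_add_distrib]
    refine sum_congr rfl fun i _ => ?_
    rcases lt_trichotomy (g i) v with h | h | h
    · simp [h, h.ne]
    · simp [h]
    · simp [h.ne', h.le.not_gt]
  refine ⟨fun i => if g i < v then y i else if g i = v then θ * y i else 0, fun i => ?_, hs, ?_⟩
  · have := hy i
    dsimp only
    split_ifs
    · exact ⟨this, le_rfl⟩
    · exact ⟨by positivity, by nlinarith⟩
    · exact ⟨le_rfl, this⟩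
  · rw [eq_sub_iff_add_eq, ← sum_add_distrib]
    conv_rhs => rw [← one_mul (v : ℝ), ← hs, sum_mul]
    refine sum_congr rfl fun i _ => ?_
    rcases lt_trichotomy (g i) v with h | h | h
    · simp only [h, if_true]
      rw [Nat.cast_sub h.le]
      ring
    · simp [h]
    · simp [h.ne', h.le.not_gt, Nat.sub_eq_zero_of_le h.le]

/-! ### The regret -/

theorem regret (F : Finset ℕ) (w r : ℕ → ℕ → ℝ) {H ρ : ℝ} (hH : 0 < H) (h0 : ∀ i ∈ F, w 0 i = 1)
    (hw : ∀ t, ∀ i ∈ F, w (t + 1) i = w t i * (H + r t i)) (hr0 : ∀ t i, 0 ≤ r t i)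
    (hr : ∀ t i, r t i ≤ ρ) (T : ℕ) {o : ℕ} (ho : o ∈ F) :
    ∑ t ∈ range T, r t o ≤ ∑ t ∈ range T, (∑ i ∈ F, w t i * r t i) / (∑ i ∈ F, w t i) +
      (H * F.card + T * (ρ ^ 2 / (2 * H))) := by
  have hpos : ∀ t, ∀ i ∈ F, 0 < w t i := by
    intro t i hi
    induction t with
    | zero => rw [h0 i hi]; exact one_pos
    | succ t ih => rw [hw t i hi]; exact mul_pos ih (by linarith [hr0 t i])
  have hS : ∀ t, 0 < ∑ i ∈ F, w t i := fun t => sum_pos (hpos t) ⟨o, ho⟩
  have h1 : ∀ t, Real.log (∑ i ∈ F, w t i) ≤ F.card + t * Real.log H +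
      (∑ s ∈ range t, (∑ i ∈ F, w s i * r s i) / (∑ i ∈ F, w s i)) / H := by
    intro t
    induction t with
    | zero =>
      have := Real.log_le_sub_one_of_pos (hS 0)
      rw [sum_congr rfl h0] at this ⊢
      simp at this ⊢
      linarith
    | succ t ih =>
      set q := (∑ i ∈ F, w t i * r t i) / (∑ i ∈ F, w t i) with hq
      have hq0 : 0 ≤ q := div_nonneg (sum_nonneg fun i hi =>
        mul_nonneg (hpos t i hi).le (hr0 t i)) (hS t).le
      have e : ∑ i ∈ F, w (t + 1) i = (∑ i ∈ F, w t i) * H * (1 + q / H) := by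
        have := (hS t).ne'
        rw [sum_congr rfl (hw t), hq]
        simp only [mul_add, sum_add_distrib, ← sum_mul]
        field_simp
      have h2 := Real.log_le_sub_one_of_pos (show 0 < 1 + q / H by positivity)
      rw [e, Real.log_mul (mul_pos (hS t) hH).ne' (by positivity), Real.log_mul (hS t).ne' hH.ne',
        sum_range_succ, add_div]
      push_cast
      linarith
  have h2 : ∀ t : ℕ, t * Real.log H + (∑ s ∈ range t, r s o) / H - t * (ρ ^ 2 / (2 * H)) / H ≤
      Real.log (w t o) := by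
    intro t
    induction t with
    | zero => simp [h0 o ho]
    | succ t ih =>
      have h3 := hr0 t o
      have hx : 0 ≤ r t o / H := by positivity
      have e : w (t + 1) o = w t o * H * (1 + r t o / H) := by
        rw [hw t o ho]
        field_simp
      have h4 : r t o / H - (r t o / H) ^ 2 / 2 ≤ Real.log (1 + r t o / H) := by
        refine le_trans ?_ (Real.le_log_one_add_of_nonneg hx)
        rw [le_div_iff₀ (by positivity)]
        nlinarith [mul_nonneg hx (sq_nonneg (r t o / H))]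
      have h5 : (r t o / H) ^ 2 / 2 ≤ ρ ^ 2 / (2 * H) / H := by
        have : (r t o) ^ 2 ≤ ρ ^ 2 := pow_le_pow_left₀ h3 (hr t o) 2
        rw [div_pow, div_div, div_div, show 2 * H * H = H ^ 2 * 2 by ring]
        exact div_le_div_of_nonneg_right this (by positivity)
      rw [e, Real.log_mul (mul_pos (hpos t o ho) hH).ne' (by positivity),
        Real.log_mul (hpos t o ho).ne' hH.ne', sum_range_succ, add_div]
      push_cast
      rw [add_mul ((t : ℝ)) 1 (ρ ^ 2 / (2 * H)), add_div, one_mul]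
      linarith
  have h3 : Real.log (w T o) ≤ Real.log (∑ i ∈ F, w T i) :=
    Real.log_le_log (hpos T o ho) (single_le_sum (fun i hi => (hpos T i hi).le) ho)
  have h4 := (h2 T).trans (h3.trans (h1 T))
  have h5 : (∑ s ∈ range T, r s o) / H ≤ (∑ t ∈ range T, (∑ i ∈ F, w t i * r t i) /
      (∑ i ∈ F, w t i) + (H * F.card + T * (ρ ^ 2 / (2 * H)))) / H := by
    rw [add_div, add_div, mul_div_cancel_left₀ _ hH.ne']
    linarith
  exact (div_le_div_iff_of_pos_right hH).1 h5

/-! ### The result -/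

theorem gain_cast (d : ℕ → ℕ → ℕ) {J : List ℕ} (hJ : J.Nodup) (F W : List ℕ) (k U i : ℕ) :
    (gain d J F W k U i : ℝ) = ∑ j ∈ J.toFinset, ((rad d F W k U j - d j i : ℕ) : ℝ) := by
  rw [gain, ← List.sum_toFinset _ hJ, Nat.cast_sum]

theorem round_spec {D : List (List ℕ)} {J F : List ℕ} {k U : ℕ} (h : Valid D J F k U)
    (W : List ℕ) (hW : 0 < tot F W) {O : List ℕ} (hO : O ≠ []) :
    ∃ x : ℕ → ℕ → ℝ, (∀ j i, 0 ≤ x j i ∧ x j i ≤ k * W.getD i 0 / tot F W) ∧
      (∀ j, ∑ i ∈ F.toFinset, x j i = 1) ∧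
      ∑ j ∈ J.toFinset, ∑ i ∈ F.toFinset, x j i * dm D j i ≤ cost (dm D) J O +
        ∑ o ∈ O.toFinset, (gain (dm D) J F W k U o : ℝ) -
          k * ((∑ i ∈ F.toFinset, (W.getD i 0 : ℝ) * gain (dm D) J F W k U i) /
            ∑ i ∈ F.toFinset, (W.getD i 0 : ℝ)) := by
  have ht : (0 : ℝ) < tot F W := by exact_mod_cast hW
  have ht' : ∑ i ∈ F.toFinset, (W.getD i 0 : ℝ) = tot F W := by
    rw [tot_eq h.F_nodup, Nat.cast_sum]
  have hx : ∀ j, ∃ x : ℕ → ℝ, (∀ i, 0 ≤ x i ∧ x i ≤ k * W.getD i 0 / tot F W) ∧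
      ∑ i ∈ F.toFinset, x i = 1 ∧ ∑ i ∈ F.toFinset, x i * dm D j i =
        rad (dm D) F W k U j - ∑ i ∈ F.toFinset, (k * W.getD i 0 / tot F W : ℝ) *
          ((rad (dm D) F W k U j - dm D j i : ℕ) : ℝ) := by
    intro j
    obtain ⟨h1, h2⟩ := rad_spec (dm D) h.F_nodup W j h.one_le_k h.le_U
    refine exists_assign _ (dm D j) _ (fun i => by positivity) _ ?_ ?_
    · rw [← sum_div, ← mul_sum, one_le_div ht]
      exact_mod_cast h1
    · rw [← sum_div, ← mul_sum, div_le_one ht]
      exact_mod_cast h2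
  choose x hx1 hx2 hx3 using hx
  refine ⟨x, hx1, hx2, ?_⟩
  have e1 : ∑ j ∈ J.toFinset, ∑ i ∈ F.toFinset, (k * W.getD i 0 / tot F W : ℝ) *
      ((rad (dm D) F W k U j - dm D j i : ℕ) : ℝ) =
      k * ((∑ i ∈ F.toFinset, (W.getD i 0 : ℝ) * gain (dm D) J F W k U i) /
        ∑ i ∈ F.toFinset, (W.getD i 0 : ℝ)) := by
    rw [sum_comm, ht', sum_div, mul_sum]
    refine sum_congr rfl fun i _ => ?_
    rw [← mul_sum, gain_cast _ h.J_nodup]
    ring
  rw [sum_congr rfl fun j _ => hx3 j, sum_sub_distrib, e1, sub_le_sub_iff_right,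
    sum_congr rfl fun o _ => gain_cast _ h.J_nodup F W k U o, sum_comm,
    cost_eq_sum _ h.J_nodup, Nat.cast_sum, ← sum_add_distrib]
  refine sum_le_sum fun j _ => ?_
  have h1 : ((rad (dm D) F W k U j - dm D j (near (dm D) j O) : ℕ) : ℝ) ≤
      ∑ o ∈ O.toFinset, ((rad (dm D) F W k U j - dm D j o : ℕ) : ℝ) :=
    single_le_sum (f := fun o => ((rad (dm D) F W k U j - dm D j o : ℕ) : ℝ))
      (fun _ _ => Nat.cast_nonneg _) (List.mem_toFinset.2 (near_mem _ j hO))
  refine le_trans ?_ (add_le_add_right h1 _)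
  rw [dl]
  exact_mod_cast (by omega)

theorem st_w {D : List (List ℕ)} {J F : List ℕ} {k U : ℕ} (E t : ℕ) {i : ℕ}
    (hi : i < D.length) : (st E (D, J, F, k, U) (t + 1)).1.getD i 0 =
      (st E (D, J, F, k, U) t).1.getD i 0 * (par E (D, J, F, k, U) +
        gain (dm D) J F (st E (D, J, F, k, U) t).1 k U i) := by
  rw [st_succ]
  exact getD_map_range _ _ hi

theorem st_acc {D : List (List ℕ)} {J F : List ℕ} {k U : ℕ} (E t : ℕ) {i : ℕ}
    (hi : i < D.length) : (st E (D, J, F, k, U) t).2.getD i 0 = ∑ s ∈ range t,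
      (F.length * k * (st E (D, J, F, k, U) s).1.getD i 0 / tot F (st E (D, J, F, k, U) s).1
        + 1) := by
  induction t with
  | zero => exact getD_map_range _ _ hi
  | succ t ih =>
    rw [sum_range_succ, ← ih, st_succ]
    exact getD_map_range _ _ hi

theorem st_pos {D : List (List ℕ)} {J F : List ℕ} {k U : ℕ} (E t : ℕ) {i : ℕ}
    (hi : i < D.length) : 0 < (st E (D, J, F, k, U) t).1.getD i 0 := by
  induction t with
  | zero => exact (getD_map_range _ (fun _ => 1) hi).ge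
  | succ t ih =>
    rw [st_w E t hi]
    refine Nat.mul_pos ih ?_
    rw [par]
    omega

theorem tot_pos {D : List (List ℕ)} {J F : List ℕ} {k U : ℕ} (h : Valid D J F k U) (E t : ℕ) :
    0 < tot F (st E (D, J, F, k, U) t).1 := by
  rw [tot_eq h.F_nodup]
  exact sum_pos (fun i hi => st_pos E t (h.F_lt i (List.mem_toFinset.1 hi)))
    ⟨_, List.mem_toFinset.2 (headD_mem h.F_ne)⟩

theorem err_le {E k f n U : ℝ} (hE : 1 ≤ E) (hk : 1 ≤ k) (hf : 1 ≤ f) (hn : 0 ≤ n) (hU : 1 ≤ U) :
    k * ((E * k * (n + 1) ^ 3 * U + 1) * f + 4 * E ^ 2 * k ^ 2 * f * (n + 1) ^ 4 *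
      ((n * U) ^ 2 / (2 * (E * k * (n + 1) ^ 3 * U + 1)))) ≤
      4 * E ^ 2 * k ^ 2 * f * (n + 1) ^ 4 * (U / (E * (n + 1))) := by
  have h0 : 1 ≤ E * k * (n + 1) ^ 3 * U :=
    one_le_mul_of_one_le_of_one_le (one_le_mul_of_one_le_of_one_le
      (one_le_mul_of_one_le_of_one_le hE hk) (one_le_pow₀ (by linarith))) hU
  have h1 : k * ((n * U) ^ 2 / (2 * (E * k * (n + 1) ^ 3 * U + 1))) ≤ U / (E * (n + 1)) / 2 := by
    rw [← mul_div_assoc, div_div, div_le_div_iff₀ (by positivity) (by positivity)]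
    have h2 : n ^ 2 ≤ (n + 1) ^ 2 := by nlinarith
    have h3 : 0 ≤ 2 * E * k * U ^ 2 * (n + 1) := by positivity
    nlinarith [mul_le_mul_of_nonneg_left h2 h3]
  have h2 : k * ((E * k * (n + 1) ^ 3 * U + 1) * f) ≤
      4 * E ^ 2 * k ^ 2 * f * (n + 1) ^ 4 * (U / (E * (n + 1)) / 2) := by
    have e : 4 * E ^ 2 * k ^ 2 * f * (n + 1) ^ 4 * (U / (E * (n + 1)) / 2) =
        k * f * (2 * (E * k * (n + 1) ^ 3 * U)) := by
      field_simp
      ring
    rw [e]
    have h3 : 0 ≤ k * f := by positivity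
    nlinarith [mul_le_mul_of_nonneg_left h0 h3]
  have h3 : 0 ≤ 4 * E ^ 2 * k ^ 2 * f * (n + 1) ^ 4 := by positivity
  nlinarith [mul_le_mul_of_nonneg_left h1 h3]

/-- The output of `lp` is an almost optimal fractional solution with at most `k + 1` facilities. -/
theorem lp_spec {D : List (List ℕ)} {J F : List ℕ} {k U : ℕ} (h : Valid D J F k U) {E : ℕ}
    (hE : 1 ≤ E) : 0 < (lp E (D, J, F, k, U)).2 ∧
      (lp E (D, J, F, k, U)).1.length = D.length ∧
      (∀ i, (lp E (D, J, F, k, U)).1.getD i 0 ≤ (lp E (D, J, F, k, U)).2) ∧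
      ∑ i ∈ F.toFinset, (lp E (D, J, F, k, U)).1.getD i 0 ≤ (k + 1) * (lp E (D, J, F, k, U)).2 ∧
      ∃ x : ℕ → ℕ → ℝ, (∀ j i, 0 ≤ x j i) ∧
        (∀ j, ∀ i ∈ F, x j i ≤ (lp E (D, J, F, k, U)).1.getD i 0 / (lp E (D, J, F, k, U)).2) ∧
        (∀ j, ∑ i ∈ F.toFinset, x j i = 1) ∧
        ∑ j ∈ J.toFinset, ∑ i ∈ F.toFinset, x j i * dm D j i ≤
          opt (dm D) J F k + U / (E * (J.length + 1)) := by
  set X : Inp := (D, J, F, k, U) with hX
  set T := rounds E X with hT
  have hk := h.one_le_k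
  have hf : 1 ≤ F.length := hk.trans h.k_le
  have hTe : T = 4 * E ^ 2 * k ^ 2 * F.length * (J.length + 1) ^ 4 := by
    rw [hT, rounds, hX]
    simp only [min_eq_left h.k_le]
  have hT0 : 0 < T := by rw [hTe]; positivity
  have hN : (lp E X).2 = F.length * T := rfl
  have hY : ∀ i ∈ F, (lp E X).1.getD i 0 = min ((st E X T).2.getD i 0) (F.length * T) :=
    fun i hi => getD_map_range _ _ (h.F_lt i hi)
  have hcard : F.toFinset.card = F.length := List.toFinset_card_of_nodup h.F_nodup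
  refine ⟨by rw [hN]; positivity, by simp [lp, hX], fun i =>
    (getD_map_range_le _ _ i).trans (min_le_right _ _), ?_, ?_⟩
  · calc _ ≤ ∑ i ∈ F.toFinset, ∑ s ∈ range T,
          (F.length * k * (st E X s).1.getD i 0 / tot F (st E X s).1 + 1) :=
        sum_le_sum fun i hi => by
          rw [hY i (List.mem_toFinset.1 hi), st_acc E T (h.F_lt i (List.mem_toFinset.1 hi))]
          exact min_le_left _ _
      _ ≤ ∑ s ∈ range T, (k + 1) * F.length := by
        rw [sum_comm]
        refine sum_le_sum fun s _ => ?_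
        rw [sum_add_distrib, sum_const, hcard, smul_eq_mul, mul_one, add_mul, one_mul]
        refine Nat.add_le_add_right (Nat.le_of_mul_le_mul_right ?_ (tot_pos h E s)) _
        rw [sum_mul]
        refine (sum_le_sum fun i _ => Nat.div_mul_le_self _ _).trans ?_
        rw [← mul_sum, ← tot_eq h.F_nodup, mul_comm k]
      _ = _ := by
        rw [sum_const, card_range, smul_eq_mul, hN]
        ring
  obtain ⟨O, hO, hOn, hOc⟩ := exists_opt (dm D) J h.F_ne hk
  choose x hx1 hx2 hx3 using fun t => round_spec h (st E X t).1 (tot_pos h E t) hO.1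
  have hTr : (0 : ℝ) < T := by exact_mod_cast hT0
  have hfr : (0 : ℝ) < F.length := by exact_mod_cast hf
  have hs1 : ∀ j, ∑ i ∈ F.toFinset, (∑ t ∈ range T, x t j i) / T = 1 := fun j => by
    rw [← sum_div, sum_comm, sum_congr rfl fun t _ => hx2 t j]
    simp [hTr.ne']
  have hs0 : ∀ j i, 0 ≤ (∑ t ∈ range T, x t j i) / T := fun j i =>
    div_nonneg (sum_nonneg fun t _ => (hx1 t j i).1) hTr.le
  refine ⟨fun j i => (∑ t ∈ range T, x t j i) / T, hs0, fun j i hi => ?_, hs1, ?_⟩
  · rw [hY i hi, hN, Nat.cast_min, ← min_div_div_right (by positivity), le_min_iff]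
    constructor
    · rw [st_acc E T (h.F_lt i hi), Nat.cast_mul, Nat.cast_sum, ← div_div]
      refine div_le_div_of_nonneg_right ?_ hTr.le
      rw [sum_div]
      refine sum_le_sum fun t _ => (hx1 t j i).2.trans ?_
      have ht : (0 : ℝ) < tot F (st E X t).1 := by exact_mod_cast tot_pos h E t
      rw [div_le_div_iff₀ ht hfr]
      have := (Nat.lt_div_mul_add (a := F.length * k * (st E X t).1.getD i 0)
        (tot_pos h E t)).le
      have h2 : k * (st E X t).1.getD i 0 * F.length ≤ (F.length * k * (st E X t).1.getD i 0 /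
          tot F (st E X t).1 + 1) * tot F (st E X t).1 := by
        rw [add_mul, one_mul, show k * (st E X t).1.getD i 0 * F.length =
          F.length * k * (st E X t).1.getD i 0 by ring]
        exact this
      exact_mod_cast h2
    · rw [div_self (by positivity), ← hs1 j]
      exact single_le_sum (f := fun i => (∑ t ∈ range T, x t j i) / T) (fun i _ => hs0 j i)
        (List.mem_toFinset.2 hi)
  rcases Nat.eq_zero_or_pos U with rfl | hU
  · have : ∀ a b, dm D a b = 0 := fun a b => Nat.le_zero.1 (h.le_U a b)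
    simp [this]
  have hH : (0 : ℝ) < par E X := by
    rw [par]
    positivity
  have hreg := fun o (ho : o ∈ O.toFinset) => regret F.toFinset
    (fun t i => ((st E X t).1.getD i 0 : ℝ))
    (fun t i => (gain (dm D) J F (st E X t).1 k U i : ℝ)) (ρ := J.length * U) hH
    (fun i hi => by
      have : (st E X 0).1.getD i 0 = 1 := getD_map_range _ _ (h.F_lt i (List.mem_toFinset.1 hi))
      rw [this, Nat.cast_one])
    (fun t i hi => by
      rw [st_w E t (h.F_lt i (List.mem_toFinset.1 hi))]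
      push_cast
      rfl)
    (fun t i => Nat.cast_nonneg _) (fun t i => by exact_mod_cast gain_le _ _ _ _ _ _ _) T
    (List.mem_toFinset.2 (hO.2.1 o (List.mem_toFinset.1 ho)))
  have h1 := sum_le_sum hreg
  rw [sum_const, List.toFinset_card_of_nodup hOn, nsmul_eq_mul, sum_comm, hcard] at h1
  have hOk : (O.length : ℝ) ≤ k := by exact_mod_cast hO.2.2
  have h2 := h1.trans (mul_le_mul_of_nonneg_right hOk (by positivity))
  have h3 := sum_le_sum fun t (_ : t ∈ range T) => hx3 t
  rw [sum_sub_distrib, sum_add_distrib, sum_const, card_range, nsmul_eq_mul, ← mul_sum,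
    hOc] at h3
  have h4 := err_le (E := E) (k := k) (f := F.length) (n := J.length) (U := U)
    (by exact_mod_cast hE) (by exact_mod_cast hk) (by exact_mod_cast hf) (by positivity)
    (by exact_mod_cast hU)
  have e1 : (par E X : ℝ) = E * k * (J.length + 1) ^ 3 * U + 1 := by
    rw [par, hX]
    push_cast
    rfl
  have e2 : (T : ℝ) = 4 * E ^ 2 * k ^ 2 * F.length * (J.length + 1) ^ 4 := by
    rw [hTe]
    push_cast
    rfl
  rw [← e1, ← e2] at h4
  have e3 : ∑ j ∈ J.toFinset, ∑ i ∈ F.toFinset, (∑ t ∈ range T, x t j i) / T * dm D j i =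
      (∑ t ∈ range T, ∑ j ∈ J.toFinset, ∑ i ∈ F.toFinset, x t j i * dm D j i) / T := by
    rw [sum_comm (s := range T), sum_div]
    refine sum_congr rfl fun j _ => ?_
    rw [sum_comm (s := range T), sum_div]
    refine sum_congr rfl fun i _ => ?_
    rw [← sum_mul]
    ring
  rw [e3, div_le_iff₀ hTr]
  rw [mul_add] at h2
  linarith

end LP

end Vale.Agent.P334
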