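import Vale.Agent.P334.Stable
import Vale.Agent.Lib.PCP.RandHard

/-!
From pseudo-approximation to approximation for integer instances.
-/

namespace Vale.Agent.P334

open Vale.Agent.Lib.PolyTime Vale.Agent.Lib.PTM Vale.Agent.Lib.PCP Finset

/-! ### Truncation of the metric -/

/-- Distances larger than `U` are replaced by `U`. -/
def trunc (U : ℕ) (D : List (List ℕ)) : List (List ℕ) := D.map fun r => r.map fun x => min U x

theorem getD_map_min (U : ℕ) (r : List ℕ) (b : ℕ) :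
    (r.map fun x => min U x).getD b 0 = min U (r.getD b 0) := by
  simp only [List.getD_eq_getElem?_getD, List.getElem?_map]
  cases r[b]? <;> simp

theorem dm_trunc (U : ℕ) (D : List (List ℕ)) (a b : ℕ) :
    dm (trunc U D) a b = min U (dm D a b) := by
  have h : ∀ x, cl (trunc U D) x = cl D x := fun x => by simp [cl, trunc]
  rw [dm, dm, h, h, ← getD_map_min]
  congr 1
  simp only [trunc, List.getD_eq_getElem?_getD, List.getElem?_map]
  cases D[cl D a]? <;> simp

theorem PM.trunc {D : List (List ℕ)} (h : PM (dm D)) (U : ℕ) : PM (dm (trunc U D)) := by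
  refine ⟨fun a => ?_, fun a b => ?_, fun a b c => ?_⟩
  · rw [dm_trunc, h.self, Nat.min_zero]
  · rw [dm_trunc, dm_trunc, h.comm]
  · rw [dm_trunc, dm_trunc, dm_trunc]
    have := h.tri a b c
    omega

theorem dm_mem (D : List (List ℕ)) (a b : ℕ) : dm D a b ∈ 0 :: D.flatten := by
  rw [dm, List.getD_eq_getElem?_getD]
  rcases h : (D.getD (cl D a) [])[cl D b]? with _ | x
  · simp
  · refine List.mem_cons_of_mem _ (List.mem_flatten.2 ⟨_, ?_, List.mem_of_getElem? h⟩)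
    rw [List.getD_eq_getElem?_getD] at h ⊢
    rcases h' : D[cl D a]? with _ | r
    · rw [h'] at h
      simp at h
    · exact List.mem_of_getElem? h'

theorem cost_le_of_le {d d' : ℕ → ℕ → ℕ} (h : ∀ a b, d' a b ≤ d a b) (J : List ℕ) {S : List ℕ}
    (hS : S ≠ []) : cost d' J S ≤ cost d J S :=
  List.sum_le_sum fun j _ => (dl_le d' j (near_mem d j hS)).trans (h _ _)

theorem exists_radius (D : List (List ℕ)) (J : List ℕ) {F : List ℕ} (hF : F ≠ []) {k : ℕ}
    (hk : 1 ≤ k) : ∃ r ∈ 0 :: D.flatten, r ≤ opt (dm D) J F k ∧ opt (dm D) J F k ≤ J.length * r := by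
  obtain ⟨O, -, -, e⟩ := exists_opt (dm D) J hF hk
  rw [← e]
  rcases eq_or_ne J [] with rfl | hJ
  · exact ⟨0, List.mem_cons_self, by simp, by simp [cost]⟩
  obtain ⟨j, hj, h⟩ := exists_max_image J.toFinset (fun j => dl (dm D) j O)
    ⟨_, List.mem_toFinset.2 (headD_mem hJ)⟩
  refine ⟨dl (dm D) j O, dm_mem D _ _, dl_le_cost _ O (List.mem_toFinset.1 hj), ?_⟩
  have := List.sum_le_card_nsmul (J.map fun j => dl (dm D) j O) (dl (dm D) j O) fun x hx => by
    obtain ⟨j', hj', rfl⟩ := List.mem_map.1 hx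
    exact h j' (List.mem_toFinset.2 hj')
  simpa [cost] using this

/-- The truncation level for the radius `r`. -/
def lev (J : List ℕ) (r : ℕ) : ℕ := 3 * (J.length + 1) * r + 1

theorem trunc_good {D : List (List ℕ)} {J F S : List ℕ} {k c r : ℕ} {a ε : ℝ} (hF : F ≠ [])
    (hk : 1 ≤ k) (ha : 0 ≤ a) (ha3 : a ≤ 3) (hε : 0 < ε) (hε1 : ε < 1)
    (h1 : r ≤ opt (dm D) J F k) (h2 : opt (dm D) J F k ≤ J.length * r)
    (h : Good a ε c (trunc (lev J r) D) J F k (lev J r) S) :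
    (cost (dm D) J S : ℝ) ≤ (a + 4 * ε) * opt (dm D) J F k := by
  obtain ⟨hS, h⟩ := h
  have h3 : opt (dm (trunc (lev J r) D)) J F k ≤ opt (dm D) J F k := by
    obtain ⟨O, hO, -, e⟩ := exists_opt (dm D) J hF hk
    rw [← e]
    exact (opt_le _ J hO).trans (cost_le_of_le (fun a b => by rw [dm_trunc]; exact min_le_right _ _)
      J hO.1)
  have h3' : (opt (dm (trunc (lev J r) D)) J F k : ℝ) ≤ opt (dm D) J F k := by exact_mod_cast h3
  have h1' : (r : ℝ) ≤ opt (dm D) J F k := by exact_mod_cast h1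
  have h2' : (opt (dm D) J F k : ℝ) ≤ J.length * r := by exact_mod_cast h2
  have hn : (0 : ℝ) ≤ J.length := Nat.cast_nonneg _
  have hr : (0 : ℝ) ≤ r := Nat.cast_nonneg _
  have h4 : ε * (lev J r : ℝ) / (J.length + 1) ≤ ε * (3 * r + 1) := by
    rw [div_le_iff₀ (by positivity), lev]
    push_cast
    nlinarith
  have h5 : (cost (dm (trunc (lev J r) D)) J S : ℝ) ≤ a * opt (dm D) J F k + ε * (3 * r + 1) := by
    nlinarith
  have h6 : cost (dm (trunc (lev J r) D)) J S < lev J r := by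
    have : (cost (dm (trunc (lev J r) D)) J S : ℝ) < lev J r := by
      refine h5.trans_lt ?_
      rw [lev]
      push_cast
      nlinarith [mul_nonneg hn hr]
    exact_mod_cast this
  have h7 : cost (dm D) J S ≤ cost (dm (trunc (lev J r) D)) J S := by
    refine List.sum_le_sum fun j hj => ?_
    have h8 := (dl_le_cost _ S hj).trans_lt h6
    refine (dl_le _ j (near_mem (dm (trunc (lev J r) D)) j hS.1)).trans ?_
    rw [dl, dm_trunc] at h8 ⊢
    omega
  rcases Nat.eq_zero_or_pos r with rfl | h0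
  · have : cost (dm D) J S = 0 := by
      simp only [lev] at h6 h7
      omega
    rw [this, Nat.cast_zero]
    positivity
  · have h8 : (1 : ℝ) ≤ r := by exact_mod_cast h0
    have h9 : (cost (dm D) J S : ℝ) ≤ cost (dm (trunc (lev J r) D)) J S := by exact_mod_cast h7
    nlinarith

/-! ### The algorithm -/

/-- Integer instances without the bound for the distances. -/
abbrev Inp0 : Type := List (List ℕ) × List ℕ × List ℕ × ℕ

/-- Valid integer instances. -/
structure Valid0 (D : List (List ℕ)) (J F : List ℕ) (k : ℕ) : Prop where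
  pm : PM (dm D)
  J_nodup : J.Nodup
  F_nodup : F.Nodup
  J_lt : ∀ j ∈ J, j < D.length
  F_lt : ∀ i ∈ F, i < D.length
  one_le_k : 1 ≤ k
  k_le : k ≤ F.length
  strict : ∀ j ∈ J, ∀ i ∈ F, dm D j i = 0 → j = i

theorem Valid0.F_ne {D : List (List ℕ)} {J F : List ℕ} {k : ℕ} (h : Valid0 D J F k) :
    F ≠ [] := by
  rintro rfl
  have h1 := h.one_le_k
  have h2 := h.k_le
  simp at h2
  omega

theorem Valid0.valid {D : List (List ℕ)} {J F : List ℕ} {k : ℕ} (h : Valid0 D J F k) (U : ℕ)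
    {k' : ℕ} (h1 : 1 ≤ k') (h2 : k' ≤ k) : Valid (trunc U D) J F k' U :=
  ⟨h.pm.trunc U, h.J_nodup, h.F_nodup, fun j hj => by simpa [trunc] using h.J_lt j hj,
    fun j hj => by simpa [trunc] using h.F_lt j hj, h1, h2.trans h.k_le,
    fun a b => by rw [dm_trunc]; exact min_le_left _ _⟩

/-- The truncated instance. -/
def sub (x : Inp0) (k r : ℕ) : Inp :=
  (trunc (lev x.2.1 r) x.1, x.2.1, x.2.2.1, k, lev x.2.1 r)

/-- The candidates for one block of coins and one radius. -/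
def cands1 (f : Inp × Raw → List ℕ) (c M : ℕ) (x : Inp0) (ρ : Raw) (r : ℕ) : List (List ℕ) :=
  f (sub x (x.2.2.2 - c) r, ρ) :: (tup x.2.2.1 M).flatMap fun R => (tup x.2.2.1 M).map fun V =>
    lloyd (dm x.1) x.2.1 x.2.2.1 (swap x.2.2.1 (f (sub x x.2.2.2 r, ρ)) R V)

/-- All candidates. -/
def cands (f : Inp × Raw → List ℕ) (c M : ℕ) (x : Inp0) (B N : ℕ) (ρ : Raw) : List (List ℕ) :=
  x.2.1 :: tup x.2.2.1 M ++ (List.range N).flatMap fun i => (0 :: x.1.flatten).flatMap fun r =>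
    cands1 f c M x ⟨(ρ.w.drop (i * B)).take B⟩ r

/-- Test for feasibility. -/
def feasB (F : List ℕ) (k : ℕ) (S : List ℕ) : Bool :=
  !S.isEmpty && S.all (fun s => decide (s ∈ F)) && decide (S.length ≤ k)

theorem feasB_iff {F S : List ℕ} {k : ℕ} : feasB F k S = true ↔ Feas F k S := by
  simp [feasB, Feas, and_assoc]

/-- The best feasible candidate. -/
def pick (x : Inp0) (L : List (List ℕ)) : List ℕ :=
  amin (cost (dm x.1) x.2.1) [x.2.2.1.headD 0] (L.filter (feasB x.2.2.1 x.2.2.2))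

theorem pick_feas {D : List (List ℕ)} {J F : List ℕ} {k : ℕ} (h : Valid0 D J F k)
    (L : List (List ℕ)) : Feas F k (pick (D, J, F, k) L) := by
  rcases amin_mem (cost (dm D) J) [F.headD 0] (L.filter (feasB F k)) with e | e
  · rw [pick, e]
    exact feas_head h.F_ne h.one_le_k
  · exact feasB_iff.1 (List.mem_filter.1 e).2

theorem pick_le (D : List (List ℕ)) (J F : List ℕ) (k : ℕ) {L : List (List ℕ)} {S : List ℕ}
    (h1 : S ∈ L) (h2 : Feas F k S) : cost (dm D) J (pick (D, J, F, k) L) ≤ cost (dm D) J S :=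
  amin_le (cost (dm D) J) _ (List.mem_filter.2 ⟨h1, feasB_iff.2 h2⟩)

/-! ### Polynomial time -/

section pt

variable {α : Type} [Enc α]

theorem pt_tup {L : α → List ℕ} (hL : PT ∅ L) (M : ℕ) : PT ∅ fun a => tup (L a) M := by
  induction M with
  | zero => exact PT.const _
  | succ M ih =>
    exact PT.cons PT.nil (PT.flatMap ih (PT.map (hL.comp PT.fst') (PT.cons PT.snd' PT.fst'.snd)))

theorem pt_lloyd {D : α → List (List ℕ)} {J F T : α → List ℕ} (hD : PT ∅ D) (hJ : PT ∅ J)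
    (hF : PT ∅ F) (hT : PT ∅ T) : PT ∅ fun a => lloyd (dm (D a)) (J a) (F a) (T a) := by
  have h1 : PT ∅ fun p : α × ℕ => cell (dm (D p.1)) (J p.1) (T p.1) p.2 :=
    PT.filter (hJ.comp PT.fst') ((pt_near (hD.comp PT.fst'.fst) PT.snd'
      (hT.comp PT.fst'.fst)).eqNat PT.fst'.snd)
  refine PT.map hT (pt_amin (f := fun (p : α × ℕ) f =>
    ((cell (dm (D p.1)) (J p.1) (T p.1) p.2).map fun j => dm (D p.1) j f).sum) ?_
    ((hF.comp PT.fst').headD (PT.const 0)) (hF.comp PT.fst'))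
  exact PT.sum (PT.map (h1.comp PT.fst') (pt_dm (hD.comp PT.fst'.fst.fst) PT.snd' PT.fst'.snd))

theorem pt_swap {F T R V : α → List ℕ} (hF : PT ∅ F) (hT : PT ∅ T) (hR : PT ∅ R) (hV : PT ∅ V) :
    PT ∅ fun a => swap (F a) (T a) (R a) (V a) :=
  PT.append (PT.filter hF (PT.decide_and (PT.mem (hT.comp PT.fst') PT.snd')
    (PT.decide_not (PT.mem (hR.comp PT.fst') PT.snd')))) hV

theorem pt_sub {x : α → Inp0} {k r : α → ℕ} (hx : PT ∅ x) (hk : PT ∅ k) (hr : PT ∅ r) :
    PT ∅ fun a => sub (x a) (k a) (r a) := by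
  have h1 : PT ∅ fun a => lev (x a).2.1 (r a) :=
    ((((PT.const 3).mul (hx.snd.fst.length.add (PT.const 1))).mul hr).add (PT.const 1))
  refine PT.pair (PT.map hx.fst (PT.map PT.snd' (PT.min (h1.comp PT.fst'.fst) PT.snd')))
    (hx.snd.fst.pair (hx.snd.snd.fst.pair (hk.pair h1)))

theorem pt_cands1 {f : Inp × Raw → List ℕ} (hf : PT ∅ f) (c M : ℕ) {x : α → Inp0} {ρ : α → Raw}
    {r : α → ℕ} (hx : PT ∅ x) (hρ : PT ∅ ρ) (hr : PT ∅ r) :
    PT ∅ fun a => cands1 f c M (x a) (ρ a) (r a) := by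
  have h1 : PT ∅ fun a => f (sub (x a) (x a).2.2.2 (r a), ρ a) :=
    hf.comp ((pt_sub hx hx.snd.snd.snd hr).pair hρ)
  have h2 : PT ∅ fun p : (α × List ℕ) × List ℕ => x p.1.1 := hx.comp PT.fst'.fst
  exact PT.cons (hf.comp ((pt_sub hx (hx.snd.snd.snd.sub (PT.const c)) hr).pair hρ))
    (PT.flatMap (pt_tup hx.snd.snd.fst M) (PT.map (pt_tup (hx.comp PT.fst').snd.snd.fst M)
      (pt_lloyd h2.fst h2.snd.fst h2.snd.snd.fst
        (pt_swap h2.snd.snd.fst (h1.comp PT.fst'.fst) PT.fst'.snd PT.snd'))))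

theorem pt_cands {f : Inp × Raw → List ℕ} (hf : PT ∅ f) (c M : ℕ) {x : α → Inp0} {B N : α → ℕ}
    {ρ : α → Raw} (hx : PT ∅ x) (hB : PT ∅ B) (hN : PT ∅ N) (hNb : PBd N) (hρ : PT ∅ ρ) :
    PT ∅ fun a => cands f c M (x a) (B a) (N a) (ρ a) := by
  have h1 : PT ∅ fun p : (α × ℕ) × ℕ => B p.1.1 := hB.comp PT.fst'.fst
  refine PT.append (PT.cons hx.snd.fst (pt_tup hx.snd.snd.fst M)) (PT.flatMap (PT.range hN hNb)
    (PT.flatMap (PT.cons (PT.const 0) (hx.comp PT.fst').fst.flatten) ?_))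
  exact pt_cands1 hf c M (hx.comp PT.fst'.fst)
    (PT.rawTake (PT.rawDrop (hρ.comp PT.fst'.fst) (PT.fst'.snd.mul h1)) h1) PT.snd'

theorem pt_pick {x : α → Inp0} {L : α → List (List ℕ)} (hx : PT ∅ x) (hL : PT ∅ L) :
    PT ∅ fun a => pick (x a) (L a) := by
  have h1 : PT ∅ fun p : α × List ℕ => x p.1 := hx.comp PT.fst'
  refine pt_amin (f := fun a S => cost (dm (x a).1) (x a).2.1 S)
    (pt_cost h1.fst h1.snd.fst PT.snd') (PT.cons (hx.snd.snd.fst.headD (PT.const 0)) PT.nil)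
    (PT.filter hL ?_)
  exact (PT.snd'.isEmpty.not.and (PT.all PT.snd' (PT.mem (h1.comp PT.fst').snd.snd.fst
    PT.snd'))).and (PT.snd'.length.le h1.snd.snd.snd)

end pt

/-! ### Analysis -/

theorem one_add_pow_le {β : ℝ} (h0 : 0 ≤ β) (h1 : β ≤ 1) (c : ℕ) :
    (1 + β) ^ c ≤ 1 + (2 ^ c - 1) * β := by
  induction c with
  | zero => simp
  | succ c ih =>
    have h2 : (1 : ℝ) ≤ 2 ^ c := one_le_pow₀ (by norm_num)
    rw [pow_succ, pow_succ]
    nlinarith [mul_le_mul_of_nonneg_right ih (by linarith : 0 ≤ 1 + β),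
      mul_nonneg (mul_nonneg (sub_nonneg.2 h2) h0) (sub_nonneg.2 h1)]

/-- If the pseudo-approximation succeeds on one well chosen instance, a good candidate appears. -/
theorem exists_target {α η : ℝ} (hα : 1 ≤ α) (hα2 : α ≤ 2) (hη : 0 < η) (hη1 : η ≤ 1 / 10)
    (c : ℕ) : ∃ M : ℕ, ∀ (D : List (List ℕ)) (J F : List ℕ) (k : ℕ), Valid0 D J F k →
      (∃ S ∈ tup F M, Feas F k S ∧ cost (dm D) J S = opt (dm D) J F k) ∨
      ∃ k' r, 1 ≤ k' ∧ k' ≤ k ∧ r ∈ 0 :: D.flatten ∧ ∀ (f : Inp × Raw → List ℕ) (ρ : Raw),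
        Good (α + η) η c (trunc (lev J r) D) J F k' (lev J r) (f (sub (D, J, F, k) k' r, ρ)) →
        ∃ S ∈ cands1 f c M (D, J, F, k) ρ r, Feas F k S ∧
          (cost (dm D) J S : ℝ) ≤ (α + 8 * η) * opt (dm D) J F k := by
  set β : ℝ := η / 2 ^ c with hβ
  have h2c : (1 : ℝ) ≤ 2 ^ c := one_le_pow₀ (by norm_num)
  have hβ0 : 0 < β := by positivity
  have hβη : β * 2 ^ c = η := div_mul_cancel₀ _ (by positivity)
  have hβ1 : β ≤ 1 := by nlinarith
  have hpow : ∀ i ≤ c, (1 + β) ^ i ≤ 1 + η := fun i hi =>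
    (pow_le_pow_right₀ (by linarith) hi).trans ((one_add_pow_le hβ0.le hβ1 c).trans (by nlinarith))
  obtain ⟨M, hM⟩ := exists_nat_ge (4 / (η / 10 * β))
  rw [div_le_iff₀ (by positivity)] at hM
  refine ⟨M + 2 * c, fun D J F k hv => ?_⟩
  have h0 : (0 : ℝ) ≤ opt (dm D) J F k := Nat.cast_nonneg _
  by_cases hk : k ≤ c
  · obtain ⟨O, hO, -, e⟩ := exists_opt (dm D) J hv.F_ne hv.one_le_k
    exact Or.inl ⟨O, mem_tup hO.2.1 (by have := hO.2.2; omega), hO, e⟩
  right
  rcases dichotomy (fun k => (opt (dm D) J F k : ℝ)) hβ0.le k c with h | ⟨i, hi, h1, h2⟩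
  · obtain ⟨r, hr, r1, r2⟩ := exists_radius D J hv.F_ne (show 1 ≤ k - c by omega)
    refine ⟨k - c, r, by omega, by omega, hr, fun f ρ hg => ⟨_, List.mem_cons_self,
      hg.1.mono (by omega), ?_⟩⟩
    refine (trunc_good hv.F_ne (by omega) (by linarith) (by linarith) hη (by linarith) r1 r2
      hg).trans ?_
    have h3 := h.trans (mul_le_mul_of_nonneg_right (hpow c le_rfl) h0)
    refine (mul_le_mul_of_nonneg_left h3 (by linarith)).trans ?_
    rw [← mul_assoc]
    exact mul_le_mul_of_nonneg_right (by nlinarith) h0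
  · obtain ⟨r, hr, r1, r2⟩ := exists_radius D J hv.F_ne hv.one_le_k
    refine ⟨k, r, hv.one_le_k, le_rfl, hr, fun f ρ hg => ?_⟩
    have h3 := trunc_good hv.F_ne hv.one_le_k (by linarith) (by linarith) hη (by linarith) r1 r2 hg
    have h4 : (opt (dm D) J F k : ℝ) ≤ opt (dm D) J F (k - i) := by
      exact_mod_cast opt_anti (dm D) J hv.F_ne (by omega) (Nat.sub_le k i)
    obtain ⟨R, V, s1, s2, s3, s4, s5, s6, s7⟩ := stable hv.pm hv.J_nodup hv.F_nodup
      (k := k - i) (c := c + i) (M := M) (by omega) (hg.1.mono (by omega)) (a := 3) (γ := η / 10)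
      hβ0 (by positivity) (by linarith) (h3.trans (by nlinarith)) h2 (by linarith)
    refine ⟨_, List.mem_cons_of_mem _ (List.mem_flatMap.2 ⟨R, mem_tup s1 (by omega),
      List.mem_map.2 ⟨V, mem_tup s2 (by omega), rfl⟩⟩),
      lloyd_feas _ J hv.F_ne s5 (s6.trans (Nat.sub_le _ _)), ?_⟩
    have h5 := h1.trans (mul_le_mul_of_nonneg_right (hpow i hi.le) h0)
    refine le_of_mul_le_mul_left (s7.trans ?_) (show 0 < 1 - 2 * (η / 10) by linarith)
    refine (mul_le_mul_of_nonneg_left h5 (by linarith)).trans ?_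
    rw [← mul_assoc, ← mul_assoc]
    exact mul_le_mul_of_nonneg_right (by nlinarith) h0

theorem cost_le_two_pow (D : List (List ℕ)) (J F : List ℕ) (k : ℕ) (S : List ℕ) :
    cost (dm D) J S ≤ 2 ^ (2 * esize ((D, J, F, k) : Inp0)) := by
  have h1 : esize D ≤ esize ((D, J, F, k) : Inp0) := esize_fst_le ((D, J, F, k) : Inp0)
  have h2 : J.length ≤ esize ((D, J, F, k) : Inp0) :=
    (length_le_esize J).trans ((esize_fst_le (J, F, k)).trans
      (esize_snd_le ((D, J, F, k) : Inp0)))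
  have h3 : ∀ a b, dm D a b ≤ 2 ^ esize ((D, J, F, k) : Inp0) := by
    intro a b
    rcases List.mem_cons.1 (dm_mem D a b) with h | h
    · rw [h]; exact Nat.zero_le _
    · exact (lt_two_pow_esize _).le.trans (Nat.pow_le_pow_right (by norm_num)
        ((esize_le_of_mem h).trans ((esize_flatten_le D).trans h1)))
  have h4 := List.sum_le_card_nsmul (J.map fun j => dl (dm D) j S)
    (2 ^ esize ((D, J, F, k) : Inp0)) fun x hx => by
      obtain ⟨j, -, rfl⟩ := List.mem_map.1 hx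
      exact h3 _ _
  rw [List.length_map, smul_eq_mul] at h4
  refine h4.trans ?_
  rw [two_mul, pow_add]
  exact Nat.mul_le_mul_right _ (h2.trans Nat.lt_two_pow_self.le)

theorem cost_self {d : ℕ → ℕ → ℕ} (hd : PM d) (J : List ℕ) : cost d J J = 0 := by
  refine List.sum_eq_zero fun x hx => ?_
  obtain ⟨j, hj, rfl⟩ := List.mem_map.1 hx
  have := dl_le d j hj
  rw [hd.self] at this
  omega

theorem zero_case {D : List (List ℕ)} {J F : List ℕ} {k : ℕ} (hv : Valid0 D J F k)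
    (h : opt (dm D) J F k = 0) (L : List (List ℕ)) :
    cost (dm D) J (pick (D, J, F, k) (J :: L)) = 0 := by
  rcases eq_or_ne J [] with rfl | hJ
  · rfl
  obtain ⟨O, hO, -, e⟩ := exists_opt (dm D) J hv.F_ne hv.one_le_k
  have h1 : ∀ j ∈ J, j ∈ O := by
    intro j hj
    have h2 := dl_le_cost (dm D) O hj
    have h3 := near_mem (dm D) j hO.1
    rw [hv.strict j hj _ (hO.2.1 _ h3) (by rw [dl] at h2; omega)]
    exact h3
  have h2 : Feas F k J := ⟨hJ, fun j hj => hO.2.1 j (h1 j hj),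
    ((List.subperm_of_subset hv.J_nodup h1).length_le).trans hO.2.2⟩
  have := pick_le D J F k (L := J :: L) List.mem_cons_self h2
  rw [cost_self hv.pm] at this
  omega

theorem avg_le {m : ℕ} (X : List Bool → ℝ) (P : List Bool → Prop) {A W : ℝ} (hA : 0 ≤ A)
    (h1 : ∀ ρ, X ρ ≤ W) (h2 : ∀ ρ, ¬ P ρ → X ρ ≤ A) :
    (∑ ρ : Fin m → Bool, X (List.ofFn ρ)) / 2 ^ m ≤ A + W * frq m P := by
  classical
  unfold frq
  rw [div_le_iff₀ (by positivity), add_mul, mul_assoc, div_mul_cancel₀ _ (by positivity),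
    card_filter, Nat.cast_sum, mul_sum]
  have : A * 2 ^ m = ∑ _ρ : Fin m → Bool, A := by simp [mul_comm]
  rw [this, ← sum_add_distrib]
  refine sum_le_sum fun ρ _ => ?_
  split_ifs with h
  · have := h1 (List.ofFn ρ)
    push_cast
    linarith
  · simpa using h2 _ h

/-- From pseudo-approximation to approximation. -/
theorem outer {α : ℝ} (hα : 1 ≤ α) (hα2 : α ≤ 2) (h : Pseudo α) {ε : ℝ} (hε : 0 < ε) :
    ∃ (g : Inp0 × Raw → List ℕ) (e : ℕ), PT ∅ g ∧
      ∀ (D : List (List ℕ)) (J F : List ℕ) (k : ℕ), Valid0 D J F k →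
        (∀ ρ, Feas F k (g ((D, J, F, k), ρ))) ∧ ∀ m, pb e (esize ((D, J, F, k) : Inp0)) ≤ m →
          (∑ ρ : Fin m → Bool, (cost (dm D) J (g ((D, J, F, k), ⟨List.ofFn ρ⟩)) : ℝ)) / 2 ^ m ≤
            (α + ε) * opt (dm D) J F k := by
  set η : ℝ := min (ε / 10) (1 / 10) with hη
  have hη0 : 0 < η := lt_min (by linarith) (by norm_num)
  have hη1 : η ≤ ε / 10 := min_le_left _ _
  obtain ⟨c, e, p, f, hp, hf, h⟩ := h η hη0
  obtain ⟨M, hM⟩ := exists_target hα hα2 hη0 (min_le_right _ _) c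
  obtain ⟨b, ⟨e1, he1⟩, hb⟩ := PT.bound_mem (A := ∅)
    (l := fun x : Inp0 => (0 : ℕ) :: x.1.flatten) (f := fun x r => sub x x.2.2.2 r)
    (PT.cons (PT.const 0) PT.fst'.flatten) (pt_sub PT.fst' PT.fst'.snd.snd.snd PT.snd')
  obtain ⟨t1, ht1⟩ := exists_pow_lt_of_lt_one (show (0 : ℝ) < 1 / 2 by norm_num)
    (show max (1 - p) 0 < 1 from max_lt (by linarith) one_pos)
  obtain ⟨t2, ht2⟩ := exists_pow_lt_of_lt_one hη0 (show (1 / 2 : ℝ) < 1 by norm_num)
  obtain ⟨e2, he2⟩ : PB fun n => (t1 * (2 * n + t2)) * pb e (pb e1 n) :=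
    ((PB.const t1).mul (((PB.const 2).mul PB.id).add (PB.const t2))).mul
      ((PB.pb e).comp (PB.pb e1))
  have hsz : PT ∅ fun z : Inp0 × Raw => esize z.1 := PT.fst'.size
  refine ⟨fun z => pick z.1 (cands f c M z.1 (pb e (pb e1 (esize z.1)))
    (t1 * (2 * esize z.1 + t2)) z.2), e2, ?_, fun D J F k hv => ⟨fun ρ => pick_feas hv _,
      fun m hm => ?_⟩⟩
  · refine pt_pick PT.fst' (pt_cands hf c M PT.fst' ?_
      ((PT.const t1).mul (((PT.const 2).mul hsz).add (PT.const t2))) ?_ PT.snd')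
    · exact (((hsz.add (PT.const 2)).powConst e1).add (PT.const 2)).powConst e
    · exact (PBd.const t1).mul (((PBd.const 2).mul (PT.fst' (A := ∅)).pbd).add (PBd.const t2))
  set s := esize ((D, J, F, k) : Inp0) with hs
  set B := pb e (pb e1 s) with hB
  set N := t1 * (2 * s + t2) with hN
  have h0 : (0 : ℝ) ≤ opt (dm D) J F k := Nat.cast_nonneg _
  have hdet : ∀ A : ℝ, (∀ ρ : List Bool, (cost (dm D) J (pick (D, J, F, k)
      (cands f c M (D, J, F, k) B N ⟨ρ⟩)) : ℝ) ≤ A) →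
      (∑ ρ : Fin m → Bool, (cost (dm D) J (pick (D, J, F, k)
        (cands f c M (D, J, F, k) B N ⟨List.ofFn ρ⟩)) : ℝ)) / 2 ^ m ≤ A := by
    intro A hA
    rw [div_le_iff₀ (by positivity)]
    refine (sum_le_sum fun ρ _ => hA _).trans ?_
    simp [mul_comm]
  rcases Nat.eq_zero_or_pos (opt (dm D) J F k) with h00 | hpos
  · refine hdet _ fun ρ => ?_
    rw [cands, List.cons_append, zero_case hv h00, Nat.cast_zero]
    positivity
  rcases hM D J F k hv with ⟨S, s1, s2, s3⟩ | ⟨k', r, k1, k2, hr, hg⟩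
  · refine hdet _ fun ρ => ?_
    have h1 := pick_le D J F k (L := cands f c M (D, J, F, k) B N ⟨ρ⟩)
      (List.mem_append_left _ (List.mem_cons_of_mem _ s1)) s2
    rw [s3] at h1
    have h2 : (cost (dm D) J (pick (D, J, F, k) (cands f c M (D, J, F, k) B N ⟨ρ⟩)) : ℝ) ≤
      opt (dm D) J F k := by exact_mod_cast h1
    nlinarith
  set P : List Bool → Prop := fun ρ =>
    Good (α + η) η c (trunc (lev J r) D) J F k' (lev J r) (f (sub (D, J, F, k) k' r, ⟨ρ⟩)) with hP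
  have hsize : esize (sub (D, J, F, k) k' r) ≤ pb e1 s := by
    refine le_trans ?_ ((hb (D, J, F, k) r hr).trans (he1 _))
    simp only [sub, esize_pair]
    have := esize_nat_mono k2
    omega
  have h1 : p ≤ frq B P := h _ J F k' _ (hv.valid _ k1 k2) B (pb_mono e hsize)
  have h2 := avg_le (m := m) (fun ρ => (cost (dm D) J (pick (D, J, F, k)
      (cands f c M (D, J, F, k) B N ⟨ρ⟩)) : ℝ))
    (fun ρ => ∀ i < N, ¬ P ((ρ.drop (i * B)).take B)) (A := (α + 8 * η) * opt (dm D) J F k)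
    (W := 2 ^ (2 * s)) (by positivity)
    (fun ρ => by exact_mod_cast cost_le_two_pow D J F k _) (fun ρ hρ => by
      push Not at hρ
      obtain ⟨i, hi, hρ⟩ := hρ
      obtain ⟨S, s1, s2, s3⟩ := hg f _ hρ
      refine le_trans ?_ s3
      exact_mod_cast pick_le D J F k (L := cands f c M (D, J, F, k) B N ⟨ρ⟩)
        (List.mem_append_right _ (List.mem_flatMap.2 ⟨i, List.mem_range.2 hi,
          List.mem_flatMap.2 ⟨r, hr, s1⟩⟩)) s2)
  refine h2.trans ?_
  rw [frq_blocks B N m ((he2 s).trans hm) fun ρ => ¬ P ρ, frq_not]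
  have h3 : (1 - frq B P) ^ N ≤ (1 / 2) ^ (2 * s + t2) := by
    have h4 : 0 ≤ 1 - frq B P := by rw [← frq_not]; exact frq_nonneg _ _
    rw [hN, pow_mul]
    refine pow_le_pow_left₀ (pow_nonneg h4 _) (le_trans (pow_le_pow_left₀ h4 ?_ _) ht1.le) _
    exact le_trans (by linarith) (le_max_left _ _)
  have h4 : (2 : ℝ) ^ (2 * s) * (1 - frq B P) ^ N ≤ η := by
    refine (mul_le_mul_of_nonneg_left h3 (by positivity)).trans ?_
    rw [pow_add, ← mul_assoc, ← mul_pow]
    norm_num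
    simpa using ht2.le
  have h5 : (1 : ℝ) ≤ opt (dm D) J F k := by exact_mod_cast hpos
  nlinarith

end Vale.Agent.P334
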