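import Mathlib.Analysis.SpecialFunctions.ExpDeriv
import Mathlib.Analysis.Calculus.Deriv.MeanValue
import Mathlib.Analysis.Complex.ExponentialBounds

/-!
The coefficients `p, q` of the client potential: `q + p a` is the tangent line at `τ` of
`a ↦ 3 - 2 (1 - exp (-a)) / a`.
-/

namespace Vale.Agent.P334

open Real

/-- Slope of the tangent line. -/
noncomputable def pp (τ : ℝ) : ℝ := 2 * (1 - (1 + τ) * exp (-τ)) / τ ^ 2

/-- Intercept of the tangent line. -/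
noncomputable def qq (τ : ℝ) : ℝ := 3 - 2 * exp (-τ) - 2 * pp τ * τ

theorem exp_neg_taylor {τ : ℝ} (h0 : 0 ≤ τ) (h1 : τ ≤ 1) :
    |exp (-τ) - (1 - τ + τ ^ 2 / 2 - τ ^ 3 / 6 + τ ^ 4 / 24 - τ ^ 5 / 120)| ≤ 7 * τ ^ 6 / 4320 := by
  have habs : |(-τ)| ≤ 1 := by rw [abs_neg, abs_of_nonneg h0]; exact h1
  have h := Real.exp_bound habs (n := 6) (by norm_num)
  rw [abs_neg, abs_of_nonneg h0] at h
  simp only [Finset.sum_range_succ, Finset.sum_range_zero, Nat.factorial] at h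
  norm_num at h
  convert h using 2 <;> ring

theorem pp_mul {τ : ℝ} (h0 : 0 < τ) : pp τ * τ ^ 2 = 2 * (1 - (1 + τ) * exp (-τ)) := by
  unfold pp; field_simp

theorem qq_mul {τ : ℝ} (h0 : 0 < τ) : qq τ * τ = 3 * τ - 4 + exp (-τ) * (4 + 2 * τ) := by
  have h := pp_mul h0
  unfold qq; nlinarith [h]

/-- Two-sided polynomial bounds for `p`. -/
theorem pp_bounds {τ : ℝ} (h0 : 0 < τ) (h1 : τ ≤ 1) :
    1 - 2 * τ / 3 + τ ^ 2 / 4 - τ ^ 3 / 15 + τ ^ 4 / 100 ≤ pp τ ∧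
      pp τ ≤ 1 - 2 * τ / 3 + τ ^ 2 / 4 - τ ^ 3 / 15 + τ ^ 4 / 40 := by
  have hE := abs_le.mp (exp_neg_taylor h0.le h1)
  have hm := pp_mul h0
  have h2 : 0 < τ ^ 2 := by positivity
  have h6 : 0 ≤ τ ^ 6 := by positivity
  have h7 : τ * τ ^ 6 ≤ τ ^ 6 := by nlinarith
  set r := exp (-τ) - (1 - τ + τ ^ 2 / 2 - τ ^ 3 / 6 + τ ^ 4 / 24 - τ ^ 5 / 120) with hr
  have hr1 : (1 + τ) * r ≤ 14 * τ ^ 6 / 4320 := by nlinarith [hE.1, hE.2]
  have hr2 : -(14 * τ ^ 6 / 4320) ≤ (1 + τ) * r := by nlinarith [hE.1, hE.2]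
  have key : pp τ * τ ^ 2 = (1 - 2 * τ / 3 + τ ^ 2 / 4 - τ ^ 3 / 15 + τ ^ 4 / 60) * τ ^ 2
      - 2 * ((1 + τ) * r) := by rw [hm, hr]; ring
  constructor
  · refine le_of_mul_le_mul_right ?_ h2
    rw [key]; nlinarith
  · refine le_of_mul_le_mul_right ?_ h2
    rw [key]; nlinarith

/-- Two-sided polynomial bounds for `q`. -/
theorem qq_bounds {τ : ℝ} (h0 : 0 < τ) (h1 : τ ≤ 1) :
    1 + τ ^ 2 / 3 - τ ^ 3 / 6 + τ ^ 4 / 20 - τ ^ 5 / 37 ≤ qq τ ∧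
      qq τ ≤ 1 + τ ^ 2 / 3 - τ ^ 3 / 6 + τ ^ 4 / 20 - τ ^ 5 / 150 := by
  have hE := abs_le.mp (exp_neg_taylor h0.le h1)
  have hm := qq_mul h0
  have h6 : 0 ≤ τ ^ 6 := by positivity
  have h7 : τ * τ ^ 6 ≤ τ ^ 6 := by nlinarith
  set r := exp (-τ) - (1 - τ + τ ^ 2 / 2 - τ ^ 3 / 6 + τ ^ 4 / 24 - τ ^ 5 / 120) with hr
  have hr1 : (4 + 2 * τ) * r ≤ 42 * τ ^ 6 / 4320 := by nlinarith [hE.1, hE.2]
  have hr2 : -(42 * τ ^ 6 / 4320) ≤ (4 + 2 * τ) * r := by nlinarith [hE.1, hE.2]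
  have key : qq τ * τ = (1 + τ ^ 2 / 3 - τ ^ 3 / 6 + τ ^ 4 / 20 - τ ^ 5 / 60) * τ
      + (4 + 2 * τ) * r := by rw [hm, hr]; ring
  constructor
  · refine le_of_mul_le_mul_right ?_ h0
    rw [key]; nlinarith
  · refine le_of_mul_le_mul_right ?_ h0
    rw [key]; nlinarith

theorem one_le_qq {τ : ℝ} (h0 : 0 < τ) (h1 : τ ≤ 1) : 1 ≤ qq τ := by
  have h := (qq_bounds h0 h1).1
  have h2 : 0 ≤ τ ^ 2 := by positivity
  have h3 : τ ^ 3 ≤ τ ^ 2 := by nlinarith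
  have h4 : 0 ≤ τ ^ 4 := by positivity
  have h5 : τ ^ 5 ≤ τ ^ 4 := by nlinarith
  linarith

theorem qq_le {τ : ℝ} (h0 : 0 < τ) (h1 : τ ≤ 1) : qq τ ≤ 1 + τ ^ 2 / 3 := by
  have h := (qq_bounds h0 h1).2
  have h3 : 0 ≤ τ ^ 3 := by positivity
  have h4 : τ ^ 4 ≤ τ ^ 3 := by nlinarith
  have h5 : 0 ≤ τ ^ 5 := by positivity
  linarith

/-- `2 - q - p - p τ / 2 = (1 - τ) (q - 1) / (2 τ)`. -/
theorem pq_identity {τ : ℝ} (h0 : 0 < τ) :
    (2 - qq τ - pp τ - pp τ * τ / 2) * (2 * τ) = (1 - τ) * (qq τ - 1) := by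
  have hp := pp_mul h0
  have hq := qq_mul h0
  refine mul_right_cancel₀ h0.ne' ?_
  linear_combination (-(2 + τ)) * hp - (1 + τ) * hq

theorem pq_le_two {τ : ℝ} (h0 : 0 < τ) (h1 : τ ≤ 1) : qq τ + pp τ + pp τ * τ / 2 ≤ 2 := by
  have h := pq_identity h0
  have hq := one_le_qq h0 h1
  have h2 : 0 ≤ (2 - qq τ - pp τ - pp τ * τ / 2) * (2 * τ) := by
    rw [h]; exact mul_nonneg (by linarith) (by linarith)
  have := nonneg_of_mul_nonneg_left h2 (by linarith)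
  linarith

theorem half_le_pp {τ : ℝ} (h0 : 0 < τ) (h1 : τ ≤ 1) : 1 / 2 ≤ pp τ := by
  have h := (pp_bounds h0 h1).1
  have h2 : 0 ≤ τ ^ 2 := by positivity
  have h3 : τ ^ 3 ≤ τ ^ 2 := by nlinarith
  have h4 : 0 ≤ τ ^ 4 := by positivity
  nlinarith [sq_nonneg (1 - τ)]

theorem pp_le_one {τ : ℝ} (h0 : 0 < τ) (h1 : τ ≤ 1) : pp τ ≤ 1 := by
  have h := (pp_bounds h0 h1).2
  have h2 : τ ^ 2 ≤ τ := by nlinarith
  have h3 : 0 ≤ τ ^ 3 := by positivity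
  have h4 : τ ^ 4 ≤ τ ^ 3 := by nlinarith
  linarith

theorem exp_le_pp {τ : ℝ} (h0 : 0 < τ) : exp (-τ) ≤ pp τ := by
  have hm := pp_mul h0
  have h2 : 0 < τ ^ 2 := by positivity
  have hq := Real.quadratic_le_exp_of_nonneg h0.le
  have hE : exp (-τ) * exp τ = 1 := by rw [← exp_add]; simp
  have hpos := exp_pos (-τ)
  refine le_of_mul_le_mul_right ?_ h2
  rw [hm]
  nlinarith [mul_le_mul_of_nonneg_left hq hpos.le]

theorem pp_le_exp_add {τ : ℝ} (h0 : 0 < τ) (h1 : τ ≤ 1) : pp τ ≤ exp (-τ) + τ := by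
  have := pp_le_one h0 h1
  have := Real.add_one_le_exp (-τ)
  linarith

theorem qq_add_pp_one : qq 1 + pp 1 = 1 + 2 / exp 1 := by
  unfold qq pp
  rw [exp_neg]
  field_simp
  ring

theorem hasDerivAt_pp {τ : ℝ} (h0 : 0 < τ) :
    HasDerivAt pp (-(2 * (pp τ - exp (-τ)) / τ)) τ := by
  have h1 : HasDerivAt (fun t : ℝ => exp (-t)) (exp (-τ) * (-1)) τ :=
    (hasDerivAt_neg τ).exp
  have h2 : HasDerivAt (fun t : ℝ => 2 * (1 - (1 + t) * exp (-t)))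
      (2 * (0 - (1 * exp (-τ) + (1 + τ) * (exp (-τ) * (-1))))) τ :=
    ((hasDerivAt_const τ (1 : ℝ)).sub (((hasDerivAt_id τ).const_add 1).mul h1)).const_mul 2
  have h3 : HasDerivAt (fun t : ℝ => t ^ 2) (2 * τ) τ := by
    simpa using hasDerivAt_pow 2 τ
  have h4 := h2.div h3 (by positivity)
  have e : -(2 * (pp τ - exp (-τ)) / τ) =
      (2 * (0 - (1 * exp (-τ) + (1 + τ) * (exp (-τ) * (-1)))) * τ ^ 2 -
        2 * (1 - (1 + τ) * exp (-τ)) * (2 * τ)) / (τ ^ 2) ^ 2 := by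
    unfold pp
    field_simp
    ring
  rw [e]
  exact h4

/-- `p` decreases. -/
theorem pp_anti {s t : ℝ} (hs : 0 < s) (hst : s ≤ t) : pp t ≤ pp s := by
  have hA : AntitoneOn pp (Set.Ioi 0) := by
    refine antitoneOn_of_deriv_nonpos (convex_Ioi 0) ?_ ?_ ?_
    · exact fun x hx => (hasDerivAt_pp hx).continuousAt.continuousWithinAt
    · rw [interior_Ioi]
      exact fun x hx => (hasDerivAt_pp hx).differentiableAt.differentiableWithinAt
    · rw [interior_Ioi]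
      intro x hx
      have hx' : (0 : ℝ) < x := hx
      rw [(hasDerivAt_pp hx).deriv]
      have := exp_le_pp hx'
      have : 0 ≤ 2 * (pp x - exp (-x)) / x := div_nonneg (by linarith) hx'.le
      linarith
  exact hA hs (lt_of_lt_of_le hs hst) hst

/-- `p` is `2`-Lipschitz. -/
theorem pp_lip {s t : ℝ} (hs : 0 < s) (hst : s ≤ t) (ht : t ≤ 1) : pp s ≤ pp t + 2 * (t - s) := by
  have hd : ∀ x : ℝ, 0 < x → HasDerivAt (fun y => pp y + 2 * y)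
      (-(2 * (pp x - exp (-x)) / x) + 2 * 1) x :=
    fun x hx => (hasDerivAt_pp hx).add ((hasDerivAt_id x).const_mul 2)
  have hA : MonotoneOn (fun y => pp y + 2 * y) (Set.Ioc 0 1) := by
    refine monotoneOn_of_deriv_nonneg (convex_Ioc 0 1) ?_ ?_ ?_
    · exact fun x hx => (hd x hx.1).continuousAt.continuousWithinAt
    · rw [interior_Ioc]
      exact fun x hx => (hd x hx.1).differentiableAt.differentiableWithinAt
    · rw [interior_Ioc]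
      intro x hx
      rw [(hd x hx.1).deriv]
      have h1 := pp_le_exp_add hx.1 hx.2.le
      have : 2 * (pp x - exp (-x)) / x ≤ 2 := by
        rw [div_le_iff₀ hx.1]; linarith
      linarith
  have := hA ⟨hs, hst.trans ht⟩ ⟨lt_of_lt_of_le hs hst, ht⟩ hst
  simp only at this
  linarith

theorem pp_step {τ δ : ℝ} (h0 : 0 < τ) (h1 : τ ≤ 1) (hδ : 0 ≤ δ) (hδ1 : δ ≤ 1 / 2) :
    pp (τ * (1 - δ)) ≤ pp τ + 2 * δ * (pp τ - exp (-τ)) + 20 * δ ^ 2 := by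
  have h0' : 0 < τ * (1 - δ) := mul_pos h0 (by linarith)
  have hm := pp_mul h0
  have hm' := pp_mul h0'
  have hE : exp (-(τ * (1 - δ))) = exp (-τ) * exp (τ * δ) := by rw [← exp_add]; ring_nf
  have hlin := Real.add_one_le_exp (τ * δ)
  have hEpos := exp_pos (-τ)
  have hE1 : exp (-τ) ≤ 1 := exp_le_one_iff.mpr (by linarith)
  have hp1 := pp_le_one h0 h1
  have hpE := exp_le_pp h0
  set E := exp (-τ)
  set p := pp τ
  set p' := pp (τ * (1 - δ))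
  have h2 : 0 < τ ^ 2 := by positivity
  -- `p' (1-δ)^2 ≤ p - 2 E δ (1-δ)`
  have k1 : p' * (1 - δ) ^ 2 ≤ p - 2 * E * δ * (1 - δ) := by
    refine le_of_mul_le_mul_right ?_ h2
    have e1 : p' * (1 - δ) ^ 2 * τ ^ 2 = 2 * (1 - (1 + τ * (1 - δ)) * (E * exp (τ * δ))) := by
      rw [← hE, ← hm']; ring
    have e2 : (1 + τ * (1 - δ)) * (E * (τ * δ + 1)) ≤ (1 + τ * (1 - δ)) * (E * exp (τ * δ)) :=
      mul_le_mul_of_nonneg_left (mul_le_mul_of_nonneg_left hlin hEpos.le) (by linarith)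
    rw [e1]
    nlinarith [hm, e2]
  have hd : 0 < (1 - δ) ^ 2 := by have : 0 < 1 - δ := by linarith
                                  positivity
  refine le_of_mul_le_mul_right (k1.trans ?_) hd
  have a1 : 0 ≤ δ ^ 2 := by positivity
  have a2 : 1 / 4 ≤ (1 - δ) ^ 2 := by nlinarith
  have a3 : 5 * δ ^ 2 ≤ 20 * δ ^ 2 * (1 - δ) ^ 2 := by nlinarith
  have a4 : 0 ≤ (p - E) * δ ^ 3 := by have : 0 ≤ p - E := by linarith
                                      positivity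
  have a5 : (p - E) * δ ^ 2 ≤ (1 - E) * δ ^ 2 := mul_le_mul_of_nonneg_right (by linarith) a1
  have a6 : E * δ ^ 2 ≤ δ ^ 2 := by nlinarith
  have a7 : 0 ≤ p * δ ^ 2 := mul_nonneg (by linarith) a1
  have a8 : 0 ≤ E * δ ^ 2 := mul_nonneg hEpos.le a1
  nlinarith

theorem qq_step {τ δ : ℝ} (h0 : 0 < τ) (h1 : τ ≤ 1) (hδ : 0 ≤ δ) (hδ1 : δ ≤ 1 / 2) :
    qq (τ * (1 - δ)) ≤ qq τ - 2 * δ * τ * (pp τ - exp (-τ)) + 12 * δ ^ 2 := by
  have h0' : 0 < τ * (1 - δ) := mul_pos h0 (by linarith)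
  have hm := qq_mul h0
  have hm' := qq_mul h0'
  have hE : exp (-(τ * (1 - δ))) = exp (-τ) * exp (τ * δ) := by rw [← exp_add]; ring_nf
  have hτδ : 0 ≤ τ * δ := mul_nonneg h0.le hδ
  have hτδ1 : τ * δ ≤ 1 := by nlinarith
  have hquad : exp (τ * δ) ≤ 1 + τ * δ + (τ * δ) ^ 2 := by
    have habs : |τ * δ| ≤ 1 := by rw [abs_of_nonneg hτδ]; exact hτδ1
    have := abs_le.mp (Real.abs_exp_sub_one_sub_id_le habs)
    linarith [this.2]
  have hEpos := exp_pos (-τ)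
  have hE1 : exp (-τ) ≤ 1 := exp_le_one_iff.mpr (by linarith)
  have hpE := exp_le_pp h0
  have hq : qq τ = 3 - 2 * exp (-τ) - 2 * pp τ * τ := rfl
  set E := exp (-τ)
  set p := pp τ
  set q := qq τ
  set q' := qq (τ * (1 - δ))
  have k1 : q' * (1 - δ) ≤ q - 3 * δ + 2 * E * δ + 2 * E * τ * δ + 6 * δ ^ 2 := by
    refine le_of_mul_le_mul_right ?_ h0
    have e1 : q' * (1 - δ) * τ = 3 * (τ * (1 - δ)) - 4 + E * exp (τ * δ) * (4 + 2 * (τ * (1 - δ))) := by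
      rw [← hE, ← hm']; ring
    have e2 : E * exp (τ * δ) * (4 + 2 * (τ * (1 - δ))) ≤
        E * (1 + τ * δ + (τ * δ) ^ 2) * (4 + 2 * (τ * (1 - δ))) :=
      mul_le_mul_of_nonneg_right (mul_le_mul_of_nonneg_left hquad hEpos.le) (by linarith)
    have e3 : E * (τ * δ) ^ 2 * (4 + 2 * (τ * (1 - δ))) ≤ 6 * δ ^ 2 * τ := by
      have b1 : E * (4 + 2 * (τ * (1 - δ))) ≤ 6 := by nlinarith
      have b2 : (τ * δ) ^ 2 ≤ δ ^ 2 * τ := by
        have : 0 ≤ δ ^ 2 * τ := by positivity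
        nlinarith
      have b3 : 0 ≤ (τ * δ) ^ 2 := by positivity
      nlinarith
    have e4 : 0 ≤ E * (τ * δ) ^ 2 := by positivity
    rw [e1]
    nlinarith [hm, e2, e3, e4]
  have hd : 0 < 1 - δ := by linarith
  refine le_of_mul_le_mul_right (k1.trans ?_) hd
  have a1 : 0 ≤ δ ^ 2 := by positivity
  have a2 : 0 ≤ δ ^ 2 * τ * (p - E) := by have : 0 ≤ p - E := by linarith
                                          positivity
  have a3 : 6 * δ ^ 2 ≤ 12 * δ ^ 2 * (1 - δ) := by nlinarith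
  rw [hq]
  nlinarith

/-- One tick of the clock, multiplicative form. -/
theorem pq_step {τ δ a : ℝ} (h0 : 0 < τ) (h1 : τ ≤ 1) (hδ : 0 ≤ δ) (hδ1 : δ ≤ 1 / 2)
    (ha : 0 ≤ a) (ha1 : a ≤ 1) :
    qq (τ * (1 - δ)) + pp (τ * (1 - δ)) * a ≤
      qq τ + pp τ * a + 2 * δ * (pp τ - exp (-τ)) * (a - τ) + 32 * δ ^ 2 := by
  have hp := mul_le_mul_of_nonneg_right (pp_step h0 h1 hδ hδ1) ha
  have hq := qq_step h0 h1 hδ hδ1
  have a1 : 0 ≤ δ ^ 2 := by positivity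
  nlinarith

/-- One tick of the clock `θ ↦ θ + h`, `τ = exp (-θ)`. -/
theorem pq_tick {θ h a : ℝ} (hθ : 0 ≤ θ) (hh : 0 ≤ h) (hh1 : h ≤ 1 / 2)
    (ha : 0 ≤ a) (ha1 : a ≤ 1) :
    qq (exp (-(θ + h))) + pp (exp (-(θ + h))) * a ≤
      qq (exp (-θ)) + pp (exp (-θ)) * a +
        2 * h * (pp (exp (-θ)) - exp (-exp (-θ))) * (a - exp (-θ)) + 34 * h ^ 2 := by
  have h0 := exp_pos (-θ)
  have h1 : exp (-θ) ≤ 1 := exp_le_one_iff.mpr (by linarith)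
  have hl := Real.add_one_le_exp (-h)
  have hu : exp (-h) ≤ 1 - h + h ^ 2 := by
    have habs : |(-h)| ≤ 1 := by rw [abs_neg, abs_of_nonneg hh]; linarith
    have := abs_le.mp (Real.abs_exp_sub_one_sub_id_le habs)
    nlinarith [this.2]
  have hE1 : exp (-h) ≤ 1 := exp_le_one_iff.mpr (by linarith)
  have he : exp (-(θ + h)) = exp (-θ) * (1 - (1 - exp (-h))) := by
    rw [neg_add, exp_add]; ring
  have hs := pq_step (δ := 1 - exp (-h)) h0 h1 (by linarith) (by linarith) ha ha1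
  rw [he]
  refine hs.trans ?_
  set τ := exp (-θ)
  set δ := 1 - exp (-h) with hδ
  have hpE := exp_le_pp h0
  have hp1 := pp_le_one h0 h1
  have hEpos := exp_pos (-τ)
  set w := pp τ - exp (-τ)
  have hw0 : 0 ≤ w := by linarith
  have hw1 : w ≤ 1 := by linarith
  have d1 : δ ≤ h := by linarith
  have d2 : h - h ^ 2 ≤ δ := by linarith
  have d0 : 0 ≤ δ := by linarith
  have d3 : δ ^ 2 ≤ h ^ 2 := by nlinarith
  have d4 : (h - δ) * (w * (τ - a)) ≤ h ^ 2 := by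
    have : w * (τ - a) ≤ 1 := by nlinarith
    have h5 : 0 ≤ h - δ := by linarith
    nlinarith
  nlinarith

/-- The derivative of `q + p a` along the clock. -/
theorem drift_eq {τ : ℝ} (h0 : 0 < τ) (a : ℝ) :
    2 * (pp τ - exp (-τ)) * (a - τ) =
      qq τ - 1 - pp τ * τ ^ 2 + a * (qq τ + 2 * pp τ - 3 + 2 * pp τ * τ) := by
  have hp := pp_mul h0
  have hq : qq τ = 3 - 2 * exp (-τ) - 2 * pp τ * τ := rfl
  linear_combination hp - (1 + a) * hq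

end Vale.Agent.P334
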