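import Vale.Agent.P334.Basic

/-!
From `k + c` facilities to `k` facilities: if the optimum is stable, a bounded number of exchanges
followed by one step of Lloyd gives a nearly optimal solution.
-/

namespace Vale.Agent.P334

open Finset

/-- All lists of length at most `M` with entries in `L`. -/
def tup (L : List ℕ) : ℕ → List (List ℕ)
  | 0 => [[]]
  | M + 1 => [] :: (tup L M).flatMap fun t => L.map fun x => x :: t

theorem mem_tup {L : List ℕ} {M : ℕ} {t : List ℕ} (h1 : ∀ x ∈ t, x ∈ L) (h2 : t.length ≤ M) :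
    t ∈ tup L M := by
  induction M generalizing t with
  | zero =>
    rw [List.length_eq_zero_iff.1 (Nat.le_zero.1 h2)]
    simp [tup]
  | succ M ih =>
    cases t with
    | nil => simp [tup]
    | cons x t =>
      refine List.mem_cons_of_mem _ (List.mem_flatMap.2 ⟨t, ih (fun y hy => h1 y
        (List.mem_cons_of_mem _ hy)) (by simpa using h2), List.mem_map.2 ⟨x, h1 x List.mem_cons_self,
          rfl⟩⟩)

/-- The clients whose nearest point of `T` is `t`. -/
def cell (d : ℕ → ℕ → ℕ) (J T : List ℕ) (t : ℕ) : List ℕ := J.filter fun j => near d j T = t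

/-- The best facility for the clients `C`. -/
def best (d : ℕ → ℕ → ℕ) (F C : List ℕ) : ℕ :=
  amin (fun f => (C.map fun j => d j f).sum) (F.headD 0) F

/-- One step of Lloyd. -/
def lloyd (d : ℕ → ℕ → ℕ) (J F T : List ℕ) : List ℕ := T.map fun t => best d F (cell d J T t)

/-- Remove the elements of `R` from `T` and add `V`. -/
def swap (F T R V : List ℕ) : List ℕ := (F.filter fun x => x ∈ T ∧ x ∉ R) ++ V

theorem lloyd_feas (d : ℕ → ℕ → ℕ) (J : List ℕ) {F T : List ℕ} {k : ℕ} (hF : F ≠ [])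
    (hT : T ≠ []) (hk : T.length ≤ k) : Feas F k (lloyd d J F T) := by
  refine ⟨by simpa [lloyd] using hT, fun s hs => ?_, by simpa [lloyd] using hk⟩
  obtain ⟨t, -, rfl⟩ := List.mem_map.1 hs
  exact amin_headD_mem _ hF

theorem lloyd_cost (d : ℕ → ℕ → ℕ) {J F T : List ℕ} (hJ : J.Nodup) (hT : T ≠ []) (σ : ℕ → ℕ)
    (hσ : ∀ t ∈ T, σ t ∈ F) :
    cost d J (lloyd d J F T) ≤ ∑ j ∈ J.toFinset, d j (σ (near d j T)) := by
  rw [cost_eq_sum d hJ]
  have hm : ∀ j ∈ J.toFinset, near d j T ∈ T.toFinset := fun j _ =>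
    List.mem_toFinset.2 (near_mem d j hT)
  rw [← sum_fiberwise_of_maps_to hm, ← sum_fiberwise_of_maps_to hm]
  refine sum_le_sum fun t ht => ?_
  have ht' := List.mem_toFinset.1 ht
  have e : ∀ f : ℕ, ((cell d J T t).map fun j => d j f).sum =
      ∑ j ∈ J.toFinset with near d j T = t, d j f := by
    intro f
    rw [cell, ← List.sum_toFinset _ (hJ.filter _)]
    refine sum_congr ?_ fun _ _ => rfl
    ext j
    simp
  calc ∑ j ∈ J.toFinset with near d j T = t, dl d j (lloyd d J F T)
      ≤ ∑ j ∈ J.toFinset with near d j T = t, d j (best d F (cell d J T t)) :=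
        sum_le_sum fun j _ => dl_le d j (List.mem_map.2 ⟨t, ht', rfl⟩)
    _ ≤ ∑ j ∈ J.toFinset with near d j T = t, d j (σ t) := by
        rw [← e, ← e]
        exact amin_le (fun f => ((cell d J T t).map fun j => d j f).sum) _ (hσ t ht')
    _ = ∑ j ∈ J.toFinset with near d j T = t, d j (σ (near d j T)) :=
        sum_congr rfl fun j hj => by rw [(mem_filter.1 hj).2]

/-- Removing one facility from a solution. -/
theorem cost_erase {d : ℕ → ℕ → ℕ} (hd : PM d) {J O : List ℕ} (hJ : J.Nodup) (hO : O.Nodup)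
    {o : ℕ} (hne : O.erase o ≠ []) :
    cost d J (O.erase o) ≤ cost d J O +
      (J.toFinset.filter fun j => near d j O = o).card * dl d o (O.erase o) := by
  have hO' : O ≠ [] := by
    rintro rfl
    simp at hne
  rw [cost_eq_sum d hJ, cost_eq_sum d hJ, card_filter, sum_mul, ← sum_add_distrib]
  refine sum_le_sum fun j _ => ?_
  split_ifs with h
  · rw [one_mul]
    rw [show dl d j O = d j o by rw [dl, h]]
    exact dl_tri hd j o hne
  · rw [zero_mul, add_zero]
    exact dl_le d j ((hO.mem_erase_iff).2 ⟨h, near_mem d j hO'⟩)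

/-- The stable case. -/
theorem stable {d : ℕ → ℕ → ℕ} (hd : PM d) {J F T : List ℕ} (hJ : J.Nodup) (hF : F.Nodup)
    {k c M : ℕ} (hk : 2 ≤ k) (hT : Feas F (k + c) T) {a β γ : ℝ} (hβ : 0 < β)
    (hγ : 0 < γ) (hγ2 : γ < 1 / 2) (hTc : (cost d J T : ℝ) ≤ a * opt d J F k)
    (hst : (1 + β) * opt d J F k < opt d J F (k - 1)) (hM : 1 + a ≤ γ * β * M) :
    ∃ R V : List ℕ, (∀ x ∈ R, x ∈ F) ∧ (∀ x ∈ V, x ∈ F) ∧ R.length ≤ M + c ∧ V.length ≤ M ∧
      swap F T R V ≠ [] ∧ (swap F T R V).length ≤ k ∧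
      (1 - 2 * γ) * cost d J (lloyd d J F (swap F T R V)) ≤ (1 + 2 * γ) * opt d J F k := by
  classical
  have hFne : F ≠ [] := List.ne_nil_of_mem (hT.2.1 _ (headD_mem hT.1))
  obtain ⟨O, hO, hOn, hOc⟩ := exists_opt d J hFne (show 1 ≤ k by omega)
  have h0 : (0 : ℝ) ≤ opt d J F k := Nat.cast_nonneg _
  have hlen : O.length = k := by
    by_contra h
    have h1 : Feas F (k - 1) O := ⟨hO.1, hO.2.1, by have := hO.2.2; omega⟩
    have h2 : (opt d J F (k - 1) : ℝ) ≤ opt d J F k := by
      rw [← hOc]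
      exact_mod_cast opt_le d J h1
    nlinarith
  have her : ∀ o ∈ O, Feas F (k - 1) (O.erase o) := by
    intro o ho
    have h1 : (O.erase o).length = k - 1 := by rw [List.length_erase_of_mem ho, hlen]
    refine ⟨fun h => ?_, fun s hs => hO.2.1 s (List.mem_of_mem_erase hs), h1.le⟩
    rw [h] at h1
    simp at h1
    omega
  set C : ℕ → Finset ℕ := fun o => J.toFinset.filter fun j => near d j O = o with hC
  set L : ℕ → ℝ := fun o => dl d o (O.erase o) with hL
  have hgain : ∀ o ∈ O, β * opt d J F k < (C o).card * L o := by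
    intro o ho
    have h1 := (opt_le d J (her o ho)).trans (cost_erase hd hJ hOn (her o ho).1)
    rw [hOc] at h1
    have h2 : (opt d J F (k - 1) : ℝ) ≤ opt d J F k + (C o).card * L o := by
      simp only [hC, hL]
      exact_mod_cast h1
    linarith
  have hLpos : ∀ o ∈ O, 0 < L o := by
    intro o ho
    have h1 := hgain o ho
    have h2 : (0 : ℝ) ≤ L o := Nat.cast_nonneg _
    rcases h2.eq_or_lt with h | h
    · rw [← h, mul_zero] at h1
      nlinarith
    · exact h
  have hLle : ∀ o ∈ O, ∀ o' ∈ O, o' ≠ o → L o ≤ d o o' := fun o _ o' ho' h => by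
    simp only [hL]
    exact_mod_cast dl_le d o ((hOn.mem_erase_iff).2 ⟨h, ho'⟩)
  set good : ℕ → Prop := fun o => ∃ j ∈ C o, (d j o : ℝ) + dl d j T ≤ γ * L o with hgood
  obtain ⟨τ, hτ⟩ : ∃ τ : ℕ → ℕ, ∀ o, (good o → τ o ∈ T ∧ (d (τ o) o : ℝ) ≤ γ * L o) ∧
      (¬ good o → τ o = o) := by
    have : ∀ o, ∃ t : ℕ, (good o → t ∈ T ∧ (d t o : ℝ) ≤ γ * L o) ∧ (¬ good o → t = o) := by
      intro o
      by_cases h : good o
      · obtain ⟨j, hjC, hj⟩ := h
        refine ⟨near d j T, fun _ => ⟨near_mem d j hT.1, le_trans ?_ hj⟩, fun h' => ?_⟩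
        · have := hd.tri (near d j T) j o
          rw [hd.comm (near d j T) j, add_comm] at this
          exact_mod_cast this
        · exact absurd ⟨j, hjC, hj⟩ h'
      · exact ⟨o, fun h' => absurd h' h, fun _ => rfl⟩
    exact ⟨fun o => (this o).choose, fun o => (this o).choose_spec⟩
  have hτd : ∀ o ∈ O, (d (τ o) o : ℝ) ≤ γ * L o := by
    intro o ho
    by_cases h : good o
    · exact ((hτ o).1 h).2
    · rw [(hτ o).2 h, hd.self, Nat.cast_zero]
      exact (mul_pos hγ (hLpos o ho)).le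
  have hτinj : Set.InjOn τ O.toFinset := by
    intro o ho o' ho' h
    by_contra hne
    have ho := List.mem_toFinset.1 ho
    have ho' := List.mem_toFinset.1 ho'
    have h1 := hτd o ho
    have h2 := hτd o' ho'
    have h3 := hLle o ho o' ho' (Ne.symm hne)
    have h4 := hLle o' ho' o ho hne
    have h5 : (d o o' : ℝ) ≤ d (τ o) o + d (τ o') o' := by
      have := hd.tri o (τ o) o'
      rw [hd.comm o (τ o), h] at this
      rw [h]
      exact_mod_cast this
    rw [hd.comm o' o] at h4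
    have h6 := hLpos o ho
    nlinarith
  set G := O.toFinset.filter good with hG
  set B := O.toFinset.filter fun o => ¬ good o with hB
  have hGB : G.card + B.card = k := by
    rw [hG, hB, card_filter_add_card_filter_not, List.toFinset_card_of_nodup hOn, hlen]
  have hBM : B.card ≤ M := by
    have h1 : ∑ o ∈ B, ∑ j ∈ C o, ((d j o : ℝ) + dl d j T) ≤ (1 + a) * opt d J F k := by
      have hm : ∀ j ∈ J.toFinset, near d j O ∈ O.toFinset := fun j _ =>
        List.mem_toFinset.2 (near_mem d j hO.1)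
      calc ∑ o ∈ B, ∑ j ∈ C o, ((d j o : ℝ) + dl d j T)
          ≤ ∑ o ∈ O.toFinset, ∑ j ∈ C o, ((d j o : ℝ) + dl d j T) :=
            sum_le_sum_of_subset_of_nonneg (filter_subset _ _) fun _ _ _ =>
              sum_nonneg fun _ _ => by positivity
        _ = ∑ o ∈ O.toFinset, ∑ j ∈ C o, ((dl d j O : ℝ) + dl d j T) :=
            sum_congr rfl fun o _ => sum_congr rfl fun j hj => by
              rw [show dl d j O = d j o by rw [dl, (mem_filter.1 hj).2]]
        _ = ∑ j ∈ J.toFinset, ((dl d j O : ℝ) + dl d j T) := sum_fiberwise_of_maps_to hm _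
        _ = cost d J O + cost d J T := by
            rw [sum_add_distrib, cost_eq_sum d hJ, cost_eq_sum d hJ]
            push_cast
            rfl
        _ ≤ (1 + a) * opt d J F k := by rw [hOc]; linarith
    rcases B.eq_empty_or_nonempty with h | h
    · rw [h]; simp
    have h2 : ∑ _o ∈ B, γ * β * (opt d J F k : ℝ) <
        ∑ o ∈ B, ∑ j ∈ C o, ((d j o : ℝ) + dl d j T) := by
      refine sum_lt_sum_of_nonempty h fun o ho => ?_
      obtain ⟨ho1, ho2⟩ := mem_filter.1 ho
      have h3 := hgain o (List.mem_toFinset.1 ho1)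
      have h4 : ∑ _j ∈ C o, γ * L o ≤ ∑ j ∈ C o, ((d j o : ℝ) + dl d j T) :=
        sum_le_sum fun j hj => le_of_lt (not_le.1 fun h => ho2 ⟨j, hj, h⟩)
      rw [sum_const, nsmul_eq_mul] at h4
      nlinarith
    rw [sum_const, nsmul_eq_mul] at h2
    have h3 : (B.card : ℝ) * (γ * β * opt d J F k) < M * (γ * β * opt d J F k) := by
      nlinarith
    have h4 : (B.card : ℝ) < M := lt_of_mul_lt_mul_right h3 (by positivity)
    exact_mod_cast h4.le
  set R := F.filter fun x => x ∈ T ∧ x ∉ G.image τ with hR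
  set V := O.filter fun o => ¬ good o with hV
  have hVB : V.length = B.card := by
    rw [← List.toFinset_card_of_nodup (hOn.filter _)]
    congr 1
    ext x
    simp [hB]
  have hGT : ∀ x ∈ G.image τ, x ∈ T := by
    intro x hx
    obtain ⟨o, ho, rfl⟩ := mem_image.1 hx
    exact ((hτ o).1 (mem_filter.1 ho).2).1
  have hGc : (G.image τ).card = G.card :=
    card_image_of_injOn (hτinj.mono (by exact_mod_cast filter_subset _ _))
  have hkeep : (F.filter fun x => x ∈ T ∧ x ∉ R).toFinset = G.image τ := by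
    ext x
    simp only [hR, List.mem_toFinset, List.mem_filter, decide_eq_true_eq, not_and, not_not]
    exact ⟨fun h => h.2.2 h.1 h.2.1, fun h => ⟨hT.2.1 x (hGT x h), hGT x h, fun _ _ => h⟩⟩
  have hsw : ∀ x, x ∈ swap F T R V ↔ ∃ o ∈ O, τ o = x := by
    intro x
    rw [swap, List.mem_append, ← List.mem_toFinset, hkeep]
    simp only [hG, hV, mem_image, mem_filter, List.mem_toFinset, List.mem_filter,
      decide_eq_true_eq]
    constructor
    · rintro (⟨o, ⟨ho, -⟩, e⟩ | ⟨ho, h⟩)
      · exact ⟨o, ho, e⟩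
      · exact ⟨x, ho, (hτ x).2 h⟩
    · rintro ⟨o, ho, e⟩
      by_cases h : good o
      · exact Or.inl ⟨o, ⟨ho, h⟩, e⟩
      · rw [(hτ o).2 h] at e
        exact Or.inr (e ▸ ⟨ho, h⟩)
  have hne : swap F T R V ≠ [] :=
    List.ne_nil_of_mem ((hsw _).2 ⟨_, headD_mem hO.1, rfl⟩)
  refine ⟨R, V, fun x hx => (List.mem_filter.1 hx).1,
    fun x hx => hO.2.1 x (List.mem_filter.1 hx).1, ?_, hVB.trans_le hBM, hne, ?_, ?_⟩
  · have h1 : R.toFinset = T.toFinset \ G.image τ := by
      ext x
      simp only [hR, List.mem_toFinset, List.mem_filter, decide_eq_true_eq, mem_sdiff]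
      exact ⟨fun h => h.2, fun h => ⟨hT.2.1 x h.1, h⟩⟩
    have h2 : R.length = T.toFinset.card - G.card := by
      rw [← List.toFinset_card_of_nodup (hF.filter _), h1,
        card_sdiff_of_subset fun x hx => List.mem_toFinset.2 (hGT x hx), hGc]
    have h3 := (List.toFinset_card_le T).trans hT.2.2
    omega
  · rw [swap, List.length_append, ← List.toFinset_card_of_nodup (hF.filter _), hkeep, hGc, hVB,
      hGB]
  · obtain ⟨σ, hσ⟩ : ∃ σ : ℕ → ℕ, ∀ x ∈ swap F T R V, σ x ∈ O ∧ τ (σ x) = x := by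
      have : ∀ x, ∃ o : ℕ, x ∈ swap F T R V → o ∈ O ∧ τ o = x := by
        intro x
        by_cases h : x ∈ swap F T R V
        · obtain ⟨o, ho⟩ := (hsw x).1 h
          exact ⟨o, fun _ => ho⟩
        · exact ⟨0, fun h' => absurd h' h⟩
      exact ⟨fun x => (this x).choose, fun x => (this x).choose_spec⟩
    have h1 : (cost d J (lloyd d J F (swap F T R V)) : ℝ) ≤
        ∑ j ∈ J.toFinset, (d j (σ (near d j (swap F T R V))) : ℝ) := by
      exact_mod_cast lloyd_cost d hJ hne σ fun t ht => hO.2.1 _ (hσ t ht).1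
    have h2 : (opt d J F k : ℝ) = ∑ j ∈ J.toFinset, (dl d j O : ℝ) := by
      rw [← hOc, cost_eq_sum d hJ]
      push_cast
      rfl
    refine (mul_le_mul_of_nonneg_left h1 (by linarith)).trans ?_
    rw [h2, mul_sum, mul_sum]
    refine sum_le_sum fun j _ => ?_
    obtain ⟨h3, h4⟩ := hσ _ (near_mem d j hne)
    set o₁ := σ (near d j (swap F T R V))
    have h5 := near_mem d j hO.1
    rw [dl]
    set o₂ := near d j O
    have h6 : (0 : ℝ) ≤ d j o₂ := Nat.cast_nonneg _
    by_cases e : o₁ = o₂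
    · rw [e]
      nlinarith
    · have h7 : (d j (τ o₁) : ℝ) ≤ d j (τ o₂) := by
        rw [h4]
        exact_mod_cast dl_le d j ((hsw _).2 ⟨o₂, h5, rfl⟩)
      have h8 : (d j o₁ : ℝ) ≤ d j (τ o₁) + d (τ o₁) o₁ := by exact_mod_cast hd.tri _ _ _
      have h9 : (d j (τ o₂) : ℝ) ≤ d j o₂ + d (τ o₂) o₂ := by
        rw [hd.comm (τ o₂)]
        exact_mod_cast hd.tri _ _ _
      have h10 := hτd o₁ h3
      have h11 := hτd o₂ h5
      have h12 := hLle o₁ h3 o₂ h5 (Ne.symm e)
      have h13 := hLle o₂ h5 o₁ h3 e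
      rw [hd.comm o₂ o₁] at h13
      have h14 : (d o₁ o₂ : ℝ) ≤ d j o₁ + d j o₂ := by
        rw [hd.comm j o₁]
        exact_mod_cast hd.tri _ _ _
      nlinarith

/-- Either `c` facilities can be saved at a small price, or some nearby value of `k` is stable. -/
theorem dichotomy (o : ℕ → ℝ) {β : ℝ} (hβ : 0 ≤ β) (k c : ℕ) :
    o (k - c) ≤ (1 + β) ^ c * o k ∨
      ∃ i < c, o (k - i) ≤ (1 + β) ^ i * o k ∧ (1 + β) * o (k - i) < o (k - i - 1) := by
  induction c with
  | zero => left; simp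
  | succ c ih =>
    rcases ih with h | ⟨i, hi, h⟩
    · by_cases h' : (1 + β) * o (k - c) < o (k - c - 1)
      · exact Or.inr ⟨c, by omega, h, h'⟩
      · left
        rw [← Nat.sub_sub, pow_succ', mul_assoc]
        exact (not_lt.1 h').trans (mul_le_mul_of_nonneg_left h (by linarith))
    · exact Or.inr ⟨i, by omega, h⟩

end Vale.Agent.P334
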