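import Vale.Agent.P334.StaticE

/-!
One-dimensional inequalities behind the static inequality: the family `C` for small `x`.
-/

namespace Vale.Agent.P334.Stat

namespace Pa

variable {k q τ a κ lam σ : ℝ} (H : Pa k q τ a κ lam σ)
  (h3 : 2 * k * (1 + 2 * τ / 3 + τ ^ 2 / 6) ≤ 1)
include H h3

theorem pc1 : lam ≤ 1 - 3 * k / 16 - 2 * k * a + σ := by
  have hk0 := H.k0
  have g1 : 0 ≤ k * ((1 - a) * (1 - a + 2 * τ)) :=
    mul_nonneg (by linarith) (mul_nonneg (by linarith [H.a1]) (by linarith [H.a1, H.τ0]))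
  have g2 : 0 ≤ k * (8 * τ / 3 + 2 * τ ^ 2 / 3 + 16 * (1 - τ) ^ 2 - 3) :=
    mul_nonneg (by linarith) (by nlinarith [sq_nonneg (τ - 22 / 25)])
  rw [H.hlam, H.hσ]
  linarith

omit h3 in
theorem pc1' : 0 ≤ 1 - 3 * k / 8 - 2 * k * a + σ := by
  have hk0 := H.k0
  have g1 : 0 ≤ k * ((1 - a) * (1 - a + 2 * τ)) :=
    mul_nonneg (by linarith) (mul_nonneg (by linarith [H.a1]) (by linarith [H.a1, H.τ0]))
  have g2 : 0 ≤ k * (τ - 3 / 8 + (1 - τ) ^ 2) :=
    mul_nonneg (by linarith) (by nlinarith [sq_nonneg (τ - 1 / 2)])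
  have := H.s
  have := H.q1
  rw [H.hσ]
  linarith

theorem u_le : 2 * k * τ ≤ 3 / 2 * (1 - 2 * k) := by
  have : 0 ≤ k * τ ^ 2 := mul_nonneg (by linarith [H.k0]) (sq_nonneg _)
  linarith

omit H h3 in
theorem pc2_aux {k u : ℝ} (hk0 : 1 / 4 ≤ k) (hk1 : k ≤ 1 / 2) (hu0 : 0 ≤ u) (hu1 : u ≤ 2 * k)
    (hu2 : u ≤ 3 / 2 * (1 - 2 * k)) :
    u * (2 - 2 * k + u / 2) + k * (3 - 2 * k + u / 2) * (1 + 3 * k / 8) ≤ 2 := by
  rcases le_total k (3 / 10) with h | h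
  · have g1 : u * (2 - 2 * k + u / 2) ≤ 2 * k * (2 - 2 * k + k) := by nlinarith
    have g2 : k * (3 - 2 * k + u / 2) * (1 + 3 * k / 8) ≤ k * (3 - 2 * k + k) * (1 + 3 * k / 8) :=
      mul_le_mul_of_nonneg_right (mul_le_mul_of_nonneg_left (by linarith) (by linarith))
        (by linarith)
    nlinarith [mul_nonneg (show 0 ≤ k by linarith) (show 0 ≤ 3 / 10 - k by linarith),
      mul_nonneg (mul_nonneg (show 0 ≤ k by linarith) (show 0 ≤ k by linarith))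
        (show 0 ≤ k by linarith)]
  · have g1 : u * (2 - 2 * k + u / 2) ≤
        3 / 2 * (1 - 2 * k) * (2 - 2 * k + 3 / 4 * (1 - 2 * k)) := by nlinarith
    have g2 : k * (3 - 2 * k + u / 2) * (1 + 3 * k / 8) ≤
        k * (3 - 2 * k + 3 / 4 * (1 - 2 * k)) * (1 + 3 * k / 8) :=
      mul_le_mul_of_nonneg_right (mul_le_mul_of_nonneg_left (by linarith) (by linarith))
        (by linarith)
    nlinarith [mul_nonneg (show 0 ≤ k - 3 / 10 by linarith) (show 0 ≤ 1 / 2 - k by linarith),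
      mul_nonneg (mul_nonneg (show 0 ≤ k by linarith) (show 0 ≤ k by linarith))
        (show 0 ≤ k by linarith)]

theorem pc2 : ∃ t, 0 ≤ t ∧ t ^ 2 ≤ (a - τ) ^ 2 ∧
    0 ≤ 2 - 2 * k * a * κ - k * (κ + 1) * (1 + 3 * k / 8 - 2 * t) := by
  have hk0 := H.k0
  have hk1 := H.k1
  have hkτ := H.kτ
  have hu1 : 2 * k * τ ≤ 2 * k := by nlinarith [H.τ1]
  have hu2 := H.u_le h3
  have aux := pc2_aux hk0 hk1 (u := 2 * k * τ) (by linarith) hu1 hu2
  have hc : q + 2 * k * τ ≤ 2 - 2 * k + 2 * k * τ / 2 := by linarith [H.s]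
  have hc0 : 0 ≤ q + 2 * k * τ := by linarith [H.q1]
  have b1 : 2 * k * τ * (q + 2 * k * τ) ≤ 2 * k * τ * (2 - 2 * k + 2 * k * τ / 2) :=
    mul_le_mul_of_nonneg_left hc (by linarith)
  have b2 : k * (q + 2 * k * τ + 1) * (1 + 3 * k / 8) ≤
      k * (3 - 2 * k + 2 * k * τ / 2) * (1 + 3 * k / 8) :=
    mul_le_mul_of_nonneg_right (mul_le_mul_of_nonneg_left (by linarith) (by linarith))
      (by linarith)
  rcases le_total a τ with h | h
  · refine ⟨0, le_rfl, by simpa using sq_nonneg (a - τ), ?_⟩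
    have d1 : k * a ≤ k * τ := mul_le_mul_of_nonneg_left h (by linarith)
    have d2 : κ ≤ q + 2 * k * τ := by linarith [H.hκ]
    have d3 : 2 * k * a * κ ≤ 2 * k * τ * (q + 2 * k * τ) :=
      mul_le_mul (by linarith) d2 (by linarith [H.κ1]) (by linarith)
    have d4 : k * (κ + 1) * (1 + 3 * k / 8) ≤ k * (q + 2 * k * τ + 1) * (1 + 3 * k / 8) :=
      mul_le_mul_of_nonneg_right (mul_le_mul_of_nonneg_left (by linarith) (by linarith))
        (by linarith)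
    linarith
  · refine ⟨a - τ, by linarith, le_rfl, ?_⟩
    have d1 : 0 ≤ 1 - 2 * k * τ - k * (1 + 3 * k / 8) := by
      rcases le_total k (3 / 10) with g | g
      · nlinarith
      · nlinarith
    have d2 : 0 ≤ 2 * k * (a - τ) * (1 - 2 * k * τ - k * (1 + 3 * k / 8)) :=
      mul_nonneg (mul_nonneg (by linarith) (by linarith)) d1
    rw [H.hκ]
    linarith

theorem C_one {z x v y th : ℝ} (hz0 : 0 ≤ z) (hx : 0 ≤ x) (hy : 0 ≤ y) (hth : 0 ≤ th)
    (hth' : κ * x + z - κ * y ≤ th) :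
    0 ≤ (y - (v - x)) + (v - (κ - 1) * x - 2 * k * a * (κ * x + z)) + lam * th - lam * z -
      (1 - 3 * k / 8) * (y - (κ * x + z)) + σ * (x + (κ * x + z)) := by
  have hk0 := H.k0
  have hκ1 := H.κ1
  have hκ2 := H.κ2
  have hM : 0 ≤ κ * x + z := add_nonneg (mul_nonneg (by linarith) hx) hz0
  have hzM : lam * z ≤ lam * (κ * x + z) :=
    mul_le_mul_of_nonneg_left (by nlinarith) H.lam0
  have e1 : 0 ≤ (2 - κ) * x := mul_nonneg (by linarith) hx
  have e2 : 0 ≤ σ * x := mul_nonneg H.σ0 hx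
  have key : ∀ l, 0 ≤ l → l ≤ lam → l ≤ 3 * k / 16 →
      l * (κ * x + z) ≤ 3 * k / 8 * y + lam * th := by
    intro l hl hl1 hl2
    have g1 : l * (κ * x + z - κ * y) ≤ l * th := mul_le_mul_of_nonneg_left hth' hl
    have g2 : l * th ≤ lam * th := mul_le_mul_of_nonneg_right hl1 hth
    have g3 : l * κ ≤ l * 2 := mul_le_mul_of_nonneg_left hκ2 hl
    have g4 : l * κ * y ≤ 3 * k / 8 * y := mul_le_mul_of_nonneg_right (by linarith) hy
    linarith
  rcases le_total lam (3 * k / 16) with h | h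
  · have g1 := key lam H.lam0 le_rfl h
    have g2 := mul_nonneg H.pc1' hM
    linarith
  · have g1 := key (3 * k / 16) (by linarith) h le_rfl
    have g2 := mul_le_mul_of_nonneg_right (H.pc1 h3) hM
    linarith

theorem C_mid {z x v y J r th : ℝ} (hz0 : 0 ≤ z) (hx : 0 ≤ x) (hJ0 : 0 ≤ J) (hJ : J ≤ 1)
    (hr' : y - κ * x ≤ r) (hth : 0 ≤ th) (hvm : κ * x + z + x ≤ v)
    (hJc : v - x - y ≤ k * v * J) :
    0 ≤ (y - (v - x)) + J * (v - (κ - 1) * x - 2 * k * a * (κ * x + z)) + (1 - J) * r +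
      lam * th - lam * z - (1 - 3 * k / 8) * (y - (κ * x + z)) + σ * (x + (κ * x + z)) := by
  have hk0 := H.k0
  have hk1 := H.k1
  have hκ1 := H.κ1
  have h1 : 0 ≤ lam * th := mul_nonneg H.lam0 hth
  have h2 : (1 - J) * (y - κ * x) ≤ (1 - J) * r := mul_le_mul_of_nonneg_left hr' (by linarith)
  have h4 : 0 ≤ (3 * k / 8 + (1 - J)) * (y - (v - x - k * v * J)) :=
    mul_nonneg (by linarith) (by linarith)
  have c0 : 0 ≤ 3 / 8 * (1 - k * J) - J * (1 - J) := by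
    have : k * J ≤ 1 / 2 * J := mul_le_mul_of_nonneg_right hk1 hJ0
    nlinarith [sq_nonneg (J - 19 / 32)]
  have h5 : 0 ≤ k * (3 / 8 * (1 - k * J) - J * (1 - J)) * (v - (κ * x + z + x)) :=
    mul_nonneg (mul_nonneg (by linarith) c0) (by linarith)
  have f0 : 0 ≤ 1 - lam + σ - J * (2 * k * a + k * (3 * k / 8) + k * (1 - J)) := by
    have g0 : k * (3 * k / 8) ≤ 1 / 2 * (3 * k / 8) :=
      mul_le_mul_of_nonneg_right hk1 (by linarith)
    have g1 : 0 ≤ J * (1 - lam + σ - 2 * k * a - k * (3 * k / 8)) :=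
      mul_nonneg hJ0 (by linarith [H.pc1 h3])
    have g2 : 0 ≤ (1 - J) * (1 - lam - k + σ) :=
      mul_nonneg (by linarith) (by linarith [H.c1, H.ka0, H.σ0])
    have g3 : 0 ≤ k * (1 - J) ^ 2 := mul_nonneg (by linarith) (sq_nonneg _)
    linarith
  have f1 : 0 ≤ J * (2 - 2 * k * a * κ - k * (κ + 1) * (1 + 3 * k / 8 - J)) + σ * (κ + 1) := by
    obtain ⟨t, _, ht1, ht2⟩ := H.pc2 h3
    have g1 := mul_nonneg hJ0 ht2
    have g2 : 0 ≤ k * (κ + 1) * ((J - t) ^ 2 + ((a - τ) ^ 2 - t ^ 2)) :=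
      mul_nonneg (mul_nonneg (by linarith) (by linarith))
        (add_nonneg (sq_nonneg _) (by linarith))
    have g4 : σ * (κ + 1) = k * (a - τ) ^ 2 * (κ + 1) := by rw [H.hσ]
    linarith
  have g0 := mul_nonneg f0 hz0
  have g1 := mul_nonneg f1 hx
  linarith

/-- The family `C` for small `x`. -/
theorem coreC1 {M x v : ℝ} (hx : 0 ≤ x) (hw : κ * x ≤ M) (hv : M + x ≤ v) :
    ∃ μ : ℝ, ∀ y J : ℝ, 0 ≤ y → 0 ≤ J → J ≤ 1 → (J = 1 ∨ v - x - y ≤ k * v * J) →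
      0 ≤ (y - (v - x)) + J * (v - (κ - 1) * x - 2 * k * a * M) +
        (1 - J) * max (y - κ * x) 0 + lam * max (M - κ * y) 0 - lam * max (M - κ * x) 0 -
        μ * (y - M) + σ * (x + M) := by
  have hθx : max (M - κ * x) 0 = M - κ * x := max_eq_left (by linarith)
  rw [hθx]
  obtain ⟨z, hz0, rfl⟩ : ∃ z, 0 ≤ z ∧ M = κ * x + z := ⟨M - κ * x, by linarith, by ring⟩
  have e : κ * x + z - κ * x = z := by ring
  rw [e]
  refine ⟨1 - 3 * k / 8, fun y J hy hJ0 hJ hJc => ?_⟩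
  rcases hJc with rfl | hJc
  · have := H.C_one h3 (v := v) hz0 hx hy (le_max_right (κ * x + z - κ * y) 0) (le_max_left _ _)
    linarith
  · exact H.C_mid h3 hz0 hx hJ0 hJ (le_max_left _ _) (le_max_right _ _) hv hJc

end Pa

end Vale.Agent.P334.Stat
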