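import Mathlib.Analysis.SpecialFunctions.Exp
import Mathlib.Tactic.Linarith
import Mathlib.Tactic.Positivity

/-!
One-dimensional inequalities behind the static inequality: the family `E`.
-/

namespace Vale.Agent.P334.Stat

/-- Facts on the parameters: `p = 2 k`, `κ = q + p a`, `lam = 7 (1 - p) / 8`,
`σ = k (a - τ) ^ 2`. -/
structure Pa (k q τ a κ lam σ : ℝ) : Prop where
  k0 : 1 / 4 ≤ k
  q1 : 1 ≤ q
  s : q + 2 * k + k * τ ≤ 2
  τ0 : 0 ≤ τ
  τ1 : τ ≤ 1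
  a0 : 0 ≤ a
  a1 : a ≤ 1
  hκ : κ = q + 2 * k * a
  hlam : lam = 7 / 8 * (1 - 2 * k)
  hσ : σ = k * (a - τ) ^ 2

namespace Pa

variable {k q τ a κ lam σ : ℝ} (H : Pa k q τ a κ lam σ)
include H

theorem kτ : 0 ≤ k * τ := mul_nonneg (by linarith [H.k0]) H.τ0
theorem k1 : k ≤ 1 / 2 := by linarith [H.kτ, H.s, H.q1]
theorem ka : k * a ≤ k := by nlinarith [H.k0, H.a1]
theorem ka0 : 0 ≤ k * a := mul_nonneg (by linarith [H.k0]) H.a0
theorem κ1 : 1 ≤ κ := by linarith [H.hκ, H.ka0, H.q1]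
theorem κ2 : κ ≤ 2 := by linarith [H.hκ, H.ka, H.s, H.kτ]
theorem lam0 : 0 ≤ lam := by linarith [H.hlam, H.k1]
theorem σ0 : 0 ≤ σ := by rw [H.hσ]; exact mul_nonneg (by linarith [H.k0]) (sq_nonneg _)
theorem c1 : 0 ≤ 1 - k - k * a - lam := by linarith [H.hlam, H.ka, H.k1]
theorem c2 : 0 ≤ 2 - q - k - k * a := by linarith [H.ka, H.s, H.kτ]

theorem hA : 0 ≤ (1 - k) ^ 2 - k * a - (q - 1) + σ := by
  have : 0 ≤ k * (k - (a - τ) + (a - τ) ^ 2) :=
    mul_nonneg (by linarith [H.k0]) (by nlinarith [sq_nonneg (a - τ - 1 / 2), H.k0])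
  have := H.s
  rw [H.hσ]; linarith

theorem E_one {M x v y th tx : ℝ} (hM : 0 ≤ M) (hx : 0 ≤ x) (hth : 0 ≤ th) (htx : tx ≤ M) :
    0 ≤ (1 - k) * (y - (v - x)) + ((1 - k) * v - (q - 1) * x - k * a * (M + x)) +
      lam * th - lam * tx - (1 - k) * (y - M) + σ * (x + M) := by
  have h1 : 0 ≤ lam * th := mul_nonneg H.lam0 hth
  have h3 : lam * tx ≤ lam * M := mul_le_mul_of_nonneg_left htx H.lam0
  have h4 := mul_nonneg H.c1 hM
  have h5 := mul_nonneg H.c2 hx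
  have h6 : 0 ≤ σ * (x + M) := mul_nonneg H.σ0 (by linarith)
  linarith

theorem E_a {M x v y J r th : ℝ} (hM : 0 ≤ M) (hx : 0 ≤ x) (hJ0 : 0 ≤ J) (hJ : J ≤ 1)
    (hr : 0 ≤ r) (hth : 0 ≤ th) (hvm : v ≤ M + x) :
    0 ≤ (1 - k) * (y - (v - x)) + J * ((1 - k) * v - (q - 1) * x - k * a * (M + x)) +
      (1 - J) * r + lam * th - lam * 0 - (1 - k) * (y - M) + σ * (x + M) := by
  have h1 : 0 ≤ lam * th := mul_nonneg H.lam0 hth
  have h2 : 0 ≤ (1 - J) * r := mul_nonneg (by linarith) hr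
  have h3 : 0 ≤ (1 - J) * ((1 - k) * (M + x - v)) :=
    mul_nonneg (by linarith) (mul_nonneg (by linarith [H.k1]) (by linarith))
  have h4 : 0 ≤ J * ((1 - k - k * a) * M + (2 - q - k - k * a) * x) :=
    mul_nonneg hJ0 (add_nonneg (mul_nonneg (by linarith [H.c1, H.lam0]) hM) (mul_nonneg H.c2 hx))
  have h6 : 0 ≤ σ * (x + M) := mul_nonneg H.σ0 (by linarith)
  linarith

theorem E_b {M x v y th : ℝ} (hM : 0 ≤ M) (hx : 0 ≤ x) (hy : 0 ≤ y)
    (hth : 0 ≤ th) (hth' : M - κ * y ≤ th) (hw : M ≤ κ * x) :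
    0 ≤ (1 - k) * (y - (v - x)) + ((1 - k) * v - (q - 1) * x - k * a * (M + x)) +
      lam * th - lam * 0 - 0 * (y - M) + σ * (x + M) := by
  have hk0 := H.k0
  have hkτ := H.kτ
  have hs := H.s
  have hq := H.q1
  have g1 : 7 / 8 * (k * τ) * (M - κ * y) ≤ 7 / 8 * (k * τ) * th :=
    mul_le_mul_of_nonneg_left hth' (by linarith)
  have g2 : 7 / 8 * (k * τ) * th ≤ lam * th :=
    mul_le_mul_of_nonneg_right (by linarith [H.hlam]) hth
  have g3 : 7 / 8 * (k * τ) * κ ≤ 7 / 8 * (k * τ) * 2 :=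
    mul_le_mul_of_nonneg_left H.κ2 (by linarith)
  have g3' : k * τ ≤ k := by nlinarith [H.τ1]
  have g4 : 7 / 8 * (k * τ) * κ * y ≤ (1 - k) * y :=
    mul_le_mul_of_nonneg_right (by linarith) hy
  have h2 : M ≤ 2 * x := le_trans hw (mul_le_mul_of_nonneg_right H.κ2 hx)
  have h3 : k * (1 - (a - τ)) * x ≤ (2 - q - k - k * a) * x :=
    mul_le_mul_of_nonneg_right (by linarith) hx
  have h4 : k * (1 - (a - τ)) * (M / 2) ≤ k * (1 - (a - τ)) * x :=
    mul_le_mul_of_nonneg_left (by linarith)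
      (mul_nonneg (by linarith) (by linarith [H.a1, H.τ0]))
  have h5 : σ * (M / 2) ≤ σ * x := mul_le_mul_of_nonneg_left (by linarith) H.σ0
  have h6 : 0 ≤ k * M * (7 / 8 * τ + (1 - (a - τ)) / 2 + 3 / 2 * (a - τ) ^ 2 - a) :=
    mul_nonneg (mul_nonneg (by linarith) hM) (by nlinarith [sq_nonneg (a - τ - 1 / 2), H.τ1])
  have h7 : σ * M = k * (a - τ) ^ 2 * M := by rw [H.hσ]
  linarith

theorem E_c {M x v y J r th : ℝ} (hM : 0 ≤ M) (hx : 0 ≤ x) (hJ0 : 0 ≤ J) (hJ : J ≤ 1)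
    (hr : 0 ≤ r) (hth : 0 ≤ th) (hvm : M + x ≤ v) (hJc : v - x - y ≤ k * v * J) :
    0 ≤ (1 - k) * (y - (v - x)) + J * ((1 - k) * v - (q - 1) * x - k * a * (M + x)) +
      (1 - J) * r + lam * th - lam * 0 - 0 * (y - M) + σ * (x + M) := by
  have h1 : 0 ≤ lam * th := mul_nonneg H.lam0 hth
  have h2 : 0 ≤ (1 - J) * r := mul_nonneg (by linarith) hr
  have h3 : (1 - k) * (-(k * v * J)) ≤ (1 - k) * (y - (v - x)) :=
    mul_le_mul_of_nonneg_left (by linarith) (by linarith [H.k1])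
  have h4 : 0 ≤ J * ((1 - k) ^ 2 * (v - (M + x))) :=
    mul_nonneg hJ0 (mul_nonneg (sq_nonneg _) (by linarith))
  have h5 : 0 ≤ J * (((1 - k) ^ 2 - k * a - (q - 1) + σ) * (x + M)) :=
    mul_nonneg hJ0 (mul_nonneg H.hA (by linarith))
  have h6 : 0 ≤ (1 - J) * (σ * (x + M)) :=
    mul_nonneg (by linarith) (mul_nonneg H.σ0 (by linarith))
  have h7 : 0 ≤ J * ((q - 1) * M) := mul_nonneg hJ0 (mul_nonneg (by linarith [H.q1]) hM)
  linarith

theorem E_d {z x v y J r th : ℝ} (hz0 : 0 ≤ z) (hx : 0 ≤ x) (hJ0 : 0 ≤ J) (hJ : J ≤ 1)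
    (hr : 0 ≤ r) (hr' : y - κ * x ≤ r) (hth : 0 ≤ th) (hvm : v ≤ κ * x + z + x)
    (hJc : v - x - y ≤ k * v * J) :
    0 ≤ (1 - k) * (y - (v - x)) + J * ((1 - k) * v - (q - 1) * x - k * a * (κ * x + z + x)) +
      (1 - J) * r + lam * th - lam * z - (1 - k) * (y - (κ * x + z)) + σ * (x + (κ * x + z)) := by
  have hk0 := H.k0
  have hk1 := H.k1
  have hκ1 := H.κ1
  have h1 : 0 ≤ lam * th := mul_nonneg H.lam0 hth
  have h2 : (1 - k) * (v - x - k * v * J - κ * x) ≤ r := by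
    have g1 : (1 - k) * (v - x - k * v * J - κ * x) ≤ (1 - k) * r :=
      mul_le_mul_of_nonneg_left (by linarith) (by linarith)
    have g2 : 0 ≤ k * r := mul_nonneg (by linarith) hr
    linarith
  have h3 : (1 - J) * ((1 - k) * (v - x - k * v * J - κ * x)) ≤ (1 - J) * r :=
    mul_le_mul_of_nonneg_left h2 (by linarith)
  have h4 : 0 ≤ k * (1 - k) * (J * (1 - J)) * (κ * x + z + x - v) :=
    mul_nonneg (mul_nonneg (mul_nonneg (by linarith) (by linarith))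
      (mul_nonneg hJ0 (by linarith))) (by linarith)
  have f0 : 0 ≤ J * (1 - k - k * a) + (1 - J) * (1 - k) * (1 - k * J) - lam + σ := by
    have g1 : k * a * J ≤ k * J := mul_le_mul_of_nonneg_right H.ka hJ0
    have g2 : (1 - k) * J ≤ 1 := by nlinarith
    have g3 : k * (1 - J) * ((1 - k) * J) ≤ k * (1 - J) * 1 :=
      mul_le_mul_of_nonneg_left g2 (mul_nonneg (by linarith) (by linarith))
    have := H.σ0
    have := H.hlam
    linarith
  have f1 : 0 ≤ J * ((1 - k - k * a) * (κ + 1) - (q - 1)) -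
      (1 - J) * (1 - k) * k * J * (κ + 1) + σ * (κ + 1) := by
    have g1 : 0 ≤ J * ((1 - k) ^ 2 - k * a - (q - 1) + σ) * (κ + 1) :=
      mul_nonneg (mul_nonneg hJ0 H.hA) (by linarith)
    have g2 : 0 ≤ (1 - J) * σ * (κ + 1) :=
      mul_nonneg (mul_nonneg (by linarith) H.σ0) (by linarith)
    have g3 : 0 ≤ J * (q - 1) * κ :=
      mul_nonneg (mul_nonneg hJ0 (by linarith [H.q1])) (by linarith)
    have g4 : 0 ≤ J * J * ((1 - k) * k) * (κ + 1) :=
      mul_nonneg (mul_nonneg (mul_nonneg hJ0 hJ0) (mul_nonneg (by linarith) (by linarith)))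
        (by linarith)
    linarith
  have g0 := mul_nonneg f0 hz0
  have g1 := mul_nonneg f1 hx
  linarith

theorem E_e {z x v y J r th : ℝ} (hz0 : 0 ≤ z) (hx : 0 ≤ x) (hJ0 : 0 ≤ J) (hJ : J ≤ 1)
    (hr' : y - κ * x ≤ r) (hth : 0 ≤ th) (hvm : κ * x + z + x ≤ v)
    (hJc : v - x - y ≤ k * v * J) :
    0 ≤ (1 - k) * (y - (v - x)) + J * ((1 - k) * v - (q - 1) * x - k * a * (κ * x + z + x)) +
      (1 - J) * r + lam * th - lam * z - (1 - k) * (y - (κ * x + z)) + σ * (x + (κ * x + z)) := by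
  have hk0 := H.k0
  have hk1 := H.k1
  have hκ1 := H.κ1
  have h1 : 0 ≤ lam * th := mul_nonneg H.lam0 hth
  have h3 : (1 - J) * (v - x - k * v * J - κ * x) ≤ (1 - J) * r :=
    mul_le_mul_of_nonneg_left (by linarith) (by linarith)
  have h4 : 0 ≤ k * (1 - J) ^ 2 * (v - (κ * x + z + x)) :=
    mul_nonneg (mul_nonneg (by linarith) (sq_nonneg _)) (by linarith)
  have f0 : 0 ≤ J * (1 - k - k * a) + (1 - J) * (1 - k * J) - lam + σ := by
    have g1 : 0 ≤ k * ((1 - J) * (1 + a - J)) :=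
      mul_nonneg (by linarith) (mul_nonneg (by linarith) (by linarith [H.a0]))
    have := H.σ0
    have := H.c1
    linarith
  have f1 : 0 ≤ J * ((1 - k - k * a) * (κ + 1) - (q - 1)) -
      (1 - J) * k * J * (κ + 1) + σ * (κ + 1) := by
    have g1 : 0 ≤ k * (J ^ 2 - J * (a - τ) + (a - τ) ^ 2) * (κ + 1) :=
      mul_nonneg (mul_nonneg (by linarith)
        (by nlinarith [sq_nonneg (J - (a - τ) / 2), sq_nonneg (a - τ)])) (by linarith)
    have g2 : 0 ≤ J * (2 - q - 2 * k - k * τ) * (κ + 1) :=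
      mul_nonneg (mul_nonneg hJ0 (by linarith [H.s])) (by linarith)
    have g3 : 0 ≤ J * (q - 1) * κ :=
      mul_nonneg (mul_nonneg hJ0 (by linarith [H.q1])) (by linarith)
    have g4 : σ * (κ + 1) = k * (a - τ) ^ 2 * (κ + 1) := by rw [H.hσ]
    linarith
  have g0 := mul_nonneg f0 hz0
  have g1 := mul_nonneg f1 hx
  linarith

/-- The family `E`. -/
theorem coreE {M x v : ℝ} (hM : 0 ≤ M) (hx : 0 ≤ x) :
    ∃ μ : ℝ, ∀ y J : ℝ, 0 ≤ y → 0 ≤ J → J ≤ 1 → (J = 1 ∨ v - x - y ≤ k * v * J) →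
      0 ≤ (1 - k) * (y - (v - x)) + J * ((1 - k) * v - (q - 1) * x - k * a * (M + x)) +
        (1 - J) * max (y - κ * x) 0 + lam * max (M - κ * y) 0 - lam * max (M - κ * x) 0 -
        μ * (y - M) + σ * (x + M) := by
  rcases le_total M (κ * x) with hw | hw
  · have hθx : max (M - κ * x) 0 = 0 := max_eq_right (by linarith)
    rw [hθx]
    rcases le_total v (M + x) with hvm | hvm
    · exact ⟨1 - k, fun y J _ hJ0 hJ _ =>
        H.E_a hM hx hJ0 hJ (le_max_right _ _) (le_max_right _ _) hvm⟩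
    · refine ⟨0, fun y J hy hJ0 hJ hJc => ?_⟩
      rcases hJc with rfl | hJc
      · have := H.E_b (v := v) hM hx hy (le_max_right (M - κ * y) 0) (le_max_left _ _) hw
        linarith
      · exact H.E_c hM hx hJ0 hJ (le_max_right _ _) (le_max_right _ _) hvm hJc
  · have hθx : max (M - κ * x) 0 = M - κ * x := max_eq_left (by linarith)
    rw [hθx]
    refine ⟨1 - k, fun y J hy hJ0 hJ hJc => ?_⟩
    rcases hJc with rfl | hJc
    · have := H.E_one (v := v) (y := y) (tx := M - κ * x) hM hx (le_max_right (M - κ * y) 0)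
        (by nlinarith [H.κ1])
      linarith
    obtain ⟨z, hz0, rfl⟩ : ∃ z, 0 ≤ z ∧ M = κ * x + z := ⟨M - κ * x, by linarith, by ring⟩
    have e : κ * x + z - κ * x = z := by ring
    rw [e]
    rcases le_total v (κ * x + z + x) with hvm | hvm
    · exact H.E_d hz0 hx hJ0 hJ (le_max_right _ _) (le_max_left _ _) (le_max_right _ _) hvm hJc
    · exact H.E_e hz0 hx hJ0 hJ (le_max_left _ _) (le_max_right _ _) hvm hJc

end Pa

end Vale.Agent.P334.Stat
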