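import Vale.Agent.P334.StaticC1

/-!
The multiplier of one facility in the static inequality.
-/

namespace Vale.Agent.P334.Stat

/-- The family `C` for large `x`. -/
def C2 (k a κ lam σ : ℝ) : Prop :=
  ∀ M x v : ℝ, 0 ≤ M → 0 ≤ x → M ≤ κ * x → M + x ≤ v →
    ∃ μ : ℝ, ∀ y J : ℝ, 0 ≤ y → 0 ≤ J → J ≤ 1 → (J = 1 ∨ v - x - y ≤ k * v * J) →
      0 ≤ (y - (v - x)) + J * (v - (κ - 1) * x - 2 * k * a * M) +
        (1 - J) * max (y - κ * x) 0 + lam * max (M - κ * y) 0 - μ * (y - M) + σ * (x + M)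

/-- The properties of the multiplier `F` of a facility. -/
def Row (k a κ lam σ M x v b F : ℝ) : Prop :=
  ((0 ≤ b → -(2 * x + a * M) ≤ F) ∧ F ≤ 2 * (v + x + a * M)) ∧
  (∀ J β : ℝ, 0 ≤ J → J ≤ 1 → 0 ≤ β → b - x - v + k * v * J ≤ β →
    b - 2 * k * (a * M) - κ * x - β + k * J * (a * M + a * x) ≤ F) ∧
  (b - x ≤ v → b - 2 * k * (a * M) - κ * x ≤ F) ∧
  ∃ C μ : ℝ, a * C ≤ (1 - a) * b + (1 - 2 * k) * (a * M) + (2 * a - κ) * x - F ∧
    ∀ y J : ℝ, 0 ≤ y → 0 ≤ J → J ≤ 1 → (J = 1 ∨ v - x - y ≤ k * v * J) →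
      0 ≤ C + J * F + (1 - J) * max (y - κ * x) 0 + lam * max (M - κ * y) 0 -
        lam * max (M - κ * x) 0 - μ * (y - M) + σ * (x + M)

namespace Pa

variable {k q τ a κ lam σ : ℝ} (H : Pa k q τ a κ lam σ)
  (h3 : 2 * k * (1 + 2 * τ / 3 + τ ^ 2 / 6) ≤ 1) (h2 : C2 k a κ lam σ)
include H

section

variable {M x v b : ℝ} (hM : 0 ≤ M) (hx : 0 ≤ x) (hv : 0 < v)
include hM hx hv

omit hv in
theorem basic : 0 ≤ a * M ∧ 0 ≤ a * x ∧ a * M ≤ M ∧ a * x ≤ x ∧ 0 ≤ k * (a * M) ∧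
    0 ≤ k * (a * x) ∧ k * (a * M) ≤ a * M / 2 ∧ k * (a * x) ≤ x / 2 ∧ 0 ≤ q * x - x ∧
    q * x + 2 * (k * (a * x)) ≤ 2 * x ∧ κ * x = q * x + 2 * (k * (a * x)) := by
  have hk0 := H.k0
  have hk1 := H.k1
  have e1 : 0 ≤ a * M := mul_nonneg H.a0 hM
  have e2 : 0 ≤ a * x := mul_nonneg H.a0 hx
  have e3 : a * M ≤ M := by nlinarith [H.a1]
  have e4 : a * x ≤ x := by nlinarith [H.a1]
  have e5 : κ * x ≤ 2 * x := mul_le_mul_of_nonneg_right H.κ2 hx
  have e6 : κ * x = q * x + 2 * (k * (a * x)) := by rw [H.hκ]; ring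
  refine ⟨e1, e2, e3, e4, mul_nonneg (by linarith) e1, mul_nonneg (by linarith) e2, ?_, ?_, ?_,
    by linarith, e6⟩
  · nlinarith
  · nlinarith
  · nlinarith [H.q1]

theorem row_lo (h : b ≤ x + (1 - k) * v) :
    Row k a κ lam σ M x v b (b - q * x - k * (a * M + a * x)) := by
  obtain ⟨e1, e2, e3, e4, e5, e6, e7, e8, e9, e10, e11⟩ := H.basic hM hx
  have hkv : 0 ≤ k * v := mul_nonneg (by linarith [H.k0]) hv.le
  refine ⟨⟨fun _ => by linarith, by linarith⟩, fun J β hJ0 hJ hβ _ => ?_, fun _ => by linarith, ?_⟩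
  · have : 0 ≤ (1 - J) * (k * (a * M) + k * (a * x)) := mul_nonneg (by linarith) (by linarith)
    linarith
  · obtain ⟨μ, hμ⟩ := H.coreE (v := v) hM hx
    refine ⟨(1 - k) * (M + x - v) + (x + (1 - k) * v - b), μ - (1 - k), le_of_eq ?_,
      fun y J hy hJ0 hJ hc => ?_⟩
    · rw [H.hκ]; ring
    · have g1 := hμ y J hy hJ0 hJ hc
      have g2 : 0 ≤ (1 - J) * (x + (1 - k) * v - b) := mul_nonneg (by linarith) (by linarith)
      linarith

theorem row_small (hvm : v ≤ M + x) {d : ℝ} (hd0 : 0 ≤ d) (hd1 : d ≤ k * v)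
    (hd : d = b - x - (1 - k) * v ∨ (d = k * v ∧ x + v ≤ b)) :
    Row k a κ lam σ M x v b ((1 - k) * v - (q - 1) * x - k * (a * M + a * x) + (1 - a) * d) := by
  obtain ⟨e1, e2, e3, e4, e5, e6, e7, e8, e9, e10, e11⟩ := H.basic hM hx
  have hk0 := H.k0
  have hkv : 0 ≤ k * v := mul_nonneg (by linarith) hv.le
  have hkv1 : k * v ≤ v / 2 := by nlinarith [H.k1]
  have had : 0 ≤ a * d := mul_nonneg H.a0 hd0
  have had1 : a * d ≤ d := by nlinarith [H.a1]
  have hav : a * v ≤ a * (M + x) := mul_le_mul_of_nonneg_left hvm H.a0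
  have hav1 : a * v ≤ v := by nlinarith [H.a1]
  have hkav : k * (a * v) ≤ k * (a * (M + x)) := mul_le_mul_of_nonneg_left hav (by linarith)
  have had2 : a * d ≤ a * (k * v) := mul_le_mul_of_nonneg_left hd1 H.a0
  refine ⟨⟨fun _ => by linarith, by linarith⟩, fun J β hJ0 hJ hβ hβ' => ?_, fun hh => ?_, ?_⟩
  · have g1 : 0 ≤ (1 - J) * (k * (a * (M + x)) - k * (a * v)) :=
      mul_nonneg (by linarith) (by linarith)
    rcases hd with hd | ⟨hd, hd'⟩
    · have g2 : a * (b - x - v + k * v * J) ≤ a * β := mul_le_mul_of_nonneg_left hβ' H.a0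
      have g3 : a * β ≤ β := by nlinarith [H.a1]
      have g4 : a * d = a * (b - x - (1 - k) * v) := by rw [← hd]
      linarith
    · have g2 : 0 ≤ J * (k * (v - a * v)) :=
        mul_nonneg hJ0 (mul_nonneg (by linarith) (by linarith))
      subst hd
      linarith
  · rcases hd with hd | ⟨hd, hd'⟩
    · linarith
    · subst hd
      linarith
  · obtain ⟨μ, hμ⟩ := H.coreE (v := v) hM hx
    refine ⟨(1 - k) * (M + x - v), μ - (1 - k), ?_, fun y J hy hJ0 hJ hc => ?_⟩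
    · have g1 : (1 - a) * d ≤ (1 - a) * (b - x - (1 - k) * v) := by
        refine mul_le_mul_of_nonneg_left ?_ (by linarith [H.a1])
        rcases hd with hd | ⟨hd, hd'⟩ <;> linarith
      have g2 : κ * x = q * x + 2 * k * a * x := by rw [H.hκ]; ring
      linarith
    · have g1 := hμ y J hy hJ0 hJ hc
      have g2 : 0 ≤ J * ((1 - a) * d) := mul_nonneg hJ0 (mul_nonneg (by linarith [H.a1]) hd0)
      linarith

include h3 h2 in
omit hv in
theorem coreC (hvm : M + x ≤ v) :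
    ∃ μ : ℝ, ∀ y J : ℝ, 0 ≤ y → 0 ≤ J → J ≤ 1 → (J = 1 ∨ v - x - y ≤ k * v * J) →
      0 ≤ (y - (v - x)) + J * (v - (κ - 1) * x - 2 * k * a * M) +
        (1 - J) * max (y - κ * x) 0 + lam * max (M - κ * y) 0 - lam * max (M - κ * x) 0 -
        μ * (y - M) + σ * (x + M) := by
  rcases le_total M (κ * x) with hw | hw
  · obtain ⟨μ, hμ⟩ := h2 M x v hM hx hw hvm
    have hθx : max (M - κ * x) 0 = 0 := max_eq_right (by linarith)
    rw [hθx]
    exact ⟨μ, fun y J hy hJ0 hJ hc => by linarith [hμ y J hy hJ0 hJ hc]⟩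
  · exact H.coreC1 h3 hx hw hvm

include h3 h2 in
theorem row_large (hvm : M + x ≤ v) {r : ℝ} (hr0 : 0 ≤ r) (hr1 : r ≤ 1)
    (hr : r * (k * v) = b - x - (1 - k) * v ∨ (r = 1 ∧ x + v ≤ b)) :
    Row k a κ lam σ M x v b
      ((1 - k) * v - (q - 1) * x - k * (a * M + a * x) + r * (k * (v - (a * M + a * x)))) := by
  obtain ⟨e1, e2, e3, e4, e5, e6, e7, e8, e9, e10, e11⟩ := H.basic hM hx
  have hk0 := H.k0
  have hkv : 0 ≤ k * v := mul_nonneg (by linarith) hv.le
  have hkv1 : k * v ≤ v / 2 := by nlinarith [H.k1]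
  have hs : 0 ≤ k * (v - (a * M + a * x)) := mul_nonneg (by linarith) (by linarith)
  have hrs : 0 ≤ r * (k * (v - (a * M + a * x))) := mul_nonneg hr0 hs
  have hrs1 : r * (k * (v - (a * M + a * x))) ≤ k * (v - (a * M + a * x)) := by nlinarith
  have hrk : 0 ≤ (1 - r) * (k * (a * M) + k * (a * x)) := mul_nonneg (by linarith) (by linarith)
  refine ⟨⟨fun _ => by linarith, by linarith⟩, fun J β hJ0 hJ hβ hβ' => ?_, fun hh => ?_, ?_⟩
  · rcases hr with hr | ⟨hr, hr'⟩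
    · rcases le_total J (1 - r) with g | g
      · have g1 : 0 ≤ (1 - r - J) * (k * (a * M) + k * (a * x)) :=
          mul_nonneg (by linarith) (by linarith)
        linarith
      · have g1 : 0 ≤ (J - (1 - r)) * (k * (v - (a * M + a * x))) := mul_nonneg (by linarith) hs
        linarith
    · have g1 : 0 ≤ J * (k * (v - (a * M + a * x))) := mul_nonneg hJ0 hs
      subst hr
      linarith
  · rcases hr with hr | ⟨hr, hr'⟩
    · linarith
    · subst hr
      linarith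
  · obtain ⟨μ, hμ⟩ := H.coreE (v := v) hM hx
    obtain ⟨μ', hμ'⟩ := H.coreC h3 h2 hM hx hvm
    refine ⟨(1 - r) * ((1 - k) * (M + x - v)) + r * (M + x - v),
      (1 - r) * (μ - (1 - k)) + r * (μ' - 1), ?_, fun y J hy hJ0 hJ hc => ?_⟩
    · have g1 : (1 - a) * (r * (k * v)) ≤ (1 - a) * (b - x - (1 - k) * v) := by
        refine mul_le_mul_of_nonneg_left ?_ (by linarith [H.a1])
        rcases hr with hr | ⟨hr, hr'⟩
        · linarith
        · subst hr; linarith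
      have g2 : κ * x = q * x + 2 * k * a * x := by rw [H.hκ]; ring
      linarith
    · have g1 := mul_nonneg (show 0 ≤ 1 - r by linarith) (hμ y J hy hJ0 hJ hc)
      have g2 := mul_nonneg hr0 (hμ' y J hy hJ0 hJ hc)
      have g3 : r * (J * (κ * x)) = r * (J * (q * x + 2 * (k * (a * x)))) := by rw [e11]
      linarith

include h3 h2 in
theorem row_exists : ∃ F, Row k a κ lam σ M x v b F := by
  have hkv : 0 < k * v := mul_pos (by linarith [H.k0]) hv
  rcases le_total b (x + (1 - k) * v) with h | h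
  · exact ⟨_, H.row_lo hM hx hv h⟩
  rcases le_total v (M + x) with hvm | hvm
  · rcases le_total b (x + v) with g | g
    · exact ⟨_, H.row_small hM hx hv hvm (d := b - x - (1 - k) * v) (by linarith) (by linarith)
        (Or.inl rfl)⟩
    · exact ⟨_, H.row_small hM hx hv hvm (d := k * v) hkv.le le_rfl (Or.inr ⟨rfl, g⟩)⟩
  · rcases le_total b (x + v) with g | g
    · exact ⟨_, H.row_large h3 h2 hM hx hv hvm (r := (b - x - (1 - k) * v) / (k * v))
        (div_nonneg (by linarith) hkv.le) ((div_le_one hkv).2 (by linarith))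
        (Or.inl (div_mul_cancel₀ _ hkv.ne'))⟩
    · exact ⟨_, H.row_large h3 h2 hM hx hv hvm (r := 1) zero_le_one le_rfl (Or.inr ⟨rfl, g⟩)⟩

end

end Pa

end Vale.Agent.P334.Stat
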