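import Vale.Agent.P334.StaticRow
import Mathlib.Algebra.BigOperators.Ring.Finset
import Mathlib.Algebra.Order.BigOperators.Ring.Finset

/-!
Summation of the inequalities of the facilities.
-/

namespace Vale.Agent.P334.Stat

open Finset

variable {ι : Type} {s : Finset ι} {ν x v b F : ι → ℝ} {k a κ lam σ M : ℝ}

theorem row_sum {i : ι} (ha : a = ∑ c ∈ s, ν c) (hG : a * M = ∑ c ∈ s, ν c * x c)
    (hν : ∀ c ∈ s, 0 ≤ ν c) (hx : ∀ c ∈ s, 0 ≤ x c)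
    (hR : Row k a κ lam σ M (x i) (v i) (b i) (F i)) (J : ι → ℝ)
    (hJ : ∀ c ∈ s, 0 ≤ J c ∧ J c ≤ 1 ∧ (J c = 1 ∨ v i - x i - x c ≤ k * v i * J c)) :
    F i * (1 - ∑ c ∈ s, ν c * J c) - ∑ c ∈ s, ν c * (1 - J c) * max 0 (x c - κ * x i) ≤
      (1 - a) * b i + (1 - 2 * k) * (a * M) + (2 * a - κ) * x i + a * σ * (x i + M) +
        ∑ c ∈ s, ν c * (lam * max (M - κ * x c) 0) - a * (lam * max (M - κ * x i) 0) := by
  obtain ⟨C, μ, hC, hp⟩ := hR.2.2.2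
  have h1 : 0 ≤ ∑ c ∈ s, ν c * (C + J c * F i + (1 - J c) * max (x c - κ * x i) 0 +
      lam * max (M - κ * x c) 0 - lam * max (M - κ * x i) 0 - μ * (x c - M) + σ * (x i + M)) :=
    sum_nonneg fun c hc => mul_nonneg (hν c hc)
      (hp _ _ (hx c hc) (hJ c hc).1 (hJ c hc).2.1 (hJ c hc).2.2)
  have h2 : ∑ c ∈ s, ν c * (C + J c * F i + (1 - J c) * max (x c - κ * x i) 0 +
      lam * max (M - κ * x c) 0 - lam * max (M - κ * x i) 0 - μ * (x c - M) + σ * (x i + M)) =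
      (∑ c ∈ s, ν c) * (C - lam * max (M - κ * x i) 0 + μ * M + σ * (x i + M)) +
        F i * ∑ c ∈ s, ν c * J c + ∑ c ∈ s, ν c * (1 - J c) * max 0 (x c - κ * x i) +
        ∑ c ∈ s, ν c * (lam * max (M - κ * x c) 0) - μ * ∑ c ∈ s, ν c * x c := by
    simp only [sum_mul, mul_sum, ← sum_add_distrib, ← sum_sub_distrib]
    refine sum_congr rfl fun c _ => ?_
    rw [max_comm 0]; ring
  rw [h2, ← ha, ← hG] at h1
  linarith

theorem all_sum {q τ : ℝ} (hκ : κ = q + 2 * k * a) (hσ : σ = k * (a - τ) ^ 2) (hk : 0 ≤ k)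
    (ha1 : a ≤ 1) (hM : 0 ≤ M) (ha : a = ∑ c ∈ s, ν c) (hG : a * M = ∑ c ∈ s, ν c * x c)
    (hν : ∀ c ∈ s, 0 ≤ ν c) (hx : ∀ c ∈ s, 0 ≤ x c)
    (hR : ∀ i ∈ s, Row k a κ lam σ M (x i) (v i) (b i) (F i)) (J : ι → ι → ℝ)
    (hJ : ∀ i ∈ s, ∀ c ∈ s,
      0 ≤ J i c ∧ J i c ≤ 1 ∧ (J i c = 1 ∨ v i - x i - x c ≤ k * v i * J i c)) :
    ∑ i ∈ s, ν i * F i * (1 - ∑ c ∈ s, ν c * J i c) -
        ∑ i ∈ s, ∑ c ∈ s, ν i * ν c * (1 - J i c) * max 0 (x c - κ * x i) ≤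
      (1 - a) * ∑ i ∈ s, ν i * b i + a * M * (3 * a - q - 2 * (2 * k) * a + 2 * k * (a - τ) ^ 2) := by
  have ha0 : 0 ≤ a := ha ▸ sum_nonneg hν
  set Θ := ∑ c ∈ s, ν c * (lam * max (M - κ * x c) 0) with hΘ
  have h1 : ∑ i ∈ s, ν i * (F i * (1 - ∑ c ∈ s, ν c * J i c) -
      ∑ c ∈ s, ν c * (1 - J i c) * max 0 (x c - κ * x i)) ≤
      ∑ i ∈ s, ν i * ((1 - a) * b i + (1 - 2 * k) * (a * M) + (2 * a - κ) * x i +
        a * σ * (x i + M) + Θ - a * (lam * max (M - κ * x i) 0)) :=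
    sum_le_sum fun i hi => mul_le_mul_of_nonneg_left
      (row_sum ha hG hν hx (hR i hi) (J i) (hJ i hi)) (hν i hi)
  have h2 : ∑ i ∈ s, ν i * (F i * (1 - ∑ c ∈ s, ν c * J i c) -
      ∑ c ∈ s, ν c * (1 - J i c) * max 0 (x c - κ * x i)) =
      ∑ i ∈ s, ν i * F i * (1 - ∑ c ∈ s, ν c * J i c) -
        ∑ i ∈ s, ∑ c ∈ s, ν i * ν c * (1 - J i c) * max 0 (x c - κ * x i) := by
    rw [← sum_sub_distrib]
    refine sum_congr rfl fun i _ => ?_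
    rw [mul_sub, mul_sum s _ (ν i)]
    congr 1
    · ring
    · exact sum_congr rfl fun c _ => by ring
  have h3 : ∑ i ∈ s, ν i * ((1 - a) * b i + (1 - 2 * k) * (a * M) + (2 * a - κ) * x i +
        a * σ * (x i + M) + Θ - a * (lam * max (M - κ * x i) 0)) =
      (1 - a) * ∑ i ∈ s, ν i * b i + (∑ i ∈ s, ν i) * ((1 - 2 * k) * (a * M) + a * σ * M + Θ) +
        (2 * a - κ + a * σ) * ∑ i ∈ s, ν i * x i - a * Θ := by
    conv_rhs => rw [hΘ]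
    simp only [sum_mul, mul_sum, ← sum_add_distrib, ← sum_sub_distrib]
    refine sum_congr rfl fun c _ => ?_
    rw [← hΘ]; ring
  rw [h2, h3, ← ha, ← hG] at h1
  have h4 : 0 ≤ (1 - a) * (σ * (a * M)) :=
    mul_nonneg (by linarith) (mul_nonneg (hσ ▸ mul_nonneg hk (sq_nonneg _)) (mul_nonneg ha0 hM))
  have h5 : σ * (a * M) = k * (a - τ) ^ 2 * (a * M) := by rw [hσ]
  have h6 : κ * (a * M) = (q + 2 * k * a) * (a * M) := by rw [hκ]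
  linarith

theorem mul_sum_le {J : ι → ℝ} {G : ℝ} (ha : a = ∑ c ∈ s, ν c) (hG : G = ∑ c ∈ s, ν c * x c)
    (hν : ∀ c ∈ s, 0 ≤ ν c) (hx : ∀ c ∈ s, 0 ≤ x c) :
    2 * ((∑ i ∈ s, ν i * J i) * ∑ i ∈ s, ν i * J i * x i) ≤
      ∑ i ∈ s, ν i * J i * (J i * (G + a * x i)) := by
  have h1 : 0 ≤ ∑ i ∈ s, ∑ c ∈ s, ν i * ν c * x c * (J i - J c) ^ 2 :=
    sum_nonneg fun i hi => sum_nonneg fun c hc =>
      mul_nonneg (mul_nonneg (mul_nonneg (hν i hi) (hν c hc)) (hx c hc)) (sq_nonneg _)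
  have h2 : ∑ i ∈ s, ∑ c ∈ s, ν i * ν c * x c * (J i - J c) ^ 2 =
      (∑ i ∈ s, ν i * J i ^ 2) * (∑ c ∈ s, ν c * x c) +
        (∑ i ∈ s, ν i) * (∑ c ∈ s, ν c * J c ^ 2 * x c) -
        2 * ((∑ i ∈ s, ν i * J i) * ∑ c ∈ s, ν c * J c * x c) := by
    rw [sum_mul_sum, sum_mul_sum, sum_mul_sum]
    simp only [mul_sum, ← sum_add_distrib, ← sum_sub_distrib]
    refine sum_congr rfl fun i _ => sum_congr rfl fun c _ => by ring
  have h3 : ∑ i ∈ s, ν i * J i * (J i * (G + a * x i)) =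
      (∑ i ∈ s, ν i * J i ^ 2) * G + a * ∑ c ∈ s, ν c * J c ^ 2 * x c := by
    simp only [sum_mul, mul_sum, ← sum_add_distrib]
    refine sum_congr rfl fun i _ => by ring
  rw [h2, ← ha, ← hG] at h1
  linarith

theorem exists_mean {G : ℝ} (ha : a = ∑ c ∈ s, ν c) (hG : G = ∑ c ∈ s, ν c * x c)
    (hν : ∀ c ∈ s, 0 ≤ ν c) (hx : ∀ c ∈ s, 0 ≤ x c) : ∃ M, 0 ≤ M ∧ G = a * M := by
  have ha0 : 0 ≤ a := ha ▸ sum_nonneg hν
  have hG0 : 0 ≤ G := hG ▸ sum_nonneg fun c hc => mul_nonneg (hν c hc) (hx c hc)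
  rcases ha0.eq_or_lt with h | h
  · refine ⟨0, le_rfl, ?_⟩
    have : ∀ c ∈ s, ν c = 0 := (sum_eq_zero_iff_of_nonneg hν).1 (by rw [← ha, ← h])
    rw [hG, mul_zero]
    exact sum_eq_zero fun c hc => by rw [this c hc, zero_mul]
  · exact ⟨G / a, div_nonneg hG0 ha0, by field_simp⟩

end Vale.Agent.P334.Stat
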