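import Vale.Agent.P334.StepUnit

/-!
The potential of a client is a supermartingale of the rounding process.
-/

namespace Vale.Agent.P334.Step

open Finset

variable {ι : Type} {s : Finset ι} {x y ν v σ : ι → ℝ} {J : ι → ι → ℝ} {ε b p q τ a G : ℝ}

theorem cross_le {t : ι → ℝ} (hν : ∀ i ∈ s, 0 ≤ ν i) (hx : ∀ i ∈ s, 0 ≤ x i)
    (ha : a = ∑ i ∈ s, ν i) (hG : G = ∑ i ∈ s, ν i * x i) :
    (∑ i ∈ s, ν i * t i) * ∑ i ∈ s, ν i * t i * x i ≤
      ∑ i ∈ s, ν i * t i * ((a * x i + G) * t i / 2) := by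
  have e1 : (∑ i ∈ s, ν i * t i) * ∑ i ∈ s, ν i * t i * x i =
      ∑ i ∈ s, ∑ c ∈ s, ν i * ν c * x c * (t i * t c) := by
    rw [sum_mul_sum]
    exact sum_congr rfl fun i _ => sum_congr rfl fun c _ => by ring
  have e2 : ∑ i ∈ s, ν i * t i * ((a * x i + G) * t i / 2) =
      ∑ i ∈ s, ∑ c ∈ s, ν i * ν c * x c * (t c ^ 2 / 2) +
        ∑ i ∈ s, ∑ c ∈ s, ν i * ν c * x c * (t i ^ 2 / 2) := by
    rw [sum_comm, ← sum_add_distrib]
    refine sum_congr rfl fun i _ => ?_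
    have f1 : ∑ c ∈ s, ν c * ν i * x i * (t i ^ 2 / 2) = a * (ν i * x i * (t i ^ 2 / 2)) := by
      rw [ha, sum_mul]
      exact sum_congr rfl fun c _ => by ring
    have f2 : ∑ c ∈ s, ν i * ν c * x c * (t i ^ 2 / 2) = G * (ν i * (t i ^ 2 / 2)) := by
      rw [hG, sum_mul]
      exact sum_congr rfl fun c _ => by ring
    rw [f1, f2]
    ring
  rw [e1, e2, ← sum_add_distrib]
  refine sum_le_sum fun i hi => ?_
  rw [← sum_add_distrib]
  refine sum_le_sum fun c hc => ?_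
  have h := mul_nonneg (mul_nonneg (mul_nonneg (hν i hi) (hν c hc)) (hx c hc))
    (sq_nonneg (t i - t c))
  nlinarith

theorem pair_sum (ha : a = ∑ i ∈ s, ν i) (hG : G = ∑ i ∈ s, ν i * x i) (α β : ℝ) :
    ∑ i ∈ s, ∑ c ∈ s, ν i * ν c * (α * x i + β * x c) = (α + β) * (a * G) := by
  have e : ∀ i ∈ s, ∑ c ∈ s, ν i * ν c * (α * x i + β * x c) =
      α * a * (ν i * x i) + β * G * ν i := fun i _ => by
    have : ∑ c ∈ s, ν i * ν c * (α * x i + β * x c) =
        ∑ c ∈ s, (α * (ν i * x i) * ν c + β * ν i * (ν c * x c)) :=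
      sum_congr rfl fun c _ => by ring
    rw [this, sum_add_distrib, ← mul_sum, ← mul_sum, ← ha, ← hG]
    ring
  rw [sum_congr rfl e, sum_add_distrib, ← mul_sum, ← mul_sum, ← ha, ← hG]
  ring

/-- The mass of the sub-measure whose opening does not remove `i`. -/
noncomputable def miss (s : Finset ι) (ν : ι → ℝ) (J : ι → ι → ℝ) (i : ι) : ℝ :=
  ∑ c ∈ s, ν c * (1 - J i c)

theorem miss_eq (ha : a = ∑ i ∈ s, ν i) (i : ι) : miss s ν J i = a - ∑ c ∈ s, ν c * J i c := by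
  rw [miss, ha, ← sum_sub_distrib]
  exact sum_congr rfl fun c _ => by ring

theorem miss_nonneg (E : Env s ε p b x y v σ J) (h : Sub s y ν) {i : ι} (hi : i ∈ s) :
    0 ≤ miss s ν J i :=
  sum_nonneg fun c hc => mul_nonneg (h.1 c hc).1 (sub_nonneg.2 (E.J_le i hi c hc))

theorem miss_le (E : Env s ε p b x y v σ J) (h : Sub s y ν) (ha : a = ∑ i ∈ s, ν i) {i : ι}
    (hi : i ∈ s) : miss s ν J i ≤ a := by
  rw [miss_eq ha]
  have : 0 ≤ ∑ c ∈ s, ν c * J i c :=
    sum_nonneg fun c hc => mul_nonneg (h.1 c hc).1 (E.J_nonneg i hi c hc)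
  linarith

theorem miss_v (E : Env s ε p b x y v σ J) (h : Sub s y ν) (hG : G = ∑ i ∈ s, ν i * x i) :
    ∑ i ∈ s, ν i * (miss s ν J i * v i) ≤ 4 * G := by
  have h1 := pair_sum (s := s) (ν := ν) rfl hG 2 2
  have h2 : ∑ i ∈ s, ν i * (miss s ν J i * v i) ≤
      ∑ i ∈ s, ∑ c ∈ s, ν i * ν c * (2 * x i + 2 * x c) := by
    refine sum_le_sum fun i hi => ?_
    rw [miss, sum_mul, mul_sum]
    refine sum_le_sum fun c hc => ?_
    have h3 : (1 - J i c) * v i ≤ 2 * x i + 2 * x c := by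
      rcases (E.J_le i hi c hc).eq_or_lt with e | e
      · rw [e]
        linarith [E.x_nonneg i hi, E.x_nonneg c hc]
      · nlinarith [E.ker_one i hi c hc e, E.J_nonneg i hi c hc, E.v_pos i hi]
    nlinarith [mul_le_mul_of_nonneg_left h3 (mul_nonneg (h.1 i hi).1 (h.1 c hc).1)]
  have h3 : 0 ≤ G := hG ▸ h.G_nonneg E.x_nonneg
  nlinarith [mul_le_mul_of_nonneg_right h.2 h3]

theorem miss_x (E : Env s ε p b x y v σ J) (h : Sub s y ν) (hG : G = ∑ i ∈ s, ν i * x i) :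
    ∑ i ∈ s, ν i * (miss s ν J i * x i) ≤ G := by
  rw [hG]
  refine sum_le_sum fun i hi => mul_le_mul_of_nonneg_left ?_ (h.1 i hi).1
  exact mul_le_of_le_one_left (E.x_nonneg i hi) ((miss_le E h rfl hi).trans h.2)

theorem miss_b (E : Env s ε p b x y v σ J) (h : Sub s y ν) (hε' : ε ≤ 1 / 20)
    (hp : 0 ≤ p) (hG : G = ∑ i ∈ s, ν i * x i) {bR : ι → ℝ}
    (hbR : ∀ c ∈ s, 0 ≤ bR c ∧ bR c ≤ b ∧ bR c ≤ x c) :
    (∑ i ∈ s, ν i * miss s ν J i) * b ≤ ∑ c ∈ s, (y c - ν c) * (b - bR c) + 9 * G := by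
  have h1 : ∀ i ∈ s, miss s ν J i * b ≤ ∑ c ∈ s, (y c - ν c) * J i c * (b - bR c) +
      (miss s ν J i * x i + 2 * (miss s ν J i * v i)) := fun i hi => by
    have hn := miss_nonneg E h hi
    have hv := E.v_pos i hi
    rcases le_or_gt b (x i + 2 * v i) with hb | hb
    · have : 0 ≤ ∑ c ∈ s, (y c - ν c) * J i c * (b - bR c) := sum_nonneg fun c hc =>
        mul_nonneg (mul_nonneg (sub_nonneg.2 (h.1 c hc).2) (E.J_nonneg i hi c hc))
          (sub_nonneg.2 (hbR c hc).2.1)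
      nlinarith [mul_le_mul_of_nonneg_left hb hn]
    · have hσ : σ i = 0 := by
        rcases (E.σ_nonneg i hi).eq_or_lt with e | e
        · exact e.symm
        · nlinarith [E.decay i hi e]
      have h2 : (∑ c ∈ s, (y c - ν c) * J i c) * (b - x i - v i) ≤
          ∑ c ∈ s, (y c - ν c) * J i c * (b - bR c) := by
        rw [sum_mul]
        refine sum_le_sum fun c hc => ?_
        rcases (E.J_nonneg i hi c hc).eq_or_lt with e | e
        · rw [← e]
          simp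
        · refine mul_le_mul_of_nonneg_left ?_ (mul_nonneg (sub_nonneg.2 (h.1 c hc).2) e.le)
          have : 0 ≤ p * v i * J i c := by positivity
          linarith [E.ker_le i hi c hc e, (hbR c hc).2.2]
      have h3 : miss s ν J i ≤ ∑ c ∈ s, (y c - ν c) * J i c := by
        have := E.row_ge i hi
        rw [miss_eq rfl]
        simp only [sub_mul, sum_sub_distrib]
        linarith [h.2]
      nlinarith [mul_le_mul_of_nonneg_right h3 (by linarith : 0 ≤ b - x i - v i),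
        mul_nonneg hn hv.le]
  have h2 : ∑ i ∈ s, ν i * ∑ c ∈ s, (y c - ν c) * J i c * (b - bR c) ≤
      ∑ c ∈ s, (y c - ν c) * (b - bR c) := by
    simp only [mul_sum]
    rw [sum_comm]
    refine sum_le_sum fun c hc => ?_
    have e : ∑ i ∈ s, ν i * ((y c - ν c) * J i c * (b - bR c)) =
        (∑ i ∈ s, ν i * J i c) * ((y c - ν c) * (b - bR c)) := by
      rw [sum_mul]
      exact sum_congr rfl fun i _ => by ring
    rw [e]
    refine mul_le_of_le_one_left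
      (mul_nonneg (sub_nonneg.2 (h.1 c hc).2) (sub_nonneg.2 (hbR c hc).2.1)) ?_
    exact (sum_le_sum fun i hi => by nlinarith [(h.1 i hi).1, E.J_le i hi c hc]).trans h.2
  have h3 := sum_le_sum fun i hi => mul_le_mul_of_nonneg_left (h1 i hi) (h.1 i hi).1
  have e1 : ∑ i ∈ s, ν i * (miss s ν J i * b) = (∑ i ∈ s, ν i * miss s ν J i) * b := by
    rw [sum_mul]
    exact sum_congr rfl fun i _ => by ring
  have e2 : ∑ i ∈ s, ν i * (∑ c ∈ s, (y c - ν c) * J i c * (b - bR c) +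
      (miss s ν J i * x i + 2 * (miss s ν J i * v i))) =
      ∑ i ∈ s, ν i * ∑ c ∈ s, (y c - ν c) * J i c * (b - bR c) +
        (∑ i ∈ s, ν i * (miss s ν J i * x i) + 2 * ∑ i ∈ s, ν i * (miss s ν J i * v i)) := by
    rw [mul_sum, ← sum_add_distrib, ← sum_add_distrib]
    exact sum_congr rfl fun i _ => by ring
  rw [e1, e2] at h3
  linarith [miss_v E h hG, miss_x E h hG]

/-- The static inequality with shifted distances. -/
theorem static_shift (hst : Static p q τ) (E : Env s ε p b x y v σ J) (h : Sub s y ν) (hε : 0 ≤ ε)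
    (hp : 0 ≤ p) (hp1 : p ≤ 1) (hq : 0 ≤ q) (hpq : q + p ≤ 2) (ha : a = ∑ i ∈ s, ν i)
    (hG : G = ∑ i ∈ s, ν i * x i) : ∃ f : ι → ℝ,
      (∀ i ∈ s, -(G + 2 * x i) ≤ f i) ∧ (∀ i ∈ s, f i ≤ (1 + 4 * ε) * v i + 3 / 2 * x i) ∧
      (∀ i ∈ s, ∀ t : ℝ, 0 ≤ t → t ≤ 1 →
        b - p * G - (q + p * a) * x i + p * (a * x i + G) * t / 2 -
          max 0 (b - x i - 4 * ε * v i - v i + p * v i * t / 2) ≤ f i) ∧
      ∑ i ∈ s, ν i * (f i * (1 - a + miss s ν J i)) -
          ∑ i ∈ s, ∑ c ∈ s, ν i * ν c * (1 - J i c) * max 0 (x c - (q + p * a) * x i) ≤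
        a * (1 - a) * b + G * (3 * a - q - 2 * p * a + p * (a - τ) ^ 2) + 22 * ε * G := by
  have ha1 : a ≤ 1 := ha ▸ h.2
  have ha0 : 0 ≤ a := ha ▸ h.mass_nonneg
  have hG0 : 0 ≤ G := hG ▸ h.G_nonneg E.x_nonneg
  have hC0 : 0 ≤ q + p * a := by positivity
  have hpa : p * a ≤ p := mul_le_of_le_one_right hp ha1
  have hpG : p * G ≤ G := mul_le_of_le_one_left hG0 hp1
  obtain ⟨F, hF1, hF2⟩ := hst ι s ν x v (fun i => b - x i - 4 * ε * v i) a G ha hG ha1
    (fun i hi => (h.1 i hi).1) E.x_nonneg E.v_pos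
  have hE : ∀ i ∈ s, ∀ t : ℝ, 0 ≤ t → t ≤ 1 →
      b - p * G - (q + p * a) * x i + p * (a * x i + G) * t / 2 -
        max 0 (b - x i - 4 * ε * v i - v i + p * v i * t / 2) ≤
          min (F i) (v i + 3 / 2 * x i) + 4 * ε * v i := fun i hi t ht0 ht1 => by
    have h1 := hF1 i hi t ht0 ht1
    have hx := E.x_nonneg i hi
    have hv := E.v_pos i hi
    have h2 := le_max_right 0 (b - x i - 4 * ε * v i - v i + p * v i * t / 2)
    have h3 : 0 ≤ p * v i * t := by positivity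
    have h4 : p * (a * x i + G) * t ≤ p * (a * x i + G) :=
      mul_le_of_le_one_right (by positivity) ht1
    have h5 : p * a * x i ≤ x i := mul_le_of_le_one_left hx (hpa.trans hp1)
    have h6 : 0 ≤ (q + p * a) * x i := by positivity
    have h7 : 0 ≤ p * G := by positivity
    rw [← sub_le_iff_le_add]
    exact le_min (by linarith) (by nlinarith)
  refine ⟨fun i => min (F i) (v i + 3 / 2 * x i) + 4 * ε * v i, fun i hi => ?_, fun i hi => ?_,
    hE, ?_⟩
  · refine le_trans ?_ (hE i hi 0 le_rfl zero_le_one)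
    have hx := E.x_nonneg i hi
    have hv := E.v_pos i hi
    have h1 : (q + p * a) * x i ≤ 2 * x i := mul_le_mul_of_nonneg_right (by linarith) hx
    have h2 : 0 ≤ ε * v i := by positivity
    have h3 : max 0 (b - x i - 4 * ε * v i - v i + p * v i * 0 / 2) ≤ b :=
      max_le E.b_nonneg (by linarith)
    linarith
  · have := min_le_right (F i) (v i + 3 / 2 * x i)
    linarith
  have h1 := hF2 (fun i c => min 1 (J i c + ε)) fun i hi c hc =>
    ⟨le_min zero_le_one (by linarith [E.J_nonneg i hi c hc]), min_le_left _ _, fun hlt => by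
      have h2 : J i c + ε < 1 := by simpa using hlt
      rw [min_eq_right h2.le]
      exact E.ker_ge i hi c hc (by linarith)⟩
  have h2 : ∀ i ∈ s, ν i * ((min (F i) (v i + 3 / 2 * x i) + 4 * ε * v i) * (1 - a + miss s ν J i)) -
      ∑ c ∈ s, ν i * ν c * (1 - J i c) * max 0 (x c - (q + p * a) * x i) ≤
      ν i * F i * (1 - ∑ c ∈ s, ν c * min 1 (J i c + ε)) -
        ∑ c ∈ s, ν i * ν c * (1 - min 1 (J i c + ε)) * max 0 (x c - (q + p * a) * x i) +
        ε * ∑ c ∈ s, ν i * ν c * (4 * x i + 2 * x c) + (1 - a) * (4 * ε) * (ν i * v i) +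
        4 * ε * (ν i * (miss s ν J i * v i)) := fun i hi => by
    have hν := (h.1 i hi).1
    have hx := E.x_nonneg i hi
    have i1 : ∑ c ∈ s, ν c * min 1 (J i c + ε) ≤ 1 :=
      (sum_le_sum fun c hc => mul_le_of_le_one_right (h.1 c hc).1 (min_le_left _ _)).trans h.2
    have i2 := mul_le_mul_of_nonneg_right
      (mul_le_mul_of_nonneg_left (min_le_left (F i) (v i + 3 / 2 * x i)) hν) (sub_nonneg.2 i1)
    have i3 : ∑ c ∈ s, ν i * ν c * (1 - min 1 (J i c + ε)) * max 0 (x c - (q + p * a) * x i) ≤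
        ∑ c ∈ s, ν i * ν c * (1 - J i c) * max 0 (x c - (q + p * a) * x i) := by
      refine sum_le_sum fun c hc => mul_le_mul_of_nonneg_right
        (mul_le_mul_of_nonneg_left ?_ (mul_nonneg hν (h.1 c hc).1)) (le_max_left _ _)
      have : J i c ≤ min 1 (J i c + ε) := le_min (E.J_le i hi c hc) (by linarith)
      linarith
    have i4 : ν i * min (F i) (v i + 3 / 2 * x i) *
        (∑ c ∈ s, ν c * min 1 (J i c + ε) - ∑ c ∈ s, ν c * J i c) ≤
        ε * ∑ c ∈ s, ν i * ν c * (4 * x i + 2 * x c) := by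
      rw [← sum_sub_distrib, mul_sum, mul_sum]
      refine sum_le_sum fun c hc => ?_
      have hxc := E.x_nonneg c hc
      have j1 : J i c ≤ min 1 (J i c + ε) := le_min (E.J_le i hi c hc) (by linarith)
      have j2 : min (F i) (v i + 3 / 2 * x i) * (min 1 (J i c + ε) - J i c) ≤
          (4 * x i + 2 * x c) * ε := by
        rcases (E.J_le i hi c hc).eq_or_lt with e | e
        · rw [e, min_eq_left (by linarith : (1 : ℝ) ≤ 1 + ε), sub_self, mul_zero]
          positivity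
        · have j3 := E.ker_one i hi c hc e
          have j4 := min_le_right (F i) (v i + 3 / 2 * x i)
          have j5 := min_le_right 1 (J i c + ε)
          refine (mul_le_mul_of_nonneg_right (j4.trans (by linarith : _ ≤ 4 * x i + 2 * x c))
            (sub_nonneg.2 j1)).trans (mul_le_mul_of_nonneg_left (by linarith) (by positivity))
      nlinarith [mul_le_mul_of_nonneg_left j2 (mul_nonneg hν (h.1 c hc).1)]
    rw [miss_eq ha]
    nlinarith
  have h3 := sum_le_sum h2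
  have e1 : ∑ i ∈ s, ν i * (b - x i - 4 * ε * v i + x i) = a * b - 4 * ε * ∑ i ∈ s, ν i * v i := by
    rw [ha, sum_mul, mul_sum, ← sum_sub_distrib]
    exact sum_congr rfl fun i _ => by ring
  simp only [sum_add_distrib, sum_sub_distrib, ← mul_sum] at h3
  rw [pair_sum ha hG] at h3
  rw [e1] at h1
  have h4 := mul_le_mul_of_nonneg_left (miss_v E h hG) hε
  have h5 := mul_le_mul_of_nonneg_left (mul_le_of_le_one_left hG0 ha1) hε
  nlinarith

theorem ext_event (E : Env s ε p b x y v σ J) (h : Sub s y ν) (hε : 0 ≤ ε) (hε' : ε ≤ 1 / 20)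
    (hp : 0 ≤ p) (ha : a = ∑ i ∈ s, ν i) (hG : G = ∑ i ∈ s, ν i * x i) {f : ι → ℝ}
    (hf0 : ∀ i ∈ s, -(G + 2 * x i) ≤ f i) (hf1 : ∀ i ∈ s, f i ≤ (1 + 4 * ε) * v i + 3 / 2 * x i)
    (hf : ∀ i ∈ s, ∀ t : ℝ, 0 ≤ t → t ≤ 1 →
      b - p * G - (q + p * a) * x i + p * (a * x i + G) * t / 2 -
        max 0 (b - x i - 4 * ε * v i - v i + p * v i * t / 2) ≤ f i) {c : ι} (hc : c ∈ s)
    {b' w : ℝ} (hb' : 0 ≤ b') (hb : b' ≤ b) (hbx : b' ≤ x c) (hw0 : 1 - ε ^ 2 ≤ w)
    (hw1 : w ≤ 1 + ε ^ 2) :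
    w * ext ε b p q a G b' (∑ i ∈ s, ν i * J i c) (∑ i ∈ s, ν i * J i c * x i) ≤
      ∑ i ∈ s, ν i * J i c * unit ε b a G (x i) (v i) (f i) - (1 - ε ^ 2) * (1 - a) * (b - b') := by
  have ha1 : a ≤ 1 := ha ▸ h.2
  have hG0 : 0 ≤ G := hG ▸ h.G_nonneg E.x_nonneg
  have hw : 0 ≤ w := by nlinarith
  have h1 := mul_le_mul_of_nonneg_left
    (cross_le (t := fun i => J i c) (fun i hi => (h.1 i hi).1) E.x_nonneg ha hG) hp
  have e1 : ∑ i ∈ s, ν i * J i c * (b - p * G - (q + p * a) * x i +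
      p * (a * x i + G) * J i c / 2 - (b - b') + 2 * ε ^ 2 * max 0 (2 * a - 1) * b' -
      2 * ε ^ 2 * max 0 (1 - 2 * a) * b - 40 * ε * x i) =
      (b' - p * G + 2 * ε ^ 2 * max 0 (2 * a - 1) * b' - 2 * ε ^ 2 * max 0 (1 - 2 * a) * b) *
        ∑ i ∈ s, ν i * J i c - (q + p * a + 40 * ε) * ∑ i ∈ s, ν i * J i c * x i +
        p * ∑ i ∈ s, ν i * J i c * ((a * x i + G) * J i c / 2) := by
    rw [mul_sum, mul_sum, mul_sum, ← sum_sub_distrib, ← sum_add_distrib]
    exact sum_congr rfl fun i _ => by ring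
  have h2 : ext ε b p q a G b' (∑ i ∈ s, ν i * J i c) (∑ i ∈ s, ν i * J i c * x i) ≤
      ∑ i ∈ s, ν i * J i c * (b - p * G - (q + p * a) * x i +
        p * (a * x i + G) * J i c / 2 - (b - b') + 2 * ε ^ 2 * max 0 (2 * a - 1) * b' -
        2 * ε ^ 2 * max 0 (1 - 2 * a) * b - 40 * ε * x i) - (1 - a) * (b - b') := by
    rw [e1]
    unfold ext
    linarith
  have h3 : w * ∑ i ∈ s, ν i * J i c * (b - p * G - (q + p * a) * x i +
        p * (a * x i + G) * J i c / 2 - (b - b') + 2 * ε ^ 2 * max 0 (2 * a - 1) * b' -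
        2 * ε ^ 2 * max 0 (1 - 2 * a) * b - 40 * ε * x i) ≤
      ∑ i ∈ s, ν i * J i c * unit ε b a G (x i) (v i) (f i) := by
    rw [mul_sum]
    refine sum_le_sum fun i hi => ?_
    rcases (E.J_nonneg i hi c hc).eq_or_lt with e | e
    · rw [← e]
      simp
    have hv := E.v_pos i hi
    have i1 := E.ker_le i hi c hc e
    have i2 : 0 ≤ p * v i * J i c := by positivity
    have i3 := spare hε (E.x_nonneg i hi) hv.le hp e.le hb (hbx.trans i1) (E.cap i hi)
    have i4 := hf i hi (J i c) e.le (E.J_le i hi c hc)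
    have i5 := unit_ring hε hε' (E.x_nonneg i hi) hv.le hG0 ha1 hb' hb (by linarith) (hf0 i hi)
      (hf1 i hi) hw0 hw1
    rw [mul_left_comm]
    refine mul_le_mul_of_nonneg_left (le_trans ?_ i5) (mul_nonneg (h.1 i hi).1 e.le)
    exact mul_le_mul_of_nonneg_left (by linarith) hw
  have h4 := mul_le_mul_of_nonneg_right hw0 (mul_nonneg (sub_nonneg.2 ha1) (sub_nonneg.2 hb))
  have h5 := mul_le_mul_of_nonneg_left h2 hw
  rw [mul_sub] at h5
  linarith

theorem final_scalar {R N NX NV M SF SX SI EXS A B : ℝ} (hε : 0 ≤ ε) (hε' : ε ≤ 1 / 20)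
    (hb : 0 ≤ b) (hp : 0 ≤ p) (hpq : q + p ≤ 2) (ha0 : 0 ≤ a) (ha : a ≤ 1) (hG : 0 ≤ G)
    (hN0 : 0 ≤ N) (hN : N ≤ a * a) (hM : 0 ≤ M) (hNX : NX ≤ G) (hNV : NV ≤ 4 * G)
    (hNb : N * b ≤ M + 9 * G) (hS : SF - EXS ≤ a * (1 - a) * b + G * R + 22 * ε * G)
    (hA : A ≤ SF + 9 * ε * G + 2 * ε * G * a + 2 * ε ^ 2 * (NX + 2 * NV) -
      (1 - ε ^ 2) * (40 * ε) * SX + 2 * ε ^ 2 *
        (max 0 (2 * a - 1) - (1 - ε ^ 2) * max 0 (1 - 2 * a)) * ((1 - a) * b) * a -
      (1 - ε ^ 2) * (1 - a) * M)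
    (hB : B ≤ (1 + 5 * ε ^ 2) * G - EXS - (a - ε ^ 2 * (a * (1 - a) + N)) *
      ((1 - a) * b + (q + p * a) * G + 2 * ε ^ 2 * (a * (1 - a) * b)) -
      (1 - ε ^ 2) * (40 * ε) * SI) (hSG : SX + SI = G) :
    ε * G + (a * (q + p * a) - 1 - R + ε) * G + A + B ≤ 0 := by
  have hη : ε ^ 2 ≤ ε / 20 := by nlinarith
  have hη0 : 0 ≤ ε ^ 2 := by positivity
  have ha' : 0 ≤ 1 - a := by linarith
  have h0 := coef_le hε hε' ha0 ha
  generalize ε ^ 2 = η at *
  generalize max 0 (2 * a - 1) - (1 - η) * max 0 (1 - 2 * a) = m at *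
  have h1 := mul_le_mul_of_nonneg_left h0 (by positivity : 0 ≤ η * (a * (1 - a) * b))
  have h2 : (a * (1 - a) + N) * ((q + p * a) * G) ≤ 2 * G := by
    have i1 : (q + p * a) * G ≤ 2 * G :=
      mul_le_mul_of_nonneg_right (by linarith [mul_le_of_le_one_right hp ha]) hG
    have i2 := mul_le_mul_of_nonneg_left i1 (by positivity : 0 ≤ a * (1 - a) + N)
    have i3 : (a * (1 - a) + N) * (2 * G) ≤ 2 * G :=
      mul_le_of_le_one_left (by positivity) (by linarith)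
    exact i2.trans i3
  have h3 := mul_le_mul_of_nonneg_left h2 hη0
  have j1 := mul_le_of_le_one_right hη0 ha
  have h4 : (1 - a) * (1 + 2 * η * a) * (N * b) ≤ 2 * ((1 - a) * M) + 10 * G := by
    have i1 := mul_le_mul_of_nonneg_left hNb (by positivity : 0 ≤ (1 - a) * (1 + 2 * η * a))
    have i2 := mul_le_mul_of_nonneg_right (by linarith : 1 + 2 * η * a ≤ 2) (mul_nonneg ha' hM)
    have i3 : (1 - a) * (1 + 2 * η * a) ≤ 10 / 9 :=
      (mul_le_of_le_one_left (by positivity) (by linarith)).trans (by linarith)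
    have i4 := mul_le_mul_of_nonneg_right i3 hG
    linarith
  have h5 := mul_le_mul_of_nonneg_left h4 hη0
  have h6 : 3 * η * ((1 - a) * M) ≤ (1 - a) * M :=
    mul_le_of_le_one_left (mul_nonneg ha' hM) (by linarith)
  have h7 := mul_le_mul_of_nonneg_left (by linarith : NX + 2 * NV ≤ 9 * G) hη0
  have h11 : 0 ≤ ε * G := by positivity
  have h8 : ε * G * a ≤ ε * G := mul_le_of_le_one_right h11 ha
  have h9 := mul_le_mul_of_nonneg_right hη hG
  have h10 : η * (ε * G) ≤ 1 / 400 * (ε * G) := mul_le_mul_of_nonneg_right (by linarith) h11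
  have e : (1 - η) * (40 * ε) * SX + (1 - η) * (40 * ε) * SI =
      40 * (ε * G) - 40 * (η * (ε * G)) := by
    rw [← hSG]
    ring
  linear_combination hA + hB + hS + h1 + h3 + h5 + h6 + 2 * h7 + 2 * h8 + 35 * h9 + 40 * h10 -
    e + 63 / 20 * h11

theorem sum_le (hst : Static p q τ) (E : Env s ε p b x y v σ J) (h : Sub s y ν) (hε : 0 ≤ ε)
    (hε' : ε ≤ 1 / 20) (hp : 0 ≤ p) (hp1 : p ≤ 1) (hq : 0 ≤ q) (hpq : q + p ≤ 2)
    (ha : a = ∑ i ∈ s, ν i) (hG : G = ∑ i ∈ s, ν i * x i) {bR w : ι → ℝ}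
    (hbR : ∀ c ∈ s, 0 ≤ bR c ∧ bR c ≤ b ∧ bR c ≤ x c)
    (hw : ∀ c ∈ s, w c = 1 + ε ^ 2 * min 1 (∑ i ∈ s, y i * J i c - 1)) :
    ε * G + (a * (q + p * a) - 1 - (3 * a - q - 2 * p * a + p * (a - τ) ^ 2) + ε) * G +
      (∑ i ∈ s, ν i * σ i * (b - p * G - (q + p * a) * x i +
          2 * ε ^ 2 * (max 0 (2 * a - 1) - max 0 (1 - 2 * a)) * b - 40 * ε * x i) +
        ∑ c ∈ s, (y c - ν c) * (w c *
          ext ε b p q a G (bR c) (∑ i ∈ s, ν i * J i c) (∑ i ∈ s, ν i * J i c * x i))) +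
      ∑ c ∈ s, ν c * (w c * int ε b p q a G (x c)
        (∑ i ∈ s, ν i * (1 - J i c) * max 0 (x c - (q + p * a) * x i))
        (∑ i ∈ s, ν i * J i c * x i)) ≤ 0 := by
  have ha1 : a ≤ 1 := ha ▸ h.2
  have ha0 : 0 ≤ a := ha ▸ h.mass_nonneg
  have hG0 : 0 ≤ G := hG ▸ h.G_nonneg E.x_nonneg
  have hη0 : 0 ≤ ε ^ 2 := by positivity
  obtain ⟨f, hf0, hf1, hf, hS⟩ := static_shift hst E h hε hp hp1 hq hpq ha hG
  have hT : ∀ c ∈ s, ∑ i ∈ s, ν i * J i c ≤ 1 := fun c hc =>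
    (sum_le_sum fun i hi => mul_le_of_le_one_right (h.1 i hi).1 (E.J_le i hi c hc)).trans h.2
  have hT0 : ∀ c ∈ s, 0 ≤ ∑ i ∈ s, ν i * J i c := fun c hc =>
    sum_nonneg fun i hi => mul_nonneg (h.1 i hi).1 (E.J_nonneg i hi c hc)
  have hwT : ∀ c ∈ s, 1 - ε ^ 2 * (1 - ∑ i ∈ s, ν i * J i c) ≤ w c := fun c hc => by
    have h1 : ∑ i ∈ s, ν i * J i c ≤ ∑ i ∈ s, y i * J i c :=
      sum_le_sum fun i hi => mul_le_mul_of_nonneg_right (h.1 i hi).2 (E.J_nonneg i hi c hc)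
    have h2 : ∑ i ∈ s, ν i * J i c - 1 ≤ min 1 (∑ i ∈ s, y i * J i c - 1) :=
      le_min (by linarith [hT c hc]) (by linarith)
    rw [hw c hc]
    linarith [mul_le_mul_of_nonneg_left h2 hη0]
  have hw0 : ∀ c ∈ s, 1 - ε ^ 2 ≤ w c := fun c hc => by
    linarith [hwT c hc, mul_nonneg hη0 (hT0 c hc)]
  have hw1 : ∀ c ∈ s, w c ≤ 1 + ε ^ 2 := fun c hc => by
    rw [hw c hc]
    linarith [mul_le_of_le_one_right hη0 (min_le_left 1 (∑ i ∈ s, y i * J i c - 1))]
  refine final_scalar (N := ∑ i ∈ s, ν i * miss s ν J i)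
    (SX := ∑ i ∈ s, ν i * (x i * (1 - a + miss s ν J i)))
    (SI := ∑ c ∈ s, ν c * ∑ i ∈ s, ν i * J i c * x i) hε hε' E.b_nonneg hp hpq ha0 ha1 hG0
    (sum_nonneg fun i hi => mul_nonneg (h.1 i hi).1 (miss_nonneg E h hi)) ?_
    (sum_nonneg fun c hc => mul_nonneg (sub_nonneg.2 (h.1 c hc).2) (sub_nonneg.2 (hbR c hc).2.1))
    (miss_x E h hG) (miss_v E h hG) (miss_b E h hε' hp hG hbR) hS ?_ ?_ ?_
  · refine (sum_le_sum fun i hi =>
      mul_le_mul_of_nonneg_left (miss_le E h ha hi) (h.1 i hi).1).trans (le_of_eq ?_)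
    rw [← sum_mul, ← ha]
  · have h1 : ∑ i ∈ s, ν i * σ i * (b - p * G - (q + p * a) * x i +
          2 * ε ^ 2 * (max 0 (2 * a - 1) - max 0 (1 - 2 * a)) * b - 40 * ε * x i) ≤
        ∑ i ∈ s, ν i * σ i * unit ε b a G (x i) (v i) (f i) := by
      refine sum_le_sum fun i hi => ?_
      rcases (E.σ_nonneg i hi).eq_or_lt with e | e
      · rw [← e]
        simp
      refine mul_le_mul_of_nonneg_left ?_ (mul_nonneg (h.1 i hi).1 e.le)
      have i1 := E.decay i hi e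
      have i2 := mul_le_mul_of_nonneg_right hε' (E.v_pos i hi).le
      have i3 := hf i hi 0 le_rfl zero_le_one
      rw [max_eq_left (by linarith)] at i3
      exact unit_decay hε (E.x_nonneg i hi) hG0 E.b_nonneg (by linarith [E.v_pos i hi])
        (by linarith)
    have h2 := sum_le_sum fun c hc => mul_le_mul_of_nonneg_left
      (ext_event E h hε hε' hp ha hG hf0 hf1 hf hc (hbR c hc).1 (hbR c hc).2.1 (hbR c hc).2.2
        (hw0 c hc) (hw1 c hc)) (sub_nonneg.2 (h.1 c hc).2)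
    have e1 : ∑ c ∈ s, (y c - ν c) * (∑ i ∈ s, ν i * J i c * unit ε b a G (x i) (v i) (f i) -
        (1 - ε ^ 2) * (1 - a) * (b - bR c)) =
        ∑ i ∈ s, ν i * (unit ε b a G (x i) (v i) (f i) * ∑ c ∈ s, (y c - ν c) * J i c) -
          (1 - ε ^ 2) * (1 - a) * ∑ c ∈ s, (y c - ν c) * (b - bR c) := by
      simp only [mul_sub (y _ - ν _), sum_sub_distrib, mul_sum]
      rw [sum_comm]
      congr 1
      · exact sum_congr rfl fun i _ => sum_congr rfl fun c _ => by ring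
      · rw [← sum_sub_distrib, mul_sum]
        exact sum_congr rfl fun c _ => by ring
    have h3 : ∀ i ∈ s, ν i * σ i * unit ε b a G (x i) (v i) (f i) +
        ν i * (unit ε b a G (x i) (v i) (f i) * ∑ c ∈ s, (y c - ν c) * J i c) ≤
        ν i * (f i * (1 - a + miss s ν J i)) + 9 * ε * (ν i * x i) + 2 * ε * G * ν i +
          2 * ε ^ 2 * (ν i * (miss s ν J i * x i) + 2 * (ν i * (miss s ν J i * v i))) -
          (1 - ε ^ 2) * (40 * ε) * (ν i * (x i * (1 - a + miss s ν J i))) + 2 * ε ^ 2 *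
            (max 0 (2 * a - 1) - (1 - ε ^ 2) * max 0 (1 - 2 * a)) * ((1 - a) * b) * ν i :=
      fun i hi => by
        have i1 := mul_le_mul_of_nonneg_left (unit_row hε hε' (E.x_nonneg i hi) (E.v_pos i hi).le
          hG0 ha1 E.b_nonneg (hf1 i hi) (miss_nonneg E h hi) (miss_le E h ha hi)
          (sub_nonneg.2 (E.row_ge i hi)) (by linarith [E.row_le i hi]) (E.row_le_v i hi))
          (h.1 i hi).1
        have i2 : ∑ c ∈ s, (y c - ν c) * J i c =
            1 - a + miss s ν J i + (∑ c ∈ s, y c * J i c + σ i - 1) - σ i := by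
          rw [miss_eq ha]
          simp only [sub_mul, sum_sub_distrib]
          ring
        rw [i2]
        linarith
    have h4 := sum_le_sum h3
    simp only [sum_add_distrib, sum_sub_distrib, ← mul_sum, ← ha, ← hG] at h4
    rw [e1] at h2
    linarith
  · have h1 := sum_le_sum fun c hc => mul_le_mul_of_nonneg_left
      (int_weight (X := ∑ i ∈ s, ν i * (1 - J i c) * max 0 (x c - (q + p * a) * x i)) (z := x c)
        (H := ∑ i ∈ s, ν i * J i c * x i) hε hε' E.b_nonneg hp hq ha0 ha1 hG0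
        (sum_nonneg fun i hi => mul_nonneg (mul_nonneg (h.1 i hi).1
          (sub_nonneg.2 (E.J_le i hi c hc))) (le_max_left _ _))
        (by
          have i1 : ∑ i ∈ s, ν i * (1 - J i c) * max 0 (x c - (q + p * a) * x i) ≤
              ∑ i ∈ s, ν i * x c := by
            refine sum_le_sum fun i hi => mul_le_mul ?_ ?_ (le_max_left _ _) (h.1 i hi).1
            · exact mul_le_of_le_one_right (h.1 i hi).1 (by linarith [E.J_nonneg i hi c hc])
            · have := E.x_nonneg i hi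
              have : 0 ≤ (q + p * a) * x i := by positivity
              exact max_le (E.x_nonneg c hc) (by linarith)
          rw [← sum_mul] at i1
          exact i1.trans (mul_le_of_le_one_left (E.x_nonneg c hc) h.2))
        (sum_nonneg fun i hi => mul_nonneg (mul_nonneg (h.1 i hi).1 (E.J_nonneg i hi c hc))
          (E.x_nonneg i hi)) (hw0 c hc) (hw1 c hc) (hwT c hc)) (h.1 c hc).1
    refine h1.trans (le_of_eq ?_)
    have e1 : ∑ c ∈ s, ν c * ∑ i ∈ s, ν i * J i c = a * a - ∑ i ∈ s, ν i * miss s ν J i := by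
      simp only [miss_eq ha, mul_sub, sum_sub_distrib, ← sum_mul, ← ha, mul_sum]
      rw [sum_comm, sub_sub_cancel]
      exact sum_congr rfl fun i _ => sum_congr rfl fun c _ => by ring
    have e2 : ∑ c ∈ s, ν c * ∑ i ∈ s, ν i * (1 - J i c) * max 0 (x c - (q + p * a) * x i) =
        ∑ i ∈ s, ∑ c ∈ s, ν i * ν c * (1 - J i c) * max 0 (x c - (q + p * a) * x i) := by
      simp only [mul_sum]
      rw [sum_comm]
      exact sum_congr rfl fun i _ => sum_congr rfl fun c _ => by ring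
    generalize (1 - a) * b + (q + p * a) * G + 2 * ε ^ 2 * (a * (1 - a) * b) = Φ
    have e3 : ∀ c ∈ s, ν c * ((1 + 5 * ε ^ 2) * x c -
        ∑ i ∈ s, ν i * (1 - J i c) * max 0 (x c - (q + p * a) * x i) -
        (1 - ε ^ 2 * (1 - ∑ i ∈ s, ν i * J i c)) * Φ -
        (1 - ε ^ 2) * (40 * ε) * ∑ i ∈ s, ν i * J i c * x i) =
        (1 + 5 * ε ^ 2) * (ν c * x c) -
          ν c * ∑ i ∈ s, ν i * (1 - J i c) * max 0 (x c - (q + p * a) * x i) -
          ((1 - ε ^ 2) * Φ * ν c + ε ^ 2 * Φ * (ν c * ∑ i ∈ s, ν i * J i c)) -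
          (1 - ε ^ 2) * (40 * ε) * (ν c * ∑ i ∈ s, ν i * J i c * x i) := fun c _ => by ring
    rw [sum_congr rfl e3]
    simp only [sum_add_distrib, sum_sub_distrib]
    rw [← mul_sum, ← mul_sum, ← mul_sum, ← mul_sum, e1, e2, ← ha, ← hG]
    ring
  · have e1 : ∑ c ∈ s, ν c * ∑ i ∈ s, ν i * J i c * x i =
        ∑ i ∈ s, ν i * (x i * ∑ c ∈ s, ν c * J i c) := by
      simp only [mul_sum]
      rw [sum_comm]
      exact sum_congr rfl fun i _ => sum_congr rfl fun c _ => by ring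
    rw [e1, hG, ← sum_add_distrib]
    refine sum_congr rfl fun i _ => ?_
    rw [miss_eq ha]
    ring

/-- One step of the process does not increase the expected potential of a client: with probability
`1 / 4` the masses decay, with probability `1 / 4` the clock ticks, with probability `h * r c` the
point `c` is opened. -/
theorem step (hst : Static p q τ) (E : Env s ε p b x y v σ J) (hε : 0 ≤ ε) (hε' : ε ≤ 1 / 20)
    (hp : 0 ≤ p) (hp1 : p ≤ 1) (hq : 0 ≤ q) (hpq : q + p ≤ 2) {m r bR yD : ι → ℝ}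
    {yR : ι → ι → ℝ} {h p' q' : ℝ} (hm : ∀ c ∈ s, 1 ≤ m c)
    (hr : ∀ c ∈ s, r c = y c * m c * (1 + ε ^ 2 * min 1 (∑ i ∈ s, y i * J i c - 1)))
    (hh0 : 0 ≤ h) (hh : 4 * h ≤ ε) (hD : ∀ i ∈ s, y i * (1 - 4 * h * σ i) ≤ yD i)
    (hR : ∀ c ∈ s, ∀ i ∈ s, y i * (1 - J i c / m c) ≤ yR c i)
    (hbR : ∀ c ∈ s, 0 ≤ bR c ∧ bR c ≤ b ∧ bR c ≤ x c) (hp' : 0 ≤ p') (hq' : 0 ≤ q')
    (ht : ∀ a, 0 ≤ a → a ≤ 1 → q' + p' * a ≤ q + p * a +
      4 * h * (a * (q + p * a) - 1 - (3 * a - q - 2 * p * a + p * (a - τ) ^ 2) + ε)) :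
    1 / 4 * Psi s x ε b p q yD + 1 / 4 * Psi s x ε b p' q' y +
      ∑ c ∈ s, h * r c * Psi s x ε (bR c) p q (yR c) +
      (1 / 2 - ∑ c ∈ s, h * r c) * Psi s x ε b p q y ≤
        Psi s x ε b p q y := by
  have hr0 : ∀ c ∈ s, 0 ≤ 1 + ε ^ 2 * min 1 (∑ i ∈ s, y i * J i c - 1) := fun c hc => by
    have h1 : 0 ≤ ∑ i ∈ s, y i * J i c :=
      sum_nonneg fun i hi => mul_nonneg (E.y_nonneg i hi) (E.J_nonneg i hi c hc)
    have h2 : -1 ≤ min 1 (∑ i ∈ s, y i * J i c - 1) := le_min (by norm_num) (by linarith)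
    nlinarith [mul_le_mul_of_nonneg_left h2 (sq_nonneg ε)]
  have hS0 : 0 ≤ ∑ c ∈ s, h * r c := sum_nonneg fun c hc => by
    rw [hr c hc]
    exact mul_nonneg hh0 (mul_nonneg (mul_nonneg (E.y_nonneg c hc) (by linarith [hm c hc]))
      (hr0 c hc))
  have key : (1 / 4 * Psi s x ε b p q yD + 1 / 4 * Psi s x ε b p' q' y +
      ∑ c ∈ s, h * r c * Psi s x ε (bR c) p q (yR c)) / (1 / 2 + ∑ c ∈ s, h * r c) ≤
      Psi s x ε b p q y := by
    refine le_Psi E.y_nonneg fun ν hν => ?_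
    rw [div_le_iff₀ (by linarith)]
    have h1 := decay_le hν E.x_nonneg hε hp hp1 hq E.b_nonneg E.σ_nonneg E.σ_le
      (by linarith : 0 ≤ 4 * h) hh (by linarith) hD
    have h2 := tick_le (p := p) (q := q) hν E.x_nonneg hε E.b_nonneg hp' hq'
      (ht _ hν.mass_nonneg hν.2)
    have h3 := mul_le_mul_of_nonneg_left (sum_le hst E hν hε hε' hp hp1 hq hpq rfl rfl hbR
      (w := fun c => 1 + ε ^ 2 * min 1 (∑ i ∈ s, y i * J i c - 1)) fun _ _ => rfl) hh0
    have h4 : ∀ c ∈ s, h * r c * Psi s x ε (bR c) p q (yR c) - psi s x ε b p q ν * (h * r c) ≤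
        h * ((y c - ν c) * ((1 + ε ^ 2 * min 1 (∑ i ∈ s, y i * J i c - 1)) *
          ext ε b p q (∑ i ∈ s, ν i) (∑ i ∈ s, ν i * x i) (bR c) (∑ i ∈ s, ν i * J i c)
            (∑ i ∈ s, ν i * J i c * x i))) +
        h * (ν c * ((1 + ε ^ 2 * min 1 (∑ i ∈ s, y i * J i c - 1)) *
          int ε b p q (∑ i ∈ s, ν i) (∑ i ∈ s, ν i * x i) (x c)
            (∑ i ∈ s, ν i * (1 - J i c) * max 0 (x c - (q + p * ∑ i ∈ s, ν i) * x i))
            (∑ i ∈ s, ν i * J i c * x i))) := fun c hc => by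
      have i1 := ring_ext (J := fun i => J i c) hν E.x_nonneg hε hp hq
        (fun i hi => E.J_nonneg i hi c hc) (fun i hi => E.J_le i hi c hc) (hm c hc) (hR c hc)
        (hbR c hc).1 (hbR c hc).2.1
      have i2 := ring_int (J := fun i => J i c) hν E.x_nonneg hε hp hq
        (fun i hi => E.J_nonneg i hi c hc) (fun i hi => E.J_le i hi c hc) (hm c hc) (hR c hc)
        (hbR c hc).1 (hbR c hc).2.1 (hbR c hc).2.2
      have i3 := mul_le_mul_of_nonneg_left (mul_le_mul_of_nonneg_left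
        (mul_le_mul_of_nonneg_left i1 (hr0 c hc)) (sub_nonneg.2 (hν.1 c hc).2)) hh0
      have i4 := mul_le_mul_of_nonneg_left (mul_le_mul_of_nonneg_left
        (mul_le_mul_of_nonneg_left i2 (hr0 c hc)) (hν.1 c hc).1) hh0
      refine le_trans (le_of_eq ?_) (add_le_add i3 i4)
      rw [hr c hc]
      ring
    have h5 := sum_le_sum h4
    rw [sum_sub_distrib, sum_add_distrib, ← mul_sum, ← mul_sum, ← mul_sum, ← mul_sum] at h5
    rw [← mul_sum]
    linarith
  rw [div_le_iff₀ (by linarith)] at key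
  linarith

end Vale.Agent.P334.Step
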