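import Vale.Agent.P334.Proc

/-! The drift of the potential `H`. -/

namespace Vale.Agent.P334.Proc

open Finset

namespace StepH

variable {P : Par} {C : Client} {V : View}

lemma v_pos (hV : V.OK P) (i : ℕ) : 0 < V.v i := lt_min (hV.D_pos i) (hV.lev_pos i)

lemma J_le_one (hV : V.OK P) (i c : ℕ) : V.J i c ≤ 1 :=
  (hV.J_le i c).trans (max_le zero_le_one (min_le_left _ _))

lemma lt_v_of_J_pos (hV : V.OK P) {i c : ℕ} (h : 0 < V.J i c) : P.d i c < V.v i := by
  by_contra hc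
  have h1 := hV.J_le i c
  have h2 : V.K * (V.v i - P.d i c) / V.v i ≤ 0 :=
    div_nonpos_of_nonpos_of_nonneg
      (mul_nonpos_of_nonneg_of_nonpos (by linarith [hV.two_le_K]) (by linarith))
      (v_pos hV i).le
  have h3 : ker V.K (P.d i c) (V.v i) ≤ 0 := max_le le_rfl ((min_le_right _ _).trans h2)
  linarith

lemma v_lt_of_J_ne (hV : V.OK P) {i c : ℕ} (h : V.J i c ≠ 1) : V.v i < 2 * P.d i c := by
  by_contra hc
  exact h (hV.J_one i c (by linarith))

lemma d_nonneg (hP : P.OK) (a b : ℕ) : 0 ≤ P.d a b := hP.g_pos.le.trans (hP.g_le a b)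

lemma x_nonneg (hC : C.OK P) (hV : V.OK P) (i : ℕ) : 0 ≤ C.x V i :=
  mul_nonneg (hC.lam_nonneg i) (hV.y_nonneg i)

lemma x_le_y (hC : C.OK P) (hV : V.OK P) (i : ℕ) : C.x V i ≤ V.y i :=
  mul_le_of_le_one_left (hV.y_nonneg i) (hC.lam_le i)

lemma x_le_x0 (hC : C.OK P) (hI : C.Inv P V) (i : ℕ) : C.x V i ≤ C.lam i * C.y0 i :=
  mul_le_mul_of_nonneg_left (hI.1 i) (hC.lam_nonneg i)

lemma A_nonneg (hC : C.OK P) (hV : V.OK P) : 0 ≤ C.A P V :=
  sum_nonneg fun i _ => x_nonneg hC hV i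

lemma A_le_one (hC : C.OK P) (hI : C.Inv P V) : C.A P V ≤ 1 :=
  (sum_le_sum fun i _ => x_le_x0 hC hI i).trans hC.sum_eq.le

lemma G_nonneg (hP : P.OK) (hC : C.OK P) (hV : V.OK P) : 0 ≤ C.G P V :=
  sum_nonneg fun i _ => mul_nonneg (x_nonneg hC hV i) (d_nonneg hP _ _)

lemma rho_nonneg (hP : P.OK) (hV : V.OK P) (i : ℕ) : 0 ≤ V.rho P i :=
  sum_nonneg fun c _ =>
    mul_nonneg (mul_nonneg (hV.y_nonneg c) (hV.J_nonneg i c)) (d_nonneg hP _ _)

lemma H_nonneg (hC : C.OK P) (hV : V.OK P) (hI : C.Inv P V) : 0 ≤ C.H P V :=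
  mul_nonneg (mul_nonneg (A_nonneg hC hV) (sub_nonneg.2 (A_le_one hC hI))) (hV.D_pos _).le

lemma kc_nonneg (hV : V.OK P) (c : ℕ) : 0 ≤ V.kc P c :=
  sum_nonneg fun i _ => mul_nonneg (hV.y_nonneg i) (hV.J_nonneg i c)

lemma one_le_bc (c : ℕ) : 1 ≤ V.bc P c := le_max_left _ _

lemma ac_le (c : ℕ) : V.ac P c ≤ 1 := min_le_left _ _

lemma le_ac (hV : V.OK P) (c : ℕ) : -1 ≤ V.ac P c :=
  le_min (by norm_num) (by linarith [kc_nonneg hV c])

lemma bc_le (hP : P.OK) (hV : V.OK P) (c : ℕ) : V.bc P c ≤ P.n := by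
  refine max_le hP.one_le_n ?_
  have h1 : V.kc P c ≤ P.n :=
    (sum_le_sum fun i _ => mul_le_of_le_one_right (hV.y_nonneg i) (J_le_one hV i c)).trans
      hV.mass_le
  have h2 : 1 ≤ P.L := by
    have := hP.L_ge
    have h3 : 0 < 2 / P.η := div_pos two_pos hP.η_pos
    linarith
  exact (div_le_self (kc_nonneg hV c) h2).trans h1

lemma sum_rt_le (hP : P.OK) (hV : V.OK P) : P.h * ∑ c ∈ P.I, V.rt P c ≤ 1 / 2 := by
  have h1 : ∑ c ∈ P.I, V.rt P c ≤ ∑ c ∈ P.I, V.y c * (P.n * 2) := by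
    refine sum_le_sum fun c _ => ?_
    rw [View.rt, mul_assoc]
    refine mul_le_mul_of_nonneg_left ?_ (hV.y_nonneg c)
    have h2 := ac_le (P := P) (V := V) c
    have h3 := le_ac hV c
    have h4 := hP.η_pos
    have h5 := hP.η_le
    exact mul_le_mul (bc_le hP hV c) (by nlinarith) (by nlinarith) (by linarith [hP.one_le_n])
  rw [← sum_mul] at h1
  have h2 : ∑ c ∈ P.I, V.y c ≤ P.n := hV.mass_le
  have h3 := hP.h_le
  have h4 := hP.h_pos
  have h5 := hP.one_le_n
  have h6 : (∑ c ∈ P.I, V.y c) * (P.n * 2) ≤ P.n * (P.n * 2) :=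
    mul_le_mul_of_nonneg_right h2 (by linarith)
  nlinarith

/-- The mass of the assignment after a step. -/
lemma next_A (hP : P.OK) (hC : C.OK P) {f : ℕ → ℝ} {V' : View} (hN : Next P V f V') :
    C.A P V - ∑ i ∈ P.I, C.x V i * f i ≤ C.A P V' ∧ C.A P V' ≤ C.A P V ∧
      C.A P V' ≤ C.A P V - ∑ i ∈ P.I, C.x V i * f i + P.n * P.ξ := by
  refine ⟨?_, ?_, ?_⟩
  · rw [Client.A, ← sum_sub_distrib]
    refine sum_le_sum fun i hi => ?_
    have := mul_le_mul_of_nonneg_left (hN.lo i hi) (hC.lam_nonneg i)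
    simp only [Client.x]
    linarith
  · exact sum_le_sum fun i _ => mul_le_mul_of_nonneg_left (hN.le i) (hC.lam_nonneg i)
  · have h1 : C.A P V' ≤ ∑ i ∈ P.I, (C.x V i - C.x V i * f i + P.ξ) := by
      refine sum_le_sum fun i hi => ?_
      have h2 := mul_le_mul_of_nonneg_left (hN.hi i hi) (hC.lam_nonneg i)
      have h3 := mul_le_of_le_one_left hP.ξ_nonneg (hC.lam_le i)
      simp only [Client.x]
      linarith
    rw [sum_add_distrib, sum_sub_distrib, sum_const, nsmul_eq_mul] at h1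
    have h2 := mul_le_mul_of_nonneg_right hP.card_le hP.ξ_nonneg
    simp only [Client.A] at h1 ⊢
    linarith

lemma real_low {A A' T b b' e U : ℝ} (hA' : 0 ≤ A') (h2 : A' ≤ A) (h3 : A' ≤ A - T + e)
    (hA : A ≤ 1 / 2) (hb : b' ≤ b) (hb0 : 0 ≤ b) (hU : b ≤ U) (he : 0 ≤ e) :
    A' * (1 - A') * b' - A * (1 - A) * b ≤ (2 * A - 1) * T * b + e * U := by
  have h4 : A' * (1 - A') * b' ≤ A' * (1 - A') * b :=
    mul_le_mul_of_nonneg_left hb (mul_nonneg hA' (by linarith))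
  have h5 : A' * (1 - A') - A * (1 - A) ≤ (2 * A - 1) * T + e := by
    nlinarith [mul_nonneg (sub_nonneg.2 h3) (show 0 ≤ 1 - 2 * A by linarith),
      sq_nonneg (A - A'), mul_nonneg he (show 0 ≤ A by linarith)]
  have h6 := mul_le_mul_of_nonneg_right h5 hb0
  have h7 := mul_le_mul_of_nonneg_left hU he
  nlinarith

lemma real_high {A A' T b b' κ : ℝ} (h1 : A - T ≤ A') (h2 : A' ≤ A) (hA0 : 0 ≤ A) (hA1 : A ≤ 1)
    (hb : b' ≤ b) (hb0 : 0 ≤ b') (hκ : 2 * A - 1 ≤ κ) (hκ0 : 0 ≤ κ) :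
    A' * (1 - A') * b' - A * (1 - A) * b ≤ κ * T * b' := by
  have h4 : A * (1 - A) * b' ≤ A * (1 - A) * b :=
    mul_le_mul_of_nonneg_left hb (mul_nonneg hA0 (by linarith))
  have h5 : A' * (1 - A') - A * (1 - A) ≤ κ * T := by
    nlinarith [mul_nonneg (sub_nonneg.2 h2) (sub_nonneg.2 hκ), sq_nonneg (A - A'),
      mul_nonneg hκ0 (show 0 ≤ A' - (A - T) by linarith)]
  have h6 := mul_le_mul_of_nonneg_right h5 hb0
  nlinarith

lemma next_low (hP : P.OK) (hC : C.OK P) (hV : V.OK P) {f : ℕ → ℝ} {V' : View}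
    (hV' : V'.OK P) (hN : Next P V f V') (hA : C.A P V ≤ 1 / 2) :
    C.H P V' - C.H P V ≤ (2 * C.A P V - 1) * (∑ i ∈ P.I, C.x V i * f i) * V.D C.j
      + P.n * P.ξ * P.U := by
  obtain ⟨-, h2, h3⟩ := next_A hP hC hN
  exact real_low (A_nonneg hC hV') h2 h3 hA (hN.D_le _) (hV.D_pos _).le (hV.D_le _)
    (mul_nonneg (by linarith [hP.one_le_n]) hP.ξ_nonneg)

lemma next_high (hP : P.OK) (hC : C.OK P) (hV : V.OK P) (hI : C.Inv P V) {f : ℕ → ℝ}
    {V' : View} (hV' : V'.OK P) (hN : Next P V f V') {κ : ℝ} (hκ : 2 * C.A P V - 1 ≤ κ)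
    (hκ0 : 0 ≤ κ) :
    C.H P V' - C.H P V ≤ κ * (∑ i ∈ P.I, C.x V i * f i) * V'.D C.j := by
  obtain ⟨h1, h2, -⟩ := next_A hP hC hN
  exact real_high h1 h2 (A_nonneg hC hV) (A_le_one hC hI) (hN.D_le _) (hV'.D_pos _).le hκ hκ0

lemma bc_mul_sum (c : ℕ) :
    V.bc P c * ∑ i ∈ P.I, C.x V i * (V.J i c / V.bc P c) = ∑ i ∈ P.I, C.x V i * V.J i c := by
  rw [mul_sum]
  refine sum_congr rfl fun i _ => ?_
  have : V.bc P c ≠ 0 := by linarith [one_le_bc (P := P) (V := V) c]
  field_simp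

lemma sum_xJ_le (hC : C.OK P) (hV : V.OK P) (c : ℕ) :
    ∑ i ∈ P.I, C.x V i * V.J i c ≤ C.A P V :=
  sum_le_sum fun i _ => mul_le_of_le_one_right (x_nonneg hC hV i) (J_le_one hV i c)

variable {Vd Vt : View} {Vr : ℕ → View}

/-- The bound for an opening inside the assignment. -/
lemma ring_int (hP : P.OK) (hC : C.OK P) (st : Step P V Vd Vt Vr) (hI : C.Inv P V) {c : ℕ}
    (hc : c ∈ P.I) :
    V.bc P c * (C.H P (Vr c) - C.H P V) ≤ 5 / 4 * P.d C.j c - C.H P V := by
  have hA1 := A_le_one hC hI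
  have h1 := next_high hP hC st.ok hI (st.okr c hc) (st.nr c hc) (κ := 1) (by linarith)
    zero_le_one
  have h2 := st.Dr c hc C.j
  have h3 := ((st.okr c hc).D_pos C.j).le
  have h4 : C.H P (Vr c) ≤ P.d C.j c / 4 := by
    have h5 : C.A P (Vr c) * (1 - C.A P (Vr c)) ≤ 1 / 4 := by
      nlinarith [sq_nonneg (C.A P (Vr c) - 1 / 2)]
    have := mul_le_mul_of_nonneg_right h5 h3
    simp only [Client.H]
    linarith
  have hb := one_le_bc (P := P) (V := V) c
  have hd := d_nonneg hP C.j c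
  by_cases h5 : C.H P (Vr c) - C.H P V ≤ 0
  · nlinarith
  · have h6 := mul_le_mul_of_nonneg_left h1 (show 0 ≤ V.bc P c by linarith)
    rw [one_mul, ← mul_assoc, bc_mul_sum] at h6
    have h7 : (∑ i ∈ P.I, C.x V i * V.J i c) * (Vr c).D C.j ≤ 1 * P.d C.j c :=
      mul_le_mul ((sum_xJ_le hC st.ok c).trans hA1) h2 h3 zero_le_one
    linarith

/-- The distance to the open facilities is controlled by the radii. -/
lemma one_sub_A_mul_le (hP : P.OK) (hC : C.OK P) (hV : V.OK P) (hI : C.Inv P V) (i : ℕ) :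
    (1 - C.A P V) * V.D C.j ≤ 6 * (P.d C.j i + V.v i) := by
  have hA0 := A_nonneg hC hV
  have hA1 := A_le_one hC hI
  have hb := (hV.D_pos C.j).le
  have hd := d_nonneg hP C.j i
  have hv := (v_pos hV i).le
  have h0 : (1 - C.A P V) * V.D C.j ≤ V.D C.j := by nlinarith
  by_cases h : V.v i < V.D i
  · have h1 := hV.B_ge i h
    have h2 : C.R ≤ P.d C.j i + V.v i := by
      refine hC.R_le _ (h1.trans ?_)
      rw [View.B, sum_filter]
      refine sum_le_sum fun c _ => ?_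
      split_ifs with h3
      · exact (mul_le_of_le_one_right (hV.y_nonneg c) (J_le_one hV i c)).trans (hI.1 c)
      · have h4 : V.J i c = 0 := by
          by_contra h5
          have h6 := lt_v_of_J_pos hV (lt_of_le_of_ne (hV.J_nonneg i c) (Ne.symm h5))
          have h7 := hP.tri C.j i c
          exact h3 (by linarith)
        rw [h4, mul_zero]
    rcases hI.2 with h3 | h3
    · linarith
    · have h4 : C.A P V = 1 := by
        rw [← hC.sum_eq]
        refine sum_congr rfl fun c hc => ?_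
        by_cases h5 : C.lam c = 0
        · simp [Client.x, h5]
        · rw [Client.x, h3 c hc (hC.supp c hc h5)]
      rw [h4, sub_self, zero_mul]
      linarith
  · have h1 := hV.D_tri C.j i
    linarith

/-- The cost of slowing down. -/
lemma slow_le (hP : P.OK) (hC : C.OK P) (hV : V.OK P) (hI : C.Inv P V) (c : ℕ) :
    -V.ac P c * C.H P V ≤ (1 - C.A P V) * C.H P V + 18 * C.G P V + 12 * P.d C.j c := by
  have hA0 := A_nonneg hC hV
  have hA1 := A_le_one hC hI
  have hH := H_nonneg hC hV hI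
  have hdc := d_nonneg hP C.j c
  have hm0 : 0 ≤ ∑ i ∈ P.I, C.x V i * (1 - V.J i c) :=
    sum_nonneg fun i _ => mul_nonneg (x_nonneg hC hV i) (sub_nonneg.2 (J_le_one hV i c))
  have h1 : -V.ac P c ≤ (1 - C.A P V) + ∑ i ∈ P.I, C.x V i * (1 - V.J i c) := by
    have h2 : ∑ i ∈ P.I, C.x V i * V.J i c ≤ V.kc P c :=
      sum_le_sum fun i _ => mul_le_mul_of_nonneg_right (x_le_y hC hV i) (hV.J_nonneg i c)
    have h3 : ∑ i ∈ P.I, C.x V i * (1 - V.J i c) = C.A P V - ∑ i ∈ P.I, C.x V i * V.J i c := by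
      rw [Client.A, ← sum_sub_distrib]
      exact sum_congr rfl fun i _ => by ring
    rw [neg_le, View.ac]
    exact le_min (by linarith) (by linarith)
  have h4 : (∑ i ∈ P.I, C.x V i * (1 - V.J i c)) * C.H P V
      ≤ ∑ i ∈ P.I, C.x V i * (18 * P.d C.j i + 12 * P.d C.j c) := by
    rw [sum_mul]
    refine sum_le_sum fun i _ => ?_
    rw [mul_assoc]
    refine mul_le_mul_of_nonneg_left ?_ (x_nonneg hC hV i)
    have hdi := d_nonneg hP C.j i
    by_cases h5 : V.J i c = 1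
    · rw [h5, sub_self, zero_mul]; linarith
    · have h6 := v_lt_of_J_ne hV h5
      have h7 := one_sub_A_mul_le hP hC hV hI i
      have h8 := hP.tri i C.j c
      rw [hP.comm i C.j] at h8
      have h9 : C.H P V ≤ (1 - C.A P V) * V.D C.j := by
        rw [Client.H, mul_assoc]
        exact mul_le_of_le_one_left (mul_nonneg (by linarith) (hV.D_pos _).le) hA1
      have h10 : (1 - V.J i c) * C.H P V ≤ C.H P V :=
        mul_le_of_le_one_left hH (by linarith [hV.J_nonneg i c])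
      linarith
  have h5 : ∑ i ∈ P.I, C.x V i * (18 * P.d C.j i + 12 * P.d C.j c)
      = 18 * C.G P V + 12 * (C.A P V * P.d C.j c) := by
    rw [Client.G, Client.A, sum_mul, mul_sum, mul_sum, ← sum_add_distrib]
    exact sum_congr rfl fun i _ => by ring
  have h6 := mul_le_mul_of_nonneg_right h1 hH
  have h7 := mul_le_of_le_one_left hdc hA1
  nlinarith

/-- The openings inside the assignment. -/
lemma sum_int (hP : P.OK) (hC : C.OK P) (st : Step P V Vd Vt Vr) (hI : C.Inv P V) :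
    ∑ c ∈ P.I, C.x V c * (1 + P.η * V.ac P c) * (V.bc P c * (C.H P (Vr c) - C.H P V))
      ≤ 5 * C.G P V - C.A P V * C.H P V + P.η * ((1 - C.A P V) * C.H P V) := by
  have hV := st.ok
  have hA0 := A_nonneg hC hV
  have hA1 := A_le_one hC hI
  have hH := H_nonneg hC hV hI
  have hG := G_nonneg hP hC hV
  have hη := hP.η_pos
  have hη1 := hP.η_le
  have h1 : ∀ c ∈ P.I,
      C.x V c * (1 + P.η * V.ac P c) * (V.bc P c * (C.H P (Vr c) - C.H P V))
        ≤ C.x V c * (3 * P.d C.j c - C.H P V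
          + P.η * ((1 - C.A P V) * C.H P V) + 2 * C.G P V) := by
    intro c hc
    rw [mul_assoc]
    refine mul_le_mul_of_nonneg_left ?_ (x_nonneg hC hV c)
    have h2 := ac_le (P := P) (V := V) c
    have h3 := le_ac hV c
    have h4 := mul_le_mul_of_nonneg_left (ring_int hP hC st hI hc)
      (show 0 ≤ 1 + P.η * V.ac P c by nlinarith)
    have h5 := mul_le_mul_of_nonneg_left (slow_le hP hC hV hI c) hη.le
    have hd := d_nonneg hP C.j c
    have h6 : P.η * V.ac P c * P.d C.j c ≤ 1 / 10 * P.d C.j c :=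
      mul_le_mul_of_nonneg_right (by nlinarith) hd
    have h7 := mul_le_mul_of_nonneg_right hη1 hd
    have h8 := mul_le_mul_of_nonneg_right hη1 hG
    nlinarith
  refine (sum_le_sum h1).trans ?_
  have h2 : ∑ c ∈ P.I, C.x V c * (3 * P.d C.j c - C.H P V
      + P.η * ((1 - C.A P V) * C.H P V) + 2 * C.G P V)
      = 3 * C.G P V - C.A P V * C.H P V
        + C.A P V * (P.η * ((1 - C.A P V) * C.H P V) + 2 * C.G P V) := by
    conv_rhs => rw [Client.G, Client.A, sum_mul, sum_mul, mul_sum, ← sum_sub_distrib,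
      ← sum_add_distrib]
    exact sum_congr rfl fun i _ => by simp only [Client.A, Client.G]; ring
  rw [h2]
  have h3 : C.A P V * (P.η * ((1 - C.A P V) * C.H P V) + 2 * C.G P V)
      ≤ P.η * ((1 - C.A P V) * C.H P V) + 2 * C.G P V :=
    mul_le_of_le_one_left
      (add_nonneg (mul_nonneg hη.le (mul_nonneg (by linarith) hH)) (by linarith)) hA1
  linarith

lemma drift_eq (Ψ : View → ℝ) :
    drift P V Vd Vt Vr Ψ = (Ψ Vd - Ψ V) / 4 + (Ψ Vt - Ψ V) / 4 + P.h *
      (∑ c ∈ P.I, C.x V c * (1 + P.η * V.ac P c) * (V.bc P c * (Ψ (Vr c) - Ψ V)) +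
        ∑ c ∈ P.I, (V.y c - C.x V c) * (1 + P.η * V.ac P c) * (V.bc P c * (Ψ (Vr c) - Ψ V))) := by
  rw [drift, ← sum_add_distrib]
  congr 2
  exact sum_congr rfl fun c _ => by rw [View.rt]; ring

lemma sum_ext_J (i : ℕ) :
    ∑ c ∈ P.I, (V.y c - C.x V c) * V.J i c
      = V.B P i - C.A P V + ∑ c ∈ P.I, C.x V c * (1 - V.J i c) := by
  rw [View.B, Client.A, ← sum_sub_distrib, ← sum_add_distrib]
  exact sum_congr rfl fun c _ => by ring

/-- The case of small mass. -/
lemma step_low (hP : P.OK) (hC : C.OK P) (st : Step P V Vd Vt Vr) (hI : C.Inv P V)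
    (hA : C.A P V ≤ 1 / 2) :
    drift P V Vd Vt Vr (C.H P) ≤
      P.h * (-((1 - C.A P V) * C.H P V / 2) + 5 * C.G P V) + P.n * P.U * P.ξ := by
  have hV := st.ok
  have hA0 := A_nonneg hC hV
  have hH := H_nonneg hC hV hI
  have hη := hP.η_pos
  have hη1 := hP.η_le
  have hh := hP.h_pos
  have hb := (hV.D_pos C.j).le
  have hE : 0 ≤ P.n * P.ξ * P.U :=
    mul_nonneg (mul_nonneg (by linarith [hP.one_le_n]) hP.ξ_nonneg) (hb.trans (hV.D_le _))
  set κ : ℝ := (2 * C.A P V - 1) * V.D C.j with hκ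
  have hκ0 : κ ≤ 0 := mul_nonpos_of_nonpos_of_nonneg (by linarith) hb
  have hd : C.H P Vd - C.H P V
      ≤ 4 * P.h * (κ * ∑ i ∈ P.I, C.x V i * V.sg P i) + P.n * P.ξ * P.U := by
    have h1 := next_low hP hC hV st.okd st.nd hA
    have h2 : ∑ i ∈ P.I, C.x V i * (4 * P.h * V.sg P i)
        = 4 * P.h * ∑ i ∈ P.I, C.x V i * V.sg P i := by
      rw [mul_sum]; exact sum_congr rfl fun i _ => by ring
    rw [h2] at h1
    rw [hκ]
    linarith
  have ht : C.H P Vt - C.H P V ≤ P.n * P.ξ * P.U := by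
    simpa using next_low hP hC hV st.okt st.nt hA
  have hr : ∀ c ∈ P.I,
      (V.y c - C.x V c) * (1 + P.η * V.ac P c) * (V.bc P c * (C.H P (Vr c) - C.H P V))
        ≤ (1 - P.η) * κ * ((V.y c - C.x V c) * ∑ i ∈ P.I, C.x V i * V.J i c)
          + V.rt P c * (P.n * P.ξ * P.U) := by
    intro c hc
    have h1 := next_low hP hC hV (st.okr c hc) (st.nr c hc) hA
    have hbc := one_le_bc (P := P) (V := V) c
    have h2 := mul_le_mul_of_nonneg_left h1 (show 0 ≤ V.bc P c by linarith)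
    have h3 := bc_mul_sum (P := P) (C := C) (V := V) c
    set S : ℝ := ∑ i ∈ P.I, C.x V i * V.J i c with hS
    have hS0 : 0 ≤ S := sum_nonneg fun i _ => mul_nonneg (x_nonneg hC hV i) (hV.J_nonneg i c)
    have h4 : V.bc P c * (C.H P (Vr c) - C.H P V) ≤ κ * S + V.bc P c * (P.n * P.ξ * P.U) := by
      rw [← h3, hκ]; linarith
    have h5 := le_ac hV c
    have hμ : 0 ≤ V.y c - C.x V c := sub_nonneg.2 (x_le_y hC hV c)
    have hw : 0 ≤ 1 + P.η * V.ac P c := by nlinarith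
    have h6 := mul_le_mul_of_nonneg_left h4 (mul_nonneg hμ hw)
    have h7 : (V.y c - C.x V c) * (P.η * (1 + V.ac P c)) * (κ * S) ≤ 0 :=
      mul_nonpos_of_nonneg_of_nonpos (mul_nonneg hμ (mul_nonneg hη.le (by linarith)))
        (mul_nonpos_of_nonpos_of_nonneg hκ0 hS0)
    have h8 : 0 ≤ C.x V c * (1 + P.η * V.ac P c) * (V.bc P c * (P.n * P.ξ * P.U)) :=
      mul_nonneg (mul_nonneg (x_nonneg hC hV c) hw) (mul_nonneg (by linarith) hE)
    rw [View.rt]
    nlinarith
  have hext := sum_le_sum hr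
  rw [sum_add_distrib, ← mul_sum, ← sum_mul] at hext
  have hswap : ∑ c ∈ P.I, (V.y c - C.x V c) * ∑ i ∈ P.I, C.x V i * V.J i c
      = ∑ i ∈ P.I, C.x V i * ∑ c ∈ P.I, (V.y c - C.x V c) * V.J i c := by
    simp_rw [mul_sum]
    rw [sum_comm]
    exact sum_congr rfl fun i _ => sum_congr rfl fun c _ => by ring
  rw [hswap] at hext
  have hkill : (1 - P.η) * (C.A P V * (1 - C.A P V)) ≤ ∑ i ∈ P.I, C.x V i * V.sg P i
      + (1 - P.η) * ∑ i ∈ P.I, C.x V i * ∑ c ∈ P.I, (V.y c - C.x V c) * V.J i c := by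
    conv_lhs => rw [Client.A, sum_mul, mul_sum]
    rw [mul_sum, ← sum_add_distrib]
    refine sum_le_sum fun i _ => ?_
    rw [sum_ext_J]
    have h1 : 0 ≤ ∑ c ∈ P.I, C.x V c * (1 - V.J i c) :=
      sum_nonneg fun c _ => mul_nonneg (x_nonneg hC hV c) (sub_nonneg.2 (J_le_one hV i c))
    have h2 : 0 ≤ V.sg P i := le_max_left _ _
    have h3 : 1 - V.B P i ≤ V.sg P i := le_max_right _ _
    have h4 : (1 - P.η) * (1 - C.A P V) ≤ V.sg P i
        + (1 - P.η) * (V.B P i - C.A P V + ∑ c ∈ P.I, C.x V c * (1 - V.J i c)) := by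
      nlinarith
    have h5 := mul_le_mul_of_nonneg_left h4 (x_nonneg hC hV i)
    simp only [Client.A] at h5 ⊢
    linarith
  have hk2 := mul_le_mul_of_nonpos_left hkill hκ0
  have hint := sum_int hP hC st hI
  have hrt := mul_le_mul_of_nonneg_right (sum_rt_le hP hV) hE
  have hκH : κ * ((1 - P.η) * (C.A P V * (1 - C.A P V)))
      = (1 - P.η) * (2 * C.A P V - 1) * C.H P V := by
    rw [hκ, Client.H]; ring
  rw [hκH] at hk2
  have hfin : (1 - P.η) * (2 * C.A P V - 1) * C.H P V - C.A P V * C.H P V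
      + P.η * ((1 - C.A P V) * C.H P V) ≤ -((1 - C.A P V) * C.H P V / 2) := by
    have h1 : (1 - P.η) * (2 * C.A P V - 1) - C.A P V + P.η * (1 - C.A P V)
        + (1 - C.A P V) / 2 ≤ 0 := by nlinarith
    nlinarith [mul_le_mul_of_nonneg_right h1 hH]
  rw [drift_eq (C := C)]
  have hsum := mul_le_mul_of_nonneg_left (add_le_add hint hext) hh.le
  have hk3 := mul_le_mul_of_nonneg_left hk2 hh.le
  have hf3 := mul_le_mul_of_nonneg_left hfin hh.le
  nlinarith

/-- The killers of one facility, weighted by the distance to the open facilities afterwards. -/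
lemma kill_le (hP : P.OK) (hC : C.OK P) (st : Step P V Vd Vt Vr) (hI : C.Inv P V) (i : ℕ) :
    V.sg P i * V.D C.j
      + ∑ c ∈ P.I, (V.y c - C.x V c) * (1 + P.η * V.ac P c) * (V.J i c * (Vr c).D C.j)
      ≤ (1 - C.A P V) * V.D C.j + P.δ * P.U + 4 * P.d C.j i + 2 * C.G P V + V.rho P i := by
  have hV := st.ok
  have hA0 := A_nonneg hC hV
  have hA1 := A_le_one hC hI
  have hη := hP.η_pos
  have hη1 := hP.η_le
  have hb := (hV.D_pos C.j).le
  have hdi := d_nonneg hP C.j i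
  have hv := (v_pos hV i).le
  have hδ := hP.δ_nonneg
  set β : ℝ := min (V.D C.j) (P.d C.j i + V.v i) with hβ
  have hβ0 : 0 ≤ β := le_min hb (by linarith)
  have hβ1 : β ≤ V.D C.j := min_le_left _ _
  have hβ2 : β ≤ P.d C.j i + V.v i := min_le_right _ _
  have h1 : V.sg P i * V.D C.j ≤ V.sg P i * β := by
    by_cases h : V.v i < V.D i
    · have h2 : V.sg P i = 0 := max_eq_left (by linarith [hV.B_ge i h])
      rw [h2, zero_mul, zero_mul]
    · refine mul_le_mul_of_nonneg_left (le_min le_rfl ?_) (le_max_left _ _)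
      linarith [hV.D_tri C.j i]
  have h2 : ∀ c ∈ P.I, (V.y c - C.x V c) * (1 + P.η * V.ac P c) * (V.J i c * (Vr c).D C.j)
      ≤ (V.y c - C.x V c) * V.J i c * β
        + (1 / 10 * P.d C.j i * (V.y c * V.J i c) + V.y c * V.J i c * P.d i c) := by
    intro c hc
    have hJ := hV.J_nonneg i c
    have hμ : 0 ≤ V.y c - C.x V c := sub_nonneg.2 (x_le_y hC hV c)
    have hD := ((st.okr c hc).D_pos C.j).le
    have h3 := st.Dr c hc C.j
    have h4 := hP.tri C.j i c
    have hdic := d_nonneg hP i c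
    have h5 : V.J i c * (Vr c).D C.j ≤ V.J i c * β := by
      rcases hJ.eq_or_lt with h | h
      · rw [← h, zero_mul, zero_mul]
      · refine mul_le_mul_of_nonneg_left (le_min ((st.nr c hc).D_le _) ?_) hJ
        linarith [lt_v_of_J_pos hV h]
    have h6 := mul_le_mul_of_nonneg_left h5 hμ
    have h7 : P.η * V.ac P c ≤ 1 / 10 := by nlinarith [ac_le (P := P) (V := V) c]
    have h8 : (V.y c - C.x V c) * (V.J i c * (Vr c).D C.j) * (P.η * V.ac P c)
        ≤ (V.y c - C.x V c) * (V.J i c * (Vr c).D C.j) * (1 / 10) :=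
      mul_le_mul_of_nonneg_left h7 (mul_nonneg hμ (mul_nonneg hJ hD))
    have h9 : (V.y c - C.x V c) * (V.J i c * (Vr c).D C.j)
        ≤ V.y c * (V.J i c * (P.d C.j i + P.d i c)) :=
      mul_le_mul (by linarith [x_nonneg hC hV c])
        (mul_le_mul_of_nonneg_left (by linarith) hJ) (mul_nonneg hJ hD) (hV.y_nonneg c)
    have h10 : 0 ≤ V.y c * V.J i c * P.d i c :=
      mul_nonneg (mul_nonneg (hV.y_nonneg c) hJ) hdic
    nlinarith
  have h3 := sum_le_sum h2
  rw [sum_add_distrib, sum_add_distrib, ← sum_mul, ← mul_sum, sum_ext_J] at h3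
  have h4 : (∑ c ∈ P.I, C.x V c * (1 - V.J i c)) * β
      ≤ ∑ c ∈ P.I, C.x V c * (3 * P.d C.j i + 2 * P.d C.j c) := by
    rw [sum_mul]
    refine sum_le_sum fun c _ => ?_
    rw [mul_assoc]
    refine mul_le_mul_of_nonneg_left ?_ (x_nonneg hC hV c)
    have hdc := d_nonneg hP C.j c
    by_cases h5 : V.J i c = 1
    · rw [h5, sub_self, zero_mul]; linarith
    · have h6 := v_lt_of_J_ne hV h5
      have h8 := hP.tri i C.j c
      rw [hP.comm i C.j] at h8
      have h10 : (1 - V.J i c) * β ≤ β :=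
        mul_le_of_le_one_left hβ0 (by linarith [hV.J_nonneg i c])
      linarith
  have h5 : ∑ c ∈ P.I, C.x V c * (3 * P.d C.j i + 2 * P.d C.j c)
      = 3 * (C.A P V * P.d C.j i) + 2 * C.G P V := by
    rw [Client.G, Client.A, sum_mul, mul_sum, mul_sum, ← sum_add_distrib]
    exact sum_congr rfl fun i _ => by ring
  have h6 := mul_le_of_le_one_left hdi hA1
  have hB := hV.B_le i
  have h7 : V.sg P i + V.B P i ≤ 1 + P.δ := by
    have : V.sg P i ≤ 1 + P.δ - V.B P i := max_le (by linarith) (by linarith)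
    linarith
  have h8 : (V.sg P i + V.B P i - C.A P V) * β ≤ (1 + P.δ - C.A P V) * β :=
    mul_le_mul_of_nonneg_right (by linarith) hβ0
  have h9 : (1 - C.A P V) * β ≤ (1 - C.A P V) * V.D C.j :=
    mul_le_mul_of_nonneg_left hβ1 (by linarith)
  have h10 : P.δ * β ≤ P.δ * P.U := mul_le_mul_of_nonneg_left (hβ1.trans (hV.D_le _)) hδ
  have h11 : P.d C.j i * V.B P i ≤ P.d C.j i * 2 :=
    mul_le_mul_of_nonneg_left (by linarith [hP.δ_le]) hdi
  simp only [View.B, View.rho] at *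
  nlinarith

/-- The case of large mass. -/
lemma step_high (hP : P.OK) (hC : C.OK P) (st : Step P V Vd Vt Vr) (hI : C.Inv P V)
    (hA : 1 / 2 ≤ C.A P V) :
    drift P V Vd Vt Vr (C.H P) ≤
      P.h * (-((1 - C.A P V) * C.H P V / 2) + 11 * C.G P V + C.Q P V + P.δ * P.U) := by
  have hV := st.ok
  have hA1 := A_le_one hC hI
  have hH := H_nonneg hC hV hI
  have hG := G_nonneg hP hC hV
  have hη := hP.η_pos
  have hη1 := hP.η_le
  have hh := hP.h_pos
  have hb := (hV.D_pos C.j).le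
  have hU : 0 ≤ P.δ * P.U := mul_nonneg hP.δ_nonneg (hb.trans (hV.D_le _))
  set κ : ℝ := 2 * C.A P V - 1 with hκ
  have hκ0 : 0 ≤ κ := by linarith
  have hd : C.H P Vd - C.H P V ≤ 4 * P.h * (κ * ∑ i ∈ P.I, C.x V i * (V.sg P i * V.D C.j)) := by
    have h1 := next_high hP hC hV hI st.okd st.nd (κ := κ) le_rfl hκ0
    have h2 : 0 ≤ ∑ i ∈ P.I, C.x V i * (4 * P.h * V.sg P i) :=
      sum_nonneg fun i _ => mul_nonneg (x_nonneg hC hV i)
        (mul_nonneg (by linarith) (le_max_left _ _))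
    have h3 := mul_le_mul_of_nonneg_left (st.nd.D_le C.j) (mul_nonneg hκ0 h2)
    refine (h1.trans h3).trans (le_of_eq ?_)
    rw [mul_assoc, sum_mul, mul_sum, mul_sum, mul_sum]
    exact sum_congr rfl fun i _ => by ring
  have ht : C.H P Vt - C.H P V ≤ 0 := by
    simpa using next_high hP hC hV hI st.okt st.nt (κ := κ) le_rfl hκ0
  have hr : ∀ c ∈ P.I,
      (V.y c - C.x V c) * (1 + P.η * V.ac P c) * (V.bc P c * (C.H P (Vr c) - C.H P V))
        ≤ κ * ∑ i ∈ P.I, C.x V i *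
          ((V.y c - C.x V c) * (1 + P.η * V.ac P c) * (V.J i c * (Vr c).D C.j)) := by
    intro c hc
    have h1 := next_high hP hC hV hI (st.okr c hc) (st.nr c hc) (κ := κ) le_rfl hκ0
    have hbc := one_le_bc (P := P) (V := V) c
    have h2 := mul_le_mul_of_nonneg_left h1 (show 0 ≤ V.bc P c by linarith)
    have h3 := bc_mul_sum (P := P) (C := C) (V := V) c
    have h4 : V.bc P c * (C.H P (Vr c) - C.H P V)
        ≤ κ * (∑ i ∈ P.I, C.x V i * V.J i c) * (Vr c).D C.j := by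
      rw [← h3]; linarith
    have h5 := le_ac hV c
    have hμ : 0 ≤ V.y c - C.x V c := sub_nonneg.2 (x_le_y hC hV c)
    have hw : 0 ≤ 1 + P.η * V.ac P c := by nlinarith
    refine (mul_le_mul_of_nonneg_left h4 (mul_nonneg hμ hw)).trans (le_of_eq ?_)
    rw [mul_assoc κ, sum_mul, mul_sum, mul_sum, mul_sum]
    exact sum_congr rfl fun i _ => by ring
  have hext := sum_le_sum hr
  rw [← mul_sum, sum_comm] at hext
  have hkill : ∑ i ∈ P.I, C.x V i * (V.sg P i * V.D C.j)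
      + ∑ i ∈ P.I, ∑ c ∈ P.I, C.x V i *
          ((V.y c - C.x V c) * (1 + P.η * V.ac P c) * (V.J i c * (Vr c).D C.j))
      ≤ C.H P V + (P.δ * P.U + 6 * C.G P V + C.Q P V) := by
    have h1 : ∀ i ∈ P.I, C.x V i * (V.sg P i * V.D C.j) + ∑ c ∈ P.I, C.x V i *
          ((V.y c - C.x V c) * (1 + P.η * V.ac P c) * (V.J i c * (Vr c).D C.j))
        ≤ C.x V i * ((1 - C.A P V) * V.D C.j) + C.x V i * (P.δ * P.U + 2 * C.G P V)
          + 4 * (C.x V i * P.d C.j i) + C.lam i * C.y0 i * V.rho P i := by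
      intro i _
      rw [← mul_sum]
      have h2 := mul_le_mul_of_nonneg_left (kill_le hP hC st hI i) (x_nonneg hC hV i)
      have h3 := mul_le_mul_of_nonneg_right (x_le_x0 hC hI i) (rho_nonneg hP hV i)
      linarith
    have h2 := sum_le_sum h1
    rw [sum_add_distrib, sum_add_distrib, sum_add_distrib, sum_add_distrib, ← sum_mul, ← sum_mul,
      ← mul_sum] at h2
    have h3 : C.A P V * (P.δ * P.U + 2 * C.G P V) ≤ P.δ * P.U + 2 * C.G P V :=
      mul_le_of_le_one_left (by linarith) hA1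
    simp only [Client.H, Client.A, Client.G, Client.Q] at h2 h3 ⊢
    linarith
  have hQ : 0 ≤ C.Q P V := sum_nonneg fun i _ =>
    mul_nonneg (mul_nonneg (hC.lam_nonneg i) (hC.y0_nonneg i)) (rho_nonneg hP hV i)
  have hk2 := mul_le_mul_of_nonneg_left hkill hκ0
  have hk3 : κ * (P.δ * P.U + 6 * C.G P V + C.Q P V) ≤ P.δ * P.U + 6 * C.G P V + C.Q P V :=
    mul_le_of_le_one_left (by linarith) (by linarith)
  have hint := sum_int hP hC st hI
  have hfin : κ * C.H P V - C.A P V * C.H P V + P.η * ((1 - C.A P V) * C.H P V)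
      ≤ -((1 - C.A P V) * C.H P V / 2) := by
    have h1 : 0 ≤ (1 - C.A P V) * C.H P V := mul_nonneg (by linarith) hH
    have h2 := mul_le_mul_of_nonneg_right hη1 h1
    rw [hκ]
    nlinarith
  rw [drift_eq (C := C)]
  have hsum := mul_le_mul_of_nonneg_left (add_le_add hint hext) hh.le
  have hk4 := mul_le_mul_of_nonneg_left hk2 hh.le
  have hk5 := mul_le_mul_of_nonneg_left hk3 hh.le
  have hf3 := mul_le_mul_of_nonneg_left hfin hh.le
  nlinarith

end StepH

open StepH in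
/-- The drift of `H`. -/
theorem step_H {P : Par} {C : Client} {V Vd Vt : View} {Vr : ℕ → View} (hP : P.OK)
    (hC : C.OK P) (st : Step P V Vd Vt Vr) (hI : C.Inv P V) :
    drift P V Vd Vt Vr (C.H P) ≤
      P.h * (-((1 - C.A P V) * C.H P V / 2) + 12 * C.G P V + C.Q P V + P.δ * P.U)
        + P.n * P.U * P.ξ := by
  have hV := st.ok
  have hG := mul_nonneg hP.h_pos.le (G_nonneg hP hC hV)
  have hU : 0 ≤ P.U := (hV.D_pos C.j).le.trans (hV.D_le _)
  have hδ := mul_nonneg hP.h_pos.le (mul_nonneg hP.δ_nonneg hU)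
  have hQ : 0 ≤ P.h * C.Q P V := mul_nonneg hP.h_pos.le (sum_nonneg fun i _ =>
    mul_nonneg (mul_nonneg (hC.lam_nonneg i) (hC.y0_nonneg i)) (rho_nonneg hP hV i))
  have hE : 0 ≤ P.n * P.U * P.ξ :=
    mul_nonneg (mul_nonneg (by linarith [hP.one_le_n]) hU) hP.ξ_nonneg
  rcases le_total (C.A P V) (1 / 2) with hA | hA
  · have := step_low hP hC st hI hA
    linarith
  · have := step_high hP hC st hI hA
    linarith

end Vale.Agent.P334.Proc
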