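import Vale.Agent.P334.ProcBasic
import Vale.Agent.P334.PQ

/-!
The drift of the main potential.
-/

namespace Vale.Agent.P334.Proc

open Finset

theorem pq_facts {θ : ℝ} (h : 0 ≤ θ) : 0 < Real.exp (-θ) ∧ Real.exp (-θ) ≤ 1 ∧
    1 / 2 ≤ pf (Real.exp (-θ)) ∧ pf (Real.exp (-θ)) ≤ 1 ∧ 1 ≤ qf (Real.exp (-θ)) ∧
    qf (Real.exp (-θ)) + pf (Real.exp (-θ)) ≤ 2 := by
  have h0 := Real.exp_pos (-θ)
  have h1 : Real.exp (-θ) ≤ 1 := Real.exp_le_one_iff.2 (by linarith)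
  have h2 := half_le_pp h0 h1
  have h3 := pq_le_two h0 h1
  refine ⟨h0, h1, h2, pp_le_one h0 h1, one_le_qq h0 h1, ?_⟩
  change qq _ + pp _ ≤ 2
  nlinarith

/-! ### Sums -/

section sums

variable (I : Finset ℕ) (ν f d : ℕ → ℝ)

theorem sum_surv : ∑ i ∈ I, ν i * (1 - f i) = ∑ i ∈ I, ν i - ∑ i ∈ I, ν i * f i := by
  rw [← sum_sub_distrib]
  exact sum_congr rfl fun i _ => by ring

theorem sum_surv_mul : ∑ i ∈ I, ν i * (1 - f i) * d i =
    ∑ i ∈ I, ν i * d i - ∑ i ∈ I, ν i * f i * d i := by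
  rw [← sum_sub_distrib]
  exact sum_congr rfl fun i _ => by ring

theorem sum_lin (α β : ℝ) : ∑ i ∈ I, ν i * f i * (α - β * d i) =
    α * ∑ i ∈ I, ν i * f i - β * ∑ i ∈ I, ν i * f i * d i := by
  rw [mul_sum, mul_sum, ← sum_sub_distrib]
  exact sum_congr rfl fun i _ => by ring

end sums

variable {P : Par} {V V' Vd Vt : View} {Vr : ℕ → View} {C : Client} {ν : ℕ → ℝ}

/-- Admissible measures. -/
def Adm (P : Par) (C : Client) (V : View) (ν : ℕ → ℝ) : Prop :=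
  ∀ i ∈ P.I, 0 ≤ ν i ∧ ν i ≤ C.x V i

theorem Adm.tot_nonneg (h : Adm P C V ν) : 0 ≤ ∑ i ∈ P.I, ν i :=
  Finset.sum_nonneg fun i hi => (h i hi).1

theorem Adm.tot_le (h : Adm P C V ν) : ∑ i ∈ P.I, ν i ≤ C.A P V :=
  sum_le_sum fun i hi => (h i hi).2

theorem Adm.cost_nonneg (h : Adm P C V ν) (hP : P.OK) : 0 ≤ ∑ i ∈ P.I, ν i * P.d C.j i :=
  Finset.sum_nonneg fun i hi => mul_nonneg (h i hi).1 (hP.d_pos _ _).le

theorem Adm.cost_le (h : Adm P C V ν) (hP : P.OK) : ∑ i ∈ P.I, ν i * P.d C.j i ≤ C.G P V :=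
  sum_le_sum fun i hi => mul_le_mul_of_nonneg_right (h i hi).2 (hP.d_pos _ _).le

theorem Adm.le_Phi0 (h : Adm P C V ν) (hP : P.OK) (hV : V.OK P) :
    (1 - C.A P V) * V.D C.j ≤ C.Phi0 P V.θ (V.D C.j) ν := by
  obtain ⟨-, -, h1, -, h2, -⟩ := pq_facts hV.θ_nonneg
  have h3 := mul_le_mul_of_nonneg_right h.tot_le (hV.D_pos C.j).le
  have h4 : 0 ≤ (qf (Real.exp (-V.θ)) + pf (Real.exp (-V.θ)) * ∑ i ∈ P.I, ν i) *
      ∑ i ∈ P.I, ν i * P.d C.j i :=
    mul_nonneg (add_nonneg (by linarith) (mul_nonneg (by linarith) h.tot_nonneg))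
      (h.cost_nonneg hP)
  rw [Client.Phi0]
  linarith

theorem Adm.Phi_le (h : Adm P C V ν) (hP : P.OK) (hV : V.OK P) :
    C.Phi P V ≤ C.Phi0 P V.θ (V.D C.j) ν :=
  csInf_le ⟨(1 - C.A P V) * V.D C.j, by
    rintro r ⟨μ, hμ, rfl⟩
    exact Adm.le_Phi0 hμ hP hV⟩ ⟨ν, h, rfl⟩

theorem le_Phi (hC : C.OK P) (hV : V.OK P) {r : ℝ}
    (h : ∀ ν, Adm P C V ν → r ≤ C.Phi0 P V.θ (V.D C.j) ν) : r ≤ C.Phi P V :=
  le_csInf ⟨_, fun _ => 0, fun i _ => ⟨le_rfl, hC.x_nonneg hV i⟩, rfl⟩ (by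
    rintro s ⟨μ, hμ, rfl⟩
    exact h μ hμ)

theorem adm_x (hC : C.OK P) (hV : V.OK P) : Adm P C V (C.x V) :=
  fun i _ => ⟨hC.x_nonneg hV i, le_rfl⟩

theorem Phi_ge (hP : P.OK) (hC : C.OK P) (hV : V.OK P) :
    (1 - C.A P V) * V.D C.j ≤ C.Phi P V := le_Phi hC hV fun _ h => h.le_Phi0 hP hV

theorem Phi_le_x (hP : P.OK) (hC : C.OK P) (hV : V.OK P) (hI : C.Inv P V) :
    C.Phi P V ≤ (1 - C.A P V) * V.D C.j + 2 * C.G P V := by
  obtain ⟨-, -, h1, -, h2, h3⟩ := pq_facts hV.θ_nonneg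
  have h4 := (adm_x hC hV).Phi_le hP hV
  have h5 := mul_le_of_le_one_right (by linarith : 0 ≤ pf (Real.exp (-V.θ))) (hC.A_le_one hI)
  have h6 := mul_le_mul_of_nonneg_right (by linarith :
    qf (Real.exp (-V.θ)) + pf (Real.exp (-V.θ)) * C.A P V ≤ 2) (hC.G_nonneg hP hV)
  rw [Client.Phi0] at h4
  exact h4.trans (add_le_add le_rfl h6)

theorem Adm.surv (h : Adm P C V ν) (hC : C.OK P) {f : ℕ → ℝ} (hn : Next P V f V')
    (hf : ∀ i ∈ P.I, f i ≤ 1) : Adm P C V' fun i => ν i * (1 - f i) := fun i hi =>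
  ⟨mul_nonneg (h i hi).1 (sub_nonneg.2 (hf i hi)),
    (mul_le_mul_of_nonneg_right (h i hi).2 (sub_nonneg.2 (hf i hi))).trans (hC.x_lo hn hi)⟩

/-- The potential after an event, keeping all survivors. -/
theorem Adm.ext_le (h : Adm P C V ν) (hP : P.OK) (hC : C.OK P) (hV' : V'.OK P) {f : ℕ → ℝ}
    (hn : Next P V f V') (hf : ∀ i ∈ P.I, f i ≤ 1) (hθ : V'.θ = V.θ) :
    C.Phi P V' ≤ (1 - ∑ i ∈ P.I, ν i + ∑ i ∈ P.I, ν i * f i) * V'.D C.j +
      (qf (Real.exp (-V.θ)) + pf (Real.exp (-V.θ)) * (∑ i ∈ P.I, ν i - ∑ i ∈ P.I, ν i * f i)) *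
        (∑ i ∈ P.I, ν i * P.d C.j i - ∑ i ∈ P.I, ν i * f i * P.d C.j i) := by
  have h1 := (h.surv hC hn hf).Phi_le hP hV'
  rw [Client.Phi0, sum_surv, sum_surv_mul, hθ] at h1
  exact h1.trans (le_of_eq (by ring))

/-- The potential after an event, keeping the near survivors. -/
theorem Adm.int_le (h : Adm P C V ν) (hP : P.OK) (hC : C.OK P) (hI : C.Inv P V) (hV' : V'.OK P)
    {f : ℕ → ℝ} (hn : Next P V f V') (hf : ∀ i ∈ P.I, 0 ≤ f i ∧ f i ≤ 1) (hθ : V'.θ = V.θ)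
    {e : ℝ} (he : V'.D C.j ≤ e) :
    C.Phi P V' ≤ e - ∑ i ∈ P.I, ν i * (1 - f i) * max 0 (e -
      (qf (Real.exp (-V.θ)) + pf (Real.exp (-V.θ)) * ∑ i ∈ P.I, ν i) * P.d C.j i) := by
  obtain ⟨-, -, h1, -, h2, -⟩ := pq_facts hV'.θ_nonneg
  rw [hθ] at h1 h2
  set κ := qf (Real.exp (-V.θ)) + pf (Real.exp (-V.θ)) * ∑ i ∈ P.I, ν i with hκ
  set μ : ℕ → ℝ := fun i => if κ * P.d C.j i ≤ e then ν i * (1 - f i) else 0 with hμ
  have hs := h.surv hC hn fun i hi => (hf i hi).2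
  have hm : Adm P C V' μ := fun i hi => by
    simp only [hμ]
    split_ifs
    · exact hs i hi
    · exact ⟨le_rfl, hC.x_nonneg hV' i⟩
  have h3 : ∑ i ∈ P.I, μ i ≤ ∑ i ∈ P.I, ν i := sum_le_sum fun i hi => by
    simp only [hμ]
    split_ifs
    · exact mul_le_of_le_one_right (h i hi).1 (by linarith [(hf i hi).1])
    · exact (h i hi).1
  have h4 : ∑ i ∈ P.I, ν i * (1 - f i) * max 0 (e - κ * P.d C.j i) =
      e * ∑ i ∈ P.I, μ i - κ * ∑ i ∈ P.I, μ i * P.d C.j i := by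
    rw [mul_sum, mul_sum, ← sum_sub_distrib]
    refine sum_congr rfl fun i _ => ?_
    simp only [hμ]
    split_ifs with h5
    · rw [max_eq_right (by linarith)]
      ring
    · rw [max_eq_left (by linarith)]
      ring
  have h5 := hm.Phi_le hP hV'
  have h6 := mul_le_mul_of_nonneg_left he
    (sub_nonneg.2 (h3.trans (h.tot_le.trans (hC.A_le_one hI))))
  have h7 := mul_le_mul_of_nonneg_right (mul_le_mul_of_nonneg_left h3
    (by linarith : 0 ≤ pf (Real.exp (-V.θ)))) (hm.cost_nonneg hP)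
  rw [Client.Phi0, hθ] at h5
  rw [h4, hκ]
  nlinarith

/-! ### One opening -/

section ring

variable {p q a G b m X : ℝ} {c : ℕ}

theorem sum_fr (V : View) (c : ℕ) (w : ℕ → ℝ) :
    ∑ i ∈ P.I, ν i * V.J i c * w i = V.bc P c * ∑ i ∈ P.I, ν i * (V.J i c / V.bc P c) * w i := by
  have := (V.bc_pos (P := P) c).ne'
  rw [mul_sum]
  exact sum_congr rfl fun i _ => by field_simp

/-- Three upper bounds for the change of the potential when `c` opens. -/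
theorem Adm.ring (h : Adm P C V ν) (hP : P.OK) (hC : C.OK P) (st : Step P V Vd Vt Vr)
    (hI : C.Inv P V) (hc : c ∈ P.I) (hp : p = pf (Real.exp (-V.θ)))
    (hq : q = qf (Real.exp (-V.θ))) (ha : a = ∑ i ∈ P.I, ν i)
    (hG : G = ∑ i ∈ P.I, ν i * P.d C.j i) (hb : b = V.D C.j)
    (hX : X = V.bc P c * (C.Phi P (Vr c) - ((1 - a) * b + (q + p * a) * G))) :
    X ≤ P.d C.j c - ∑ i ∈ P.I, ν i * (1 - V.J i c) * max 0 (P.d C.j c - (q + p * a) * P.d C.j i) -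
      ((1 - a) * b + (q + p * a) * G) ∧
    X ≤ ∑ i ∈ P.I, ν i * V.J i c * (b - p * G - (q + p * a) * P.d C.j i) +
      p * (∑ i ∈ P.I, ν i * V.J i c) * (∑ i ∈ P.I, ν i * V.J i c * P.d C.j i) -
      (1 - a + ∑ i ∈ P.I, ν i * V.J i c) * (b - (Vr c).D C.j) ∧
    X ≤ ∑ i ∈ P.I, ν i * V.J i c * (P.d C.j i + P.d i c) := by
  have hV := st.ok
  have hV' := st.okr c hc
  have hn := st.nr c hc
  obtain ⟨-, -, p1, -, q1, -⟩ := pq_facts hV.θ_nonneg
  rw [← hp] at p1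
  rw [← hq] at q1
  have hf : ∀ i ∈ P.I, 0 ≤ V.J i c / V.bc P c ∧ V.J i c / V.bc P c ≤ 1 := fun i _ =>
    ⟨hV.fr_nonneg i c, (hV.fr_le i c).trans (hV.J_le_one i c)⟩
  have e1 := h.ext_le hP hC hV' hn (fun i hi => (hf i hi).2) (st.θr c hc)
  have e2 := h.int_le hP hC hI hV' hn hf (st.θr c hc) (st.Dr c hc C.j)
  rw [← hp, ← hq, ← ha] at e1 e2
  rw [← hG] at e1
  have hm := V.one_le_bc (P := P) c
  have ha1 : a ≤ 1 := ha ▸ h.tot_le.trans (hC.A_le_one hI)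
  have hβ : (Vr c).D C.j ≤ b := hb ▸ hn.D_le C.j
  have hb' := hV'.D_pos C.j
  have hbc := st.Dr c hc C.j
  have s1 := sum_fr (P := P) (ν := ν) V c fun _ => 1
  have s2 := sum_fr (P := P) (ν := ν) V c (P.d C.j)
  have s3 := sum_fr (P := P) (ν := ν) V c fun i => max 0 (P.d C.j c - (q + p * a) * P.d C.j i)
  simp only [mul_one] at s1
  have t0 : 0 ≤ ∑ i ∈ P.I, ν i * (V.J i c / V.bc P c) :=
    sum_nonneg fun i hi => mul_nonneg (h i hi).1 (hf i hi).1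
  have t1 : ∑ i ∈ P.I, ν i * (V.J i c / V.bc P c) ≤ a :=
    ha ▸ sum_le_sum fun i hi => mul_le_of_le_one_right (h i hi).1 (hf i hi).2
  have t2 : 0 ≤ ∑ i ∈ P.I, ν i * (V.J i c / V.bc P c) * P.d C.j i :=
    sum_nonneg fun i hi => mul_nonneg (mul_nonneg (h i hi).1 (hf i hi).1) (hP.d_pos _ _).le
  have t3 : ∑ i ∈ P.I, ν i * (V.J i c / V.bc P c) * P.d C.j i ≤ G :=
    hG ▸ sum_le_sum fun i hi => mul_le_mul_of_nonneg_right
      (mul_le_of_le_one_right (h i hi).1 (hf i hi).2) (hP.d_pos _ _).le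
  have t4 : (Vr c).D C.j * ∑ i ∈ P.I, ν i * (V.J i c / V.bc P c) -
      (q + p * a) * ∑ i ∈ P.I, ν i * (V.J i c / V.bc P c) * P.d C.j i ≤
      ∑ i ∈ P.I, ν i * (V.J i c / V.bc P c) * max 0 (P.d C.j c - (q + p * a) * P.d C.j i) := by
    rw [← sum_lin]
    exact sum_le_sum fun i hi => mul_le_mul_of_nonneg_left
      (le_max_of_le_right (by linarith)) (mul_nonneg (h i hi).1 (hf i hi).1)
  have t5 : (Vr c).D C.j * ∑ i ∈ P.I, ν i * V.J i c ≤
      ∑ i ∈ P.I, ν i * V.J i c * (P.d C.j i + P.d i c) := by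
    rw [mul_comm, sum_mul]
    exact sum_le_sum fun i hi => mul_le_mul_of_nonneg_left (hbc.trans (hP.tri _ _ _))
      (mul_nonneg (h i hi).1 (hV.J_nonneg i c))
  rw [sum_surv_mul] at e2
  rw [sum_surv_mul, sum_lin, s1, s2, s3]
  rw [s1] at t5
  set m := V.bc P c
  set T := ∑ i ∈ P.I, ν i * (V.J i c / m)
  set TG := ∑ i ∈ P.I, ν i * (V.J i c / m) * P.d C.j i
  set Tρ := ∑ i ∈ P.I, ν i * (V.J i c / m) * max 0 (P.d C.j c - (q + p * a) * P.d C.j i)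
  set b' := (Vr c).D C.j
  set Φ' := C.Phi P (Vr c)
  have u1 : 0 ≤ (1 - a) * (b - b') := mul_nonneg (by linarith) (by linarith)
  have u2 : 0 ≤ p * T * (G - TG) := mul_nonneg (mul_nonneg (by linarith) t0) (by linarith)
  have u3 : 0 ≤ p * T * TG := mul_nonneg (mul_nonneg (by linarith) t0) t2
  have u4 : 0 ≤ (q + p * a) * TG := mul_nonneg (by nlinarith) t2
  have e3 : Φ' - ((1 - a) * b + (q + p * a) * G) ≤
      b' * T - (q + p * a) * TG - (1 - a) * (b - b') - p * T * (G - TG) := by linarith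
  refine ⟨?_, ?_, ?_⟩
  · have := mul_le_mul_of_nonneg_left (by linarith :
      Φ' - ((1 - a) * b + (q + p * a) * G) ≤ Tρ) (sub_nonneg.2 hm)
    linarith
  · have v1 := mul_le_mul_of_nonneg_left e3 (by linarith : 0 ≤ m)
    have v2 := mul_nonneg (sub_nonneg.2 hm) u1
    have v3 := mul_nonneg (mul_nonneg (by linarith : 0 ≤ m) (sub_nonneg.2 hm)) u3
    linarith
  · have := mul_le_mul_of_nonneg_left (by linarith :
      Φ' - ((1 - a) * b + (q + p * a) * G) ≤ b' * T) (by linarith : 0 ≤ m)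
    linarith

theorem bias_int {η α X u e Φ : ℝ} (hη : 0 ≤ η) (hη1 : η ≤ 1) (hα : -1 ≤ α) (hα1 : α ≤ 1)
    (hX : X ≤ u) (hu : u ≤ e) (hu' : -Φ ≤ u) (he : 0 ≤ e) (hΦ : 0 ≤ Φ) :
    (1 + η * α) * X ≤ u + η * (e + max 0 (-α) * Φ) := by
  have h1 := mul_le_mul_of_nonneg_left hX (by nlinarith : 0 ≤ 1 + η * α)
  have h2 : α * u ≤ e + max 0 (-α) * Φ := by
    rcases le_total 0 α with h | h
    · have := mul_nonneg (le_max_left 0 (-α)) hΦ
      nlinarith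
    · rw [max_eq_right (by linarith)]
      nlinarith
  nlinarith

theorem bias_ext {η α X E S : ℝ} (hη : 0 ≤ η) (hη1 : η ≤ 1) (hα : -1 ≤ α) (hα1 : α ≤ 1)
    (hX : X ≤ E) (hX' : X ≤ S) (hE : -S ≤ E) (hS : 0 ≤ S) : (1 + η * α) * X ≤ E + η * S := by
  rcases le_total 0 α with h | h
  · have : α * X ≤ S := by nlinarith
    nlinarith
  · have h1 := mul_le_mul_of_nonneg_left hX (by nlinarith : 0 ≤ 1 + η * α)
    have : α * E ≤ S := by nlinarith
    nlinarith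

end ring

/-! ### The sum over all events -/

section all

variable {p q a G b : ℝ} {F : ℕ → ℝ}

/-- The static inequality for the rounded kernel. -/
theorem Adm.internal (h : Adm P C V ν) (hP : P.OK) (hC : C.OK P) (hV : V.OK P) (hI : C.Inv P V)
    (hp : p = pf (Real.exp (-V.θ))) (hG : G = ∑ i ∈ P.I, ν i * P.d C.j i) {ρ : ℕ → ℕ → ℝ}
    (hρ : ∀ i c, 0 ≤ ρ i c) {Z : ℝ} (hF : ∀ i ∈ P.I, F i ≤ 2 * (V.v i + P.d C.j i + G))
    (hZ : ∀ J : ℕ → ℕ → ℝ, (∀ i ∈ P.I, ∀ c ∈ P.I,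
      ker (2 / p) (P.d C.j i + P.d C.j c) (V.v i) ≤ J i c ∧ J i c ≤ 1) →
      ∑ i ∈ P.I, ν i * F i * (1 - ∑ c ∈ P.I, ν c * J i c) -
        ∑ i ∈ P.I, ∑ c ∈ P.I, ν i * ν c * (1 - J i c) * ρ i c ≤ Z) :
    ∑ i ∈ P.I, ν i * F i * (1 - ∑ c ∈ P.I, ν c * V.J i c) -
      ∑ i ∈ P.I, ∑ c ∈ P.I, ν i * ν c * (1 - V.J i c) * ρ i c ≤
      Z + 12 * P.ε * G + 6 * P.δ * P.U := by
  obtain ⟨-, -, p1, -, -, -⟩ := pq_facts hV.θ_nonneg
  rw [← hp] at p1
  set J' : ℕ → ℕ → ℝ := fun i c =>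
    max (V.J i c) (ker (2 / p) (P.d C.j i + P.d C.j c) (V.v i)) with hJ'
  have h1 := hZ J' fun i _ c _ =>
    ⟨le_max_right _ _, max_le (hV.J_le_one i c) (ker_le_one _ _ _)⟩
  have hG0 : 0 ≤ G := hG ▸ h.cost_nonneg hP
  have hGU : G ≤ P.U := hG ▸ (h.cost_le hP).trans (hC.G_le_U hP hV hI)
  have ha0 := h.tot_nonneg
  have ha1 := h.tot_le.trans (hC.A_le_one hI)
  have hε := hP.ε_nonneg
  have hδU := mul_nonneg hP.δ_nonneg hP.U_pos.le
  have h2 : ∀ i ∈ P.I, ∀ c ∈ P.I, (J' i c - V.J i c) * (F i - ρ i c) ≤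
      P.ε * (6 * P.d C.j i + 4 * P.d C.j c + 2 * G) + 6 * P.δ * P.U := by
    intro i hi c _
    have d1 := hP.d_pos C.j i
    have d2 := hP.d_pos C.j c
    have d3 : P.d i c ≤ P.d C.j i + P.d C.j c := by
      rw [hP.comm C.j i]
      exact hP.tri _ _ _
    by_cases h3 : V.J i c = 1
    · have : J' i c = 1 := by
        simp only [hJ', h3]
        exact max_eq_left (ker_le_one _ _ _)
      rw [this, h3, sub_self, zero_mul]
      have : 0 ≤ P.ε * (6 * P.d C.j i + 4 * P.d C.j c + 2 * G) := by positivity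
      linarith
    · have h4 := hV.v_lt h3
      have h5 : 0 ≤ J' i c - V.J i c := sub_nonneg.2 (le_max_left _ _)
      have h6 : J' i c - V.J i c ≤ P.ε + P.δ := by
        have k1 := ker_anti (K := 2 / p) (by positivity) (hV.v_pos i) d3
        have k2 := ker_le_add (K := V.K) (K' := 2 / p) (by positivity) (hV.v_pos i)
          (hP.d_pos i c).le hε (by rw [hp]; linarith [hV.K_ge])
        have k3 := hV.J_ge i c
        have := hP.δ_nonneg
        rw [sub_le_iff_le_add]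
        exact max_le (by linarith) (by linarith)
      have h7 : F i - ρ i c ≤ 2 * (V.v i + P.d C.j i + G) := by linarith [hF i hi, hρ i c]
      have h8 := hV.v_pos i
      have h9 := (mul_le_mul_of_nonneg_left h7 h5).trans
        (mul_le_mul_of_nonneg_right h6 (by positivity))
      have h10 := mul_le_mul_of_nonneg_left (by linarith : 2 * (V.v i + P.d C.j i + G) ≤
        6 * P.d C.j i + 4 * P.d C.j c + 2 * G) hε
      have h11 := mul_le_mul_of_nonneg_left (by linarith [hV.v_le_U i, hP.le_U C.j i] :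
        2 * (V.v i + P.d C.j i + G) ≤ 6 * P.U) hP.δ_nonneg
      linarith
  have h3 : ∀ i ∈ P.I, ν i * F i * (1 - ∑ c ∈ P.I, ν c * V.J i c) -
      ∑ c ∈ P.I, ν i * ν c * (1 - V.J i c) * ρ i c ≤
      ν i * F i * (1 - ∑ c ∈ P.I, ν c * J' i c) - ∑ c ∈ P.I, ν i * ν c * (1 - J' i c) * ρ i c +
        (6 * P.ε * (ν i * P.d C.j i) + ν i * (6 * P.ε * G + 6 * P.δ * P.U)) := by
    intro i hi
    have h4 : ∑ c ∈ P.I, ν c * ((J' i c - V.J i c) * (F i - ρ i c)) ≤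
        ∑ c ∈ P.I, (ν c * (P.ε * (6 * P.d C.j i + 2 * G) + 6 * P.δ * P.U) +
          4 * P.ε * (ν c * P.d C.j c)) := sum_le_sum fun c hc => by
      have := mul_le_mul_of_nonneg_left (h2 i hi c hc) (h c hc).1
      linarith
    rw [sum_add_distrib, ← sum_mul, ← mul_sum, ← hG] at h4
    have d1 := hP.d_pos C.j i
    have h5 := mul_le_of_le_one_left
      (by positivity : 0 ≤ P.ε * (6 * P.d C.j i + 2 * G) + 6 * (P.δ * P.U)) ha1
    have h6 := mul_le_mul_of_nonneg_left (by linarith :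
      ∑ c ∈ P.I, ν c * ((J' i c - V.J i c) * (F i - ρ i c)) ≤
        6 * P.ε * P.d C.j i + (6 * P.ε * G + 6 * P.δ * P.U)) (h i hi).1
    have h7 : ν i * ∑ c ∈ P.I, ν c * ((J' i c - V.J i c) * (F i - ρ i c)) =
        ν i * F i * (∑ c ∈ P.I, ν c * J' i c) - ν i * F i * (∑ c ∈ P.I, ν c * V.J i c) +
        ∑ c ∈ P.I, ν i * ν c * (1 - J' i c) * ρ i c -
          ∑ c ∈ P.I, ν i * ν c * (1 - V.J i c) * ρ i c := by
      simp only [mul_sum, ← sum_add_distrib, ← sum_sub_distrib]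
      exact sum_congr rfl fun c _ => by ring
    linarith
  have h4 := sum_le_sum h3
  rw [sum_add_distrib, sum_sub_distrib, sum_sub_distrib, sum_add_distrib, ← mul_sum, ← sum_mul,
    ← hG] at h4
  have h5 := mul_le_of_le_one_left (by positivity : 0 ≤ 6 * P.ε * G + 6 * (P.δ * P.U)) ha1
  linarith

theorem Adm.step (h : Adm P C V ν) (hP : P.OK) (hC : C.OK P) (st : Step P V Vd Vt Vr)
    (hI : C.Inv P V) (hS : Static (pf (Real.exp (-V.θ))) (qf (Real.exp (-V.θ))) (Real.exp (-V.θ)))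
    {Φ : ℝ} (hΦ : Φ = C.Phi0 P V.θ (V.D C.j) ν) :
    (C.Phi P Vd - Φ) / 4 + (C.Phi P Vt - Φ) / 4 +
      P.h * ∑ c ∈ P.I, V.rt P c * (C.Phi P (Vr c) - Φ) ≤
      P.h * (P.η * ((∑ c ∈ P.I, C.x V c * max 0 (-V.ac P c)) * Φ + 7 * C.G P V + C.Q P V) +
        13 * P.ε * C.G P V + 12 * P.δ * P.U) + 4 * P.h ^ 2 * P.U := by
  have hV := st.ok
  obtain ⟨-, -, p1, p2, q1, q2⟩ := pq_facts hV.θ_nonneg
  obtain ⟨p, hp⟩ : ∃ p, p = pf (Real.exp (-V.θ)) := ⟨_, rfl⟩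
  obtain ⟨q, hq⟩ : ∃ q, q = qf (Real.exp (-V.θ)) := ⟨_, rfl⟩
  obtain ⟨a, ha⟩ : ∃ a, a = ∑ i ∈ P.I, ν i := ⟨_, rfl⟩
  obtain ⟨G, hG⟩ : ∃ G, G = ∑ i ∈ P.I, ν i * P.d C.j i := ⟨_, rfl⟩
  obtain ⟨b, hb⟩ : ∃ b, b = V.D C.j := ⟨_, rfl⟩
  have hΦ0 : 0 ≤ Φ := hΦ ▸ (mul_nonneg (sub_nonneg.2 (hC.A_le_one hI)) (hV.D_pos _).le).trans
    (h.le_Phi0 hP hV)
  rw [Client.Phi0, ← hp, ← hq, ← ha, ← hG, ← hb] at hΦ
  have htick := hP.tick V.θ a hV.θ_nonneg hV.θ_le (ha ▸ h.tot_nonneg)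
    (ha ▸ h.tot_le.trans (hC.A_le_one hI))
  have hde : 2 * (pf (Real.exp (-V.θ)) - Real.exp (-Real.exp (-V.θ))) * (a - Real.exp (-V.θ)) =
      qf (Real.exp (-V.θ)) - 1 - pf (Real.exp (-V.θ)) * Real.exp (-V.θ) ^ 2 +
        a * (qf (Real.exp (-V.θ)) + 2 * pf (Real.exp (-V.θ)) - 3 +
          2 * pf (Real.exp (-V.θ)) * Real.exp (-V.θ)) := drift_eq (Real.exp_pos _) a
  rw [hde, ← st.θt, ← hp, ← hq] at htick
  rw [← hp] at p1 p2 q2 hS
  rw [← hq] at q1 q2 hS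
  have ha0 : 0 ≤ a := ha ▸ h.tot_nonneg
  have ha1 : a ≤ 1 := ha ▸ h.tot_le.trans (hC.A_le_one hI)
  have hG0 : 0 ≤ G := hG ▸ h.cost_nonneg hP
  have hG1 : G ≤ C.G P V := hG ▸ h.cost_le hP
  have hGU : G ≤ P.U := hG1.trans (hC.G_le_U hP hV hI)
  have hb0 : 0 ≤ b := hb ▸ (hV.D_pos _).le
  have hη := hP.η_pos
  have hη1 : P.η ≤ 1 := by linarith [hP.η_le]
  have hh := hP.h_pos
  have hδ := hP.δ_nonneg
  have hU := hP.U_pos
  obtain ⟨F, hF, hE, hD, hInt⟩ := hS P.I ν (P.d C.j) V.v a G b (fun i hi => (h i hi).1) ha ha1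
    (fun i _ => hP.d_pos _ _) hG hb0 (fun i _ => hV.v_pos i) fun i _ => by
      have := hV.D_tri i C.j
      rw [hP.comm] at this
      linarith [V.v_le_D i]
  have hInt' := h.internal hP hC hV hI hp hG
    (ρ := fun i c => max 0 (P.d C.j c - (q + p * a) * P.d C.j i)) (fun _ _ => le_max_left _ _)
    (fun i hi => (hF i hi).2) hInt
  -- openings
  have hring : ∀ c ∈ P.I, V.rt P c * (C.Phi P (Vr c) - Φ) ≤
      (ν c * P.d C.j c - ∑ i ∈ P.I, ν i * ν c * (1 - V.J i c) *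
        max 0 (P.d C.j c - (q + p * a) * P.d C.j i) - ν c * Φ) +
      P.η * (ν c * P.d C.j c + C.x V c * max 0 (-V.ac P c) * Φ) +
      (∑ i ∈ P.I, ν i * F i * (V.y c * V.J i c) - ∑ i ∈ P.I, ν i * F i * (ν c * V.J i c)) +
      P.η * ∑ i ∈ P.I, (ν i * (2 * P.d C.j i + G) * (V.y c * V.J i c) +
        ν i * (V.y c * V.J i c * P.d i c)) := by
    intro c hc
    obtain ⟨r1, r2, r3⟩ := h.ring hP hC st hI hc hp hq ha hG hb rfl
    rw [← hΦ] at r1 r2 r3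
    have r4 := hE (fun i => V.J i c) (b - (Vr c).D C.j)
      (fun i _ => ⟨hV.J_nonneg i c, hV.J_le_one i c⟩) (sub_nonneg.2 (hb ▸ (st.nr c hc).D_le _))
      fun i _ hJ => by
        have k1 := le_lin_of_pos hJ (hV.J_le i c)
        have k2 := hV.lt_v hJ
        have k3 := hV.v_pos i
        have k4 := hV.K_le
        rw [← hp, le_div_iff₀ (by linarith)] at k4
        rw [le_div_iff₀ k3] at k1
        have k5 := mul_le_mul_of_nonneg_left k1 (by linarith : 0 ≤ p)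
        have k6 := mul_le_mul_of_nonneg_right k4 (sub_nonneg.2 k2.le)
        linarith [st.Dr c hc C.j, hP.tri C.j i c]
    have dc := hP.d_pos C.j c
    have w0 : ∀ i ∈ P.I, 0 ≤ ν i * V.J i c := fun i hi => mul_nonneg (h i hi).1 (hV.J_nonneg i c)
    have s0 : 0 ≤ ∑ i ∈ P.I, ν i * (1 - V.J i c) * max 0 (P.d C.j c - (q + p * a) * P.d C.j i) :=
      sum_nonneg fun i hi => mul_nonneg (mul_nonneg (h i hi).1
        (sub_nonneg.2 (hV.J_le_one i c))) (le_max_left _ _)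
    have s1 : ∑ i ∈ P.I, ν i * (1 - V.J i c) * max 0 (P.d C.j c - (q + p * a) * P.d C.j i) ≤
        ∑ i ∈ P.I, ν i * P.d C.j c := sum_le_sum fun i hi => mul_le_mul
      (mul_le_of_le_one_right (h i hi).1 (by linarith [hV.J_nonneg i c]))
      (max_le dc.le (by nlinarith [hP.d_pos C.j i, mul_nonneg (by linarith : 0 ≤ p) ha0]))
      (le_max_left _ _) (h i hi).1
    rw [← sum_mul, ← ha] at s1
    have s2 := mul_le_of_le_one_left dc.le ha1
    have b1 := bias_int hη.le hη1 (hV.ac_ge c) (V.ac_le c) r1 (e := P.d C.j c) (Φ := Φ)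
      (by linarith) (by linarith) dc.le hΦ0
    have b2 := bias_ext hη.le hη1 (hV.ac_ge c) (V.ac_le c) (r2.trans r4)
      (S := ∑ i ∈ P.I, ν i * V.J i c * (2 * P.d C.j i + G + P.d i c))
      (r3.trans (sum_le_sum fun i hi => mul_le_mul_of_nonneg_left
        (by linarith [hP.d_pos C.j i]) (w0 i hi)))
      (by
        rw [← sum_neg_distrib]
        exact sum_le_sum fun i hi => by
          rw [← mul_neg]
          exact mul_le_mul_of_nonneg_left (by linarith [(hF i hi).1, hP.d_pos i c]) (w0 i hi))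
      (sum_nonneg fun i hi => mul_nonneg (w0 i hi) (by
        linarith [hP.d_pos C.j i, hP.d_pos i c]))
    have s3 : 0 ≤ ∑ i ∈ P.I, ν i * V.J i c * (2 * P.d C.j i + G + P.d i c) :=
      sum_nonneg fun i hi => mul_nonneg (w0 i hi) (by linarith [hP.d_pos C.j i, hP.d_pos i c])
    have c1 := mul_le_mul_of_nonneg_left b1 (h c hc).1
    have c2 := mul_le_mul_of_nonneg_left b2
      (sub_nonneg.2 ((h c hc).2.trans (hC.x_le_y hV c)))
    have c3 := mul_nonneg (mul_nonneg (h c hc).1 hη.le) s3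
    have c4 := mul_le_mul_of_nonneg_right (h c hc).2
      (mul_nonneg hη.le (mul_nonneg (le_max_left 0 (-V.ac P c)) hΦ0))
    have e1 : ∑ i ∈ P.I, ν i * ν c * (1 - V.J i c) * max 0 (P.d C.j c - (q + p * a) * P.d C.j i) =
        ν c * ∑ i ∈ P.I, ν i * (1 - V.J i c) * max 0 (P.d C.j c - (q + p * a) * P.d C.j i) := by
      rw [mul_sum]
      exact sum_congr rfl fun i _ => by ring
    have e2 : ∀ z : ℝ, ∑ i ∈ P.I, ν i * F i * (z * V.J i c) =
        z * ∑ i ∈ P.I, ν i * V.J i c * F i := fun z => by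
      rw [mul_sum]
      exact sum_congr rfl fun i _ => by ring
    have e3 : ∑ i ∈ P.I, (ν i * (2 * P.d C.j i + G) * (V.y c * V.J i c) +
        ν i * (V.y c * V.J i c * P.d i c)) =
        V.y c * ∑ i ∈ P.I, ν i * V.J i c * (2 * P.d C.j i + G + P.d i c) := by
      rw [mul_sum]
      exact sum_congr rfl fun i _ => by ring
    rw [e1, e2, e2, e3, View.rt]
    linarith
  have hsum := sum_le_sum hring
  have f1 : ∑ c ∈ P.I, ∑ i ∈ P.I, ν i * F i * (V.y c * V.J i c) =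
      ∑ i ∈ P.I, ν i * F i * V.B P i := by
    rw [sum_comm]
    exact sum_congr rfl fun i _ => by rw [← mul_sum, View.B]
  have f2 : ∑ c ∈ P.I, ∑ i ∈ P.I, ν i * F i * (ν c * V.J i c) =
      ∑ i ∈ P.I, ν i * F i * ∑ c ∈ P.I, ν c * V.J i c := by
    rw [sum_comm]
    exact sum_congr rfl fun i _ => by rw [← mul_sum]
  have f3 : ∑ c ∈ P.I, ∑ i ∈ P.I, (ν i * (2 * P.d C.j i + G) * (V.y c * V.J i c) +
      ν i * (V.y c * V.J i c * P.d i c)) ≤ 6 * G + C.Q P V := by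
    rw [sum_comm]
    have g1 : ∑ i ∈ P.I, ∑ c ∈ P.I, (ν i * (2 * P.d C.j i + G) * (V.y c * V.J i c) +
        ν i * (V.y c * V.J i c * P.d i c)) ≤
        ∑ i ∈ P.I, (4 * (ν i * P.d C.j i) + ν i * (2 * G) + C.lam i * C.y0 i * V.rho P i) :=
      sum_le_sum fun i hi => by
        rw [sum_add_distrib, ← mul_sum, ← mul_sum]
        have g2 := mul_le_mul_of_nonneg_left (by linarith [hV.B_le i, hP.δ_le] : V.B P i ≤ 2)
          (mul_nonneg (h i hi).1 (by linarith [hP.d_pos C.j i] : 0 ≤ 2 * P.d C.j i + G))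
        have g3 := mul_le_mul_of_nonneg_right ((h i hi).2.trans (hC.x_le hI i))
          (hV.rho_nonneg hP i)
        simp only [View.B, View.rho] at g2 g3 ⊢
        linarith
    rw [sum_add_distrib, sum_add_distrib, ← mul_sum, ← sum_mul, ← hG, ← ha] at g1
    have g4 := mul_le_of_le_one_left (by linarith : 0 ≤ 2 * G) ha1
    simp only [Client.Q]
    linarith
  rw [sum_add_distrib, sum_add_distrib, sum_add_distrib, sum_sub_distrib, sum_sub_distrib,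
    sum_sub_distrib, ← mul_sum, ← mul_sum, sum_add_distrib, ← sum_mul, ← sum_mul, ← hG, ← ha, f1,
    f2, sum_comm] at hsum
  -- decay
  have hdec : C.Phi P Vd - Φ ≤
      4 * P.h * ∑ i ∈ P.I, ν i * F i * V.sg P i + 16 * P.h ^ 2 * P.U := by
    have h4 := hP.four_h
    have k0 : ∀ i, 0 ≤ 4 * P.h * V.sg P i := fun i => mul_nonneg (by linarith) (V.sg_nonneg i)
    have k1 : ∀ i, 4 * P.h * V.sg P i ≤ 4 * P.h := fun i =>
      mul_le_of_le_one_right (by linarith) (hV.sg_le_one i)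
    have d1 := h.ext_le hP hC st.okd st.nd (fun i _ => (k1 i).trans h4) st.θd
    rw [← hp, ← hq, ← ha, ← hG] at d1
    have d2 : ∑ i ∈ P.I, ν i * (4 * P.h * V.sg P i) * (b - p * G - (q + p * a) * P.d C.j i) ≤
        4 * P.h * ∑ i ∈ P.I, ν i * F i * V.sg P i := by
      rw [mul_sum]
      refine sum_le_sum fun i hi => ?_
      by_cases h0 : V.sg P i = 0
      · simp only [h0, mul_zero, zero_mul, le_refl]
      · have := mul_le_mul_of_nonneg_left (hD i hi (by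
          rw [hV.v_eq h0, hb]
          linarith [hV.D_tri C.j i])) (mul_nonneg (h i hi).1 (k0 i))
        linarith
    rw [sum_lin] at d2
    have t0 : 0 ≤ ∑ i ∈ P.I, ν i * (4 * P.h * V.sg P i) :=
      sum_nonneg fun i hi => mul_nonneg (h i hi).1 (k0 i)
    have t1 : ∑ i ∈ P.I, ν i * (4 * P.h * V.sg P i) ≤ a := ha ▸ sum_le_sum fun i hi =>
      mul_le_of_le_one_right (h i hi).1 ((k1 i).trans h4)
    have t2 : ∑ i ∈ P.I, ν i * (4 * P.h * V.sg P i) ≤ ∑ i ∈ P.I, ν i * (4 * P.h) :=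
      sum_le_sum fun i hi => mul_le_mul_of_nonneg_left (k1 i) (h i hi).1
    have t3 : 0 ≤ ∑ i ∈ P.I, ν i * (4 * P.h * V.sg P i) * P.d C.j i :=
      sum_nonneg fun i hi => mul_nonneg (mul_nonneg (h i hi).1 (k0 i)) (hP.d_pos _ _).le
    have t4 : ∑ i ∈ P.I, ν i * (4 * P.h * V.sg P i) * P.d C.j i ≤
        ∑ i ∈ P.I, ν i * (4 * P.h * P.U) := sum_le_sum fun i hi => by
      rw [mul_assoc]
      exact mul_le_mul_of_nonneg_left (mul_le_mul (k1 i) (hP.le_U _ _) (hP.d_pos _ _).le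
        (by linarith)) (h i hi).1
    rw [← sum_mul, ← ha] at t2 t4
    have t5 := mul_le_of_le_one_left (by linarith : 0 ≤ 4 * P.h) ha1
    have t6 := mul_le_of_le_one_left (by positivity : 0 ≤ 4 * P.h * P.U) ha1
    have t7 := mul_le_mul (t2.trans t5) (t4.trans t6) t3 (by linarith)
    have t8 := mul_le_of_le_one_left (mul_nonneg t0 t3) p2
    have t9 := mul_le_mul_of_nonneg_left (hb ▸ st.nd.D_le C.j : Vd.D C.j ≤ b)
      (by linarith : 0 ≤ 1 - a + ∑ i ∈ P.I, ν i * (4 * P.h * V.sg P i))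
    linarith
  -- tick
  have htk : C.Phi P Vt - Φ ≤ 4 * P.h * ((q - 1 - p * Real.exp (-V.θ) ^ 2 +
      a * (q + 2 * p - 3 + 2 * p * Real.exp (-V.θ)) + P.ε) * G) := by
    have d0 : Adm P C Vt ν := fun i hi => by
      have := h.surv hC st.nt (fun _ _ => zero_le_one) i hi
      simpa only [sub_zero, mul_one] using this
    have d1 := d0.Phi_le hP st.okt
    rw [Client.Phi0, ← ha, ← hG] at d1
    have d2 := mul_le_mul_of_nonneg_left (hb ▸ st.nt.D_le C.j : Vt.D C.j ≤ b) (sub_nonneg.2 ha1)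
    have d3 := mul_le_mul_of_nonneg_right htick hG0
    linarith
  -- budgets
  have hbud : ∑ i ∈ P.I, ν i * F i * V.B P i - ∑ i ∈ P.I, ν i * F i * ∑ c ∈ P.I, ν c * V.J i c +
      ∑ i ∈ P.I, ν i * F i * V.sg P i ≤
      ∑ i ∈ P.I, ν i * F i * (1 - ∑ c ∈ P.I, ν c * V.J i c) + 6 * P.δ * P.U := by
    have g1 : ∑ i ∈ P.I, (ν i * F i * V.B P i - ν i * F i * ∑ c ∈ P.I, ν c * V.J i c +
        ν i * F i * V.sg P i) ≤ ∑ i ∈ P.I, (ν i * F i * (1 - ∑ c ∈ P.I, ν c * V.J i c) +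
          ν i * (6 * P.δ * P.U)) := sum_le_sum fun i hi => by
      have g2 := V.one_le_B_add_sg (P := P) i
      have g3 := hV.B_add_sg_le hP i
      have g4 : F i ≤ 6 * P.U := by linarith [(hF i hi).2, hV.v_le_U i, hP.le_U C.j i]
      have g5 := (mul_le_mul_of_nonneg_right g4 (sub_nonneg.2 g2)).trans
        (mul_le_mul_of_nonneg_left (by linarith : V.B P i + V.sg P i - 1 ≤ P.δ) (by linarith))
      have := mul_le_mul_of_nonneg_left g5 (h i hi).1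
      linarith
    rw [sum_add_distrib, sum_sub_distrib, sum_add_distrib, ← sum_mul, ← ha] at g1
    have := mul_le_of_le_one_left (by positivity : 0 ≤ 6 * P.δ * P.U) ha1
    linarith
  have z1 := mul_le_mul_of_nonneg_left f3 hη.le
  have z2 := mul_le_mul_of_nonneg_left hG1 hη.le
  have z3 := mul_le_mul_of_nonneg_left hG1 hP.ε_nonneg
  have z4 : ∑ c ∈ P.I, V.rt P c * (C.Phi P (Vr c) - Φ) + ∑ i ∈ P.I, ν i * F i * V.sg P i +
      (q - 1 - p * Real.exp (-V.θ) ^ 2 + a * (q + 2 * p - 3 + 2 * p * Real.exp (-V.θ)) + P.ε) * G ≤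
      P.η * ((∑ c ∈ P.I, C.x V c * max 0 (-V.ac P c)) * Φ + 7 * C.G P V + C.Q P V) +
        13 * P.ε * C.G P V + 12 * P.δ * P.U := by
    have : a * Φ = a * ((1 - a) * b + (q + p * a) * G) := by rw [hΦ]
    linarith
  have := mul_le_mul_of_nonneg_left z4 hh.le
  linarith

end all

theorem step_Phi (hP : P.OK) (hC : C.OK P) (st : Step P V Vd Vt Vr) (hI : C.Inv P V)
    (hS : Static (pf (Real.exp (-V.θ))) (qf (Real.exp (-V.θ))) (Real.exp (-V.θ))) :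
    drift P V Vd Vt Vr (C.Phi P) ≤
      P.h * (P.η * ((1 - C.A P V) * C.H P V + 39 * C.G P V + C.Q P V) +
        13 * P.ε * C.G P V + 12 * P.δ * P.U) + 4 * P.h ^ 2 * P.U := by
  have hV := st.ok
  obtain ⟨s1, s2⟩ := hC.slow_le hP hV hI
  have s0 : 0 ≤ ∑ c ∈ P.I, C.x V c * max 0 (-V.ac P c) :=
    sum_nonneg fun c _ => mul_nonneg (hC.x_nonneg hV c) (le_max_left _ _)
  set 𝒜 := ∑ c ∈ P.I, C.x V c * max 0 (-V.ac P c) with h𝒜
  have hκ : 0 ≤ P.h * P.η := mul_nonneg hP.h_pos.le hP.η_pos.le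
  have hκ' : 0 < 1 + P.h * P.η * 𝒜 := by positivity
  have h1 : (C.Phi P V + drift P V Vd Vt Vr (C.Phi P) - (P.h * (P.η * (7 * C.G P V + C.Q P V) +
      13 * P.ε * C.G P V + 12 * P.δ * P.U) + 4 * P.h ^ 2 * P.U)) / (1 + P.h * P.η * 𝒜) ≤
      C.Phi P V := le_Phi hC hV fun ν hν => by
    have h2 := hν.step hP hC st hI hS rfl
    have h3 := mul_le_mul_of_nonneg_left (hν.Phi_le hP hV) (sub_nonneg.2 (hV.sum_rt_le hP))
    have h4 : ∀ z : ℝ, ∑ c ∈ P.I, V.rt P c * (C.Phi P (Vr c) - z) =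
        ∑ c ∈ P.I, V.rt P c * C.Phi P (Vr c) - (∑ c ∈ P.I, V.rt P c) * z := fun z => by
      rw [sum_mul, ← sum_sub_distrib]
      exact sum_congr rfl fun c _ => by ring
    rw [div_le_iff₀ hκ', drift, h4]
    rw [h4, ← h𝒜] at h2
    linarith
  rw [div_le_iff₀ hκ'] at h1
  have h2 := mul_le_mul_of_nonneg_left (Phi_le_x hP hC hV hI) s0
  have h3 := mul_le_of_le_one_left (hC.G_nonneg hP hV) s1
  have h4 := mul_le_mul_of_nonneg_left (by linarith :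
    𝒜 * C.Phi P V ≤ (1 - C.A P V) * C.H P V + 32 * C.G P V) hκ
  linarith

end Vale.Agent.P334.Proc
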