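import Vale.Agent.P334.StepPhi
import Vale.Agent.P334.StepH

/-!
The drift of the total potential.
-/

namespace Vale.Agent.P334.Proc

open Finset

variable {P : Par} {V Vd Vt : View} {Vr : ℕ → View} {C : Client}

theorem psi_step_of (hP : P.OK) (hC : C.OK P) (st : Step P V Vd Vt Vr) (hI : C.Inv P V)
    (hS : Static (pf (Real.exp (-V.θ))) (qf (Real.exp (-V.θ))) (Real.exp (-V.θ)))
    (hW : drift P V Vd Vt Vr (C.W P) ≤ -(P.h / 2) * C.Q P V + P.n * P.U * P.ξ) :
    drift P V Vd Vt Vr (C.Psi P) ≤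
      30 * P.h * P.δ * P.U + 4 * P.h ^ 2 * P.U + 250 * P.n * P.U * P.ξ := by
  have e : drift P V Vd Vt Vr (C.Psi P) = drift P V Vd Vt Vr (C.Phi P) +
      P.η * (2 * drift P V Vd Vt Vr (C.H P) + 6 * drift P V Vd Vt Vr (C.W P)) +
        200 * (P.η + P.ε) * drift P V Vd Vt Vr (C.G P) := by
    rw [← drift_mul, ← drift_mul, ← drift_mul, ← drift_add, ← drift_mul, ← drift_add,
      ← drift_add]
    rfl
  have h1 := step_Phi hP hC st hI hS
  have h2 := step_H hP hC st hI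
  have h3 := hC.step_G hP st
  have hη := hP.η_pos
  have hη1 := hP.η_le
  have hε := hP.ε_nonneg
  have hε1 := hP.ε_le
  have hG := mul_nonneg hP.h_pos.le (hC.G_nonneg hP st.ok)
  have hQ := mul_nonneg hη.le (mul_nonneg hP.h_pos.le (hC.Q_nonneg hP st.ok))
  have hδ := mul_nonneg hP.h_pos.le (mul_nonneg hP.δ_nonneg hP.U_pos.le)
  have hξ : 0 ≤ P.n * P.U * P.ξ :=
    mul_nonneg (mul_nonneg (by linarith [hP.one_le_n]) hP.U_pos.le) hP.ξ_nonneg
  have k1 := mul_le_mul_of_nonneg_left (add_le_add (mul_le_mul_of_nonneg_left h2 zero_le_two)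
    (mul_le_mul_of_nonneg_left hW (by norm_num : (0 : ℝ) ≤ 6))) hη.le
  have k2 := mul_le_mul_of_nonneg_left h3 (by positivity : 0 ≤ 200 * (P.η + P.ε))
  have k3 := mul_le_mul_of_nonneg_right hη1 hδ
  have k4 := mul_le_mul_of_nonneg_right hη1 hξ
  have k5 := mul_le_mul_of_nonneg_right hε1 hξ
  have k6 := mul_le_mul_of_nonneg_right hη1 (mul_nonneg (add_nonneg hη.le hε) hG)
  have k7 := mul_nonneg hη.le hG
  have k8 := mul_nonneg hε hG
  rw [e]
  linarith

end Vale.Agent.P334.Proc
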