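import Vale.Agent.P334.StepDefs

/-!
The change of the potential of a client under one event of the rounding process.
-/

namespace Vale.Agent.P334.Step

open Finset

variable {ι : Type} {s : Finset ι} {x y ν : ι → ℝ} {ε b p q : ℝ}

theorem Sub.mass_nonneg (h : Sub s y ν) : 0 ≤ ∑ i ∈ s, ν i :=
  sum_nonneg fun i hi => (h.1 i hi).1

theorem Sub.G_nonneg (h : Sub s y ν) (hx : ∀ i ∈ s, 0 ≤ x i) : 0 ≤ ∑ i ∈ s, ν i * x i :=
  sum_nonneg fun i hi => mul_nonneg (h.1 i hi).1 (hx i hi)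

theorem psi_nonneg (h : Sub s y ν) (hx : ∀ i ∈ s, 0 ≤ x i) (hε : 0 ≤ ε) (hb : 0 ≤ b) (hp : 0 ≤ p)
    (hq : 0 ≤ q) : 0 ≤ psi s x ε b p q ν := by
  have h1 := h.mass_nonneg
  have h2 := h.G_nonneg hx
  have h3 := sub_nonneg.2 h.2
  unfold psi
  positivity

theorem Psi_le (h : Sub s y ν) (hx : ∀ i ∈ s, 0 ≤ x i) (hε : 0 ≤ ε) (hb : 0 ≤ b) (hp : 0 ≤ p)
    (hq : 0 ≤ q) : Psi s x ε b p q y ≤ psi s x ε b p q ν :=
  csInf_le ⟨0, by
    rintro _ ⟨μ, hμ, rfl⟩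
    exact psi_nonneg hμ hx hε hb hp hq⟩ ⟨ν, h, rfl⟩

theorem le_Psi (hy : ∀ i ∈ s, 0 ≤ y i) {z : ℝ} (h : ∀ ν, Sub s y ν → z ≤ psi s x ε b p q ν) :
    z ≤ Psi s x ε b p q y :=
  le_csInf ⟨_, ⟨fun _ => 0, ⟨fun i hi => ⟨le_rfl, hy i hi⟩, by simp⟩, rfl⟩⟩ (by
    rintro _ ⟨μ, hμ, rfl⟩
    exact h μ hμ)

theorem Psi_nonneg (hy : ∀ i ∈ s, 0 ≤ y i) (hx : ∀ i ∈ s, 0 ≤ x i) (hε : 0 ≤ ε) (hb : 0 ≤ b)
    (hp : 0 ≤ p) (hq : 0 ≤ q) : 0 ≤ Psi s x ε b p q y :=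
  le_Psi hy fun _ h => psi_nonneg h hx hε hb hp hq

/-- The potential at the start. -/
theorem Psi_le_start (h0 : ∀ i ∈ s, 0 ≤ ν i ∧ ν i ≤ y i) (h1 : ∑ i ∈ s, ν i = 1)
    (hx : ∀ i ∈ s, 0 ≤ x i) (hε : 0 ≤ ε) (hb : 0 ≤ b) (hp : 0 ≤ p) (hq : 0 ≤ q) :
    Psi s x ε b p q y ≤ (q + p + 40 * ε) * ∑ i ∈ s, ν i * x i := by
  refine (Psi_le (ν := ν) ⟨h0, h1.le⟩ hx hε hb hp hq).trans (le_of_eq ?_)
  unfold psi
  rw [h1]
  ring

/-- The potential at the end. -/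
theorem le_Psi_end (hy : ∀ i ∈ s, 0 ≤ y i) (hx : ∀ i ∈ s, 0 ≤ x i) (hε : 0 ≤ ε) (hb : 0 ≤ b)
    (hp : 0 ≤ p) (hq : 0 ≤ q) : b - (∑ i ∈ s, y i) * b ≤ Psi s x ε b p q y := by
  refine le_Psi hy fun ν h => ?_
  have h1 := h.mass_nonneg
  have h2 := h.G_nonneg hx
  have h3 := sub_nonneg.2 h.2
  have h4 : ∑ i ∈ s, ν i ≤ ∑ i ∈ s, y i := sum_le_sum fun i hi => (h.1 i hi).2
  have h5 : 0 ≤ (q + p * ∑ i ∈ s, ν i + 40 * ε) * ∑ i ∈ s, ν i * x i := by positivity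
  have h6 : 0 ≤ (1 - ∑ i ∈ s, ν i) * (2 * ε ^ 2 * ∑ i ∈ s, ν i) * b := by positivity
  have h7 := mul_le_mul_of_nonneg_right h4 hb
  unfold psi
  nlinarith

/-- The bound for the change of the potential if mass `T` of cost `H` is lost and the distance to
the open set drops from `b` to `b'`. -/
noncomputable def ext (ε b p q a G b' T H : ℝ) : ℝ :=
  T * (b - p * G) - (q + p * a) * H + p * T * H - (1 - a + T) * (b - b') +
    2 * ε ^ 2 * (max 0 (2 * a - 1) * T * b' - max 0 (1 - 2 * a) * T * b) - 40 * ε * H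

/-- The bound for the change of the potential if a point at distance `z` of the sub-measure is
opened. -/
noncomputable def int (ε b p q a G z X H : ℝ) : ℝ :=
  z - X - ((1 - a) * b + (q + p * a) * G) + 2 * ε ^ 2 * (5 / 4 * z - a * (1 - a) * b) - 40 * ε * H

theorem ext_scalar {a G b' T H : ℝ} (hT : 0 ≤ T) (hTa : T ≤ a) (ha : a ≤ 1) (hb' : 0 ≤ b')
    (hb : b' ≤ b) :
    (1 - (a - T)) * (1 + 2 * ε ^ 2 * (a - T)) * b' + (q + p * (a - T) + 40 * ε) * (G - H) -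
      ((1 - a) * (1 + 2 * ε ^ 2 * a) * b + (q + p * a + 40 * ε) * G) ≤
      ext ε b p q a G b' T H := by
  have key : (a - T) * (1 - (a - T)) * b' - a * (1 - a) * b ≤
      max 0 (2 * a - 1) * T * b' - max 0 (1 - 2 * a) * T * b := by
    have hb0 : 0 ≤ b := hb'.trans hb
    rcases le_total 0 (2 * a - 1) with h | h
    · rw [max_eq_right h, max_eq_left (by linarith)]
      have h1 : 0 ≤ a * (1 - a) * (b - b') :=
        mul_nonneg (mul_nonneg (by linarith) (by linarith)) (by linarith)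
      have h2 : 0 ≤ T * T * b' := by positivity
      nlinarith
    · rw [max_eq_left h, max_eq_right (by linarith)]
      have h1 : 0 ≤ (a - T) * (1 - (a - T)) * (b - b') :=
        mul_nonneg (mul_nonneg (by linarith) (by linarith)) (by linarith)
      have h2 : 0 ≤ T * T * b := by positivity
      nlinarith
  have h2 := mul_le_mul_of_nonneg_left key (by positivity : 0 ≤ 2 * ε ^ 2)
  unfold ext
  nlinarith

theorem thin_sub (h : Sub s y ν) {t y' : ι → ℝ} (ht0 : ∀ i ∈ s, 0 ≤ t i) (ht1 : ∀ i ∈ s, t i ≤ 1)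
    (hy' : ∀ i ∈ s, y i * (1 - t i) ≤ y' i) : Sub s y' fun i => ν i * (1 - t i) := by
  refine ⟨fun i hi => ⟨mul_nonneg (h.1 i hi).1 (sub_nonneg.2 (ht1 i hi)), ?_⟩, ?_⟩
  · exact (mul_le_mul_of_nonneg_right (h.1 i hi).2 (sub_nonneg.2 (ht1 i hi))).trans (hy' i hi)
  · refine (sum_le_sum fun i hi => ?_).trans h.2
    nlinarith [(h.1 i hi).1, ht0 i hi]

/-- Thinning. -/
theorem thin (h : Sub s y ν) (hx : ∀ i ∈ s, 0 ≤ x i) (hε : 0 ≤ ε) (hp : 0 ≤ p) (hq : 0 ≤ q)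
    {t y' : ι → ℝ} (ht0 : ∀ i ∈ s, 0 ≤ t i) (ht1 : ∀ i ∈ s, t i ≤ 1)
    (hy' : ∀ i ∈ s, y i * (1 - t i) ≤ y' i) {b' : ℝ} (hb' : 0 ≤ b') (hb : b' ≤ b) :
    Psi s x ε b' p q y' - psi s x ε b p q ν ≤
      ext ε b p q (∑ i ∈ s, ν i) (∑ i ∈ s, ν i * x i) b' (∑ i ∈ s, ν i * t i)
        (∑ i ∈ s, ν i * t i * x i) := by
  have h1 := Psi_le (thin_sub h ht0 ht1 hy') hx hε hb' hp hq
  have e1 : ∑ i ∈ s, ν i * (1 - t i) = ∑ i ∈ s, ν i - ∑ i ∈ s, ν i * t i := by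
    rw [← sum_sub_distrib]
    exact sum_congr rfl fun i _ => by ring
  have e2 : ∑ i ∈ s, ν i * (1 - t i) * x i = ∑ i ∈ s, ν i * x i - ∑ i ∈ s, ν i * t i * x i := by
    rw [← sum_sub_distrib]
    exact sum_congr rfl fun i _ => by ring
  have h2 := ext_scalar (ε := ε) (p := p) (q := q) (a := ∑ i ∈ s, ν i) (G := ∑ i ∈ s, ν i * x i)
    (T := ∑ i ∈ s, ν i * t i) (H := ∑ i ∈ s, ν i * t i * x i)
    (sum_nonneg fun i hi => mul_nonneg (h.1 i hi).1 (ht0 i hi))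
    (sum_le_sum fun i hi => by nlinarith [(h.1 i hi).1, ht1 i hi]) h.2 hb' hb
  unfold psi at h1 ⊢
  rw [e1, e2] at h1
  linarith

/-- Thinning, and dropping the points that are too far. -/
theorem thin_int (h : Sub s y ν) (hx : ∀ i ∈ s, 0 ≤ x i) (hε : 0 ≤ ε) (hp : 0 ≤ p) (hq : 0 ≤ q)
    {t y' : ι → ℝ} (ht0 : ∀ i ∈ s, 0 ≤ t i) (ht1 : ∀ i ∈ s, t i ≤ 1)
    (hy' : ∀ i ∈ s, y i * (1 - t i) ≤ y' i) {b' z : ℝ} (hb' : 0 ≤ b') (hz : b' ≤ z) :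
    Psi s x ε b' p q y' ≤
      z - ∑ i ∈ s, ν i * (1 - t i) * max 0 (z - (q + p * ∑ i ∈ s, ν i) * x i) +
        2 * ε ^ 2 * (z / 4) + 40 * ε * (∑ i ∈ s, ν i * x i - ∑ i ∈ s, ν i * t i * x i) := by
  classical
  set C := q + p * ∑ i ∈ s, ν i with hC
  set t' : ι → ℝ := fun i => if C * x i ≤ z then t i else 1 with ht'
  have htt : ∀ i ∈ s, t i ≤ t' i := fun i hi => by
    simp only [ht']
    split_ifs
    · exact le_rfl
    · exact ht1 i hi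
  have ht1' : ∀ i ∈ s, t' i ≤ 1 := fun i hi => by
    simp only [ht']
    split_ifs
    · exact ht1 i hi
    · exact le_rfl
  have hs : Sub s y' fun i => ν i * (1 - t' i) :=
    thin_sub h (fun i hi => (ht0 i hi).trans (htt i hi)) ht1' fun i hi => by
      refine le_trans ?_ (hy' i hi)
      nlinarith [htt i hi, (h.1 i hi).1, (h.1 i hi).2]
  have h1 := Psi_le hs hx hε hb' hp hq
  have e1 : ∑ i ∈ s, ν i * (1 - t i) * max 0 (z - C * x i) =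
      z * ∑ i ∈ s, ν i * (1 - t' i) - C * ∑ i ∈ s, ν i * (1 - t' i) * x i := by
    rw [mul_sum, mul_sum, ← sum_sub_distrib]
    refine sum_congr rfl fun i _ => ?_
    simp only [ht']
    split_ifs with hc
    · rw [max_eq_right (by linarith)]
      ring
    · rw [max_eq_left (by linarith)]
      ring
  have h2 : ∑ i ∈ s, ν i * (1 - t' i) * x i ≤ ∑ i ∈ s, ν i * x i - ∑ i ∈ s, ν i * t i * x i := by
    rw [← sum_sub_distrib]
    refine sum_le_sum fun i hi => ?_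
    nlinarith [mul_nonneg (mul_nonneg (h.1 i hi).1 (hx i hi)) (sub_nonneg.2 (htt i hi))]
  have h3 : ∑ i ∈ s, ν i * (1 - t' i) ≤ ∑ i ∈ s, ν i :=
    sum_le_sum fun i hi => by nlinarith [(h.1 i hi).1, ht0 i hi, htt i hi]
  have h4 := hs.mass_nonneg
  have h5 := hs.G_nonneg hx
  have h6 := hs.2
  unfold psi at h1
  rw [e1]
  simp only at h4 h5 h6
  set a' := ∑ i ∈ s, ν i * (1 - t' i)
  set G' := ∑ i ∈ s, ν i * (1 - t' i) * x i
  have h7 : (1 - a') * b' ≤ (1 - a') * z := mul_le_mul_of_nonneg_left hz (by linarith)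
  have h8 : a' * (1 - a') * b' ≤ z / 4 := by nlinarith [mul_nonneg hb' (sq_nonneg (2 * a' - 1))]
  have h9 := mul_le_mul_of_nonneg_left h8 (by positivity : 0 ≤ 2 * ε ^ 2)
  have h10 : (q + p * a') * G' ≤ C * G' :=
    mul_le_mul_of_nonneg_right (by nlinarith [mul_le_mul_of_nonneg_left h3 hp]) h5
  have h11 := mul_le_mul_of_nonneg_left h2 (by positivity : 0 ≤ 40 * ε)
  nlinarith

section ring

variable {J y' : ι → ℝ} {m b' : ℝ}

theorem thin_div (h : Sub s y ν) (hx : ∀ i ∈ s, 0 ≤ x i) (hε : 0 ≤ ε) (hp : 0 ≤ p) (hq : 0 ≤ q)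
    (hJ0 : ∀ i ∈ s, 0 ≤ J i) (hJ1 : ∀ i ∈ s, J i ≤ 1) (hm : 1 ≤ m)
    (hy' : ∀ i ∈ s, y i * (1 - J i / m) ≤ y' i) (hb' : 0 ≤ b') (hb : b' ≤ b) :
    Psi s x ε b' p q y' - psi s x ε b p q ν ≤
      ext ε b p q (∑ i ∈ s, ν i) (∑ i ∈ s, ν i * x i) b' ((∑ i ∈ s, ν i * J i) / m)
        ((∑ i ∈ s, ν i * J i * x i) / m) := by
  have hm0 : 0 < m := by linarith
  have h1 := thin (b := b) h hx hε hp hq (t := fun i => J i / m)
    (fun i hi => div_nonneg (hJ0 i hi) hm0.le)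
    (fun i hi => (div_le_one hm0).2 ((hJ1 i hi).trans hm)) hy' hb' hb
  have e1 : ∑ i ∈ s, ν i * (J i / m) = (∑ i ∈ s, ν i * J i) / m := by
    rw [sum_div]
    exact sum_congr rfl fun i _ => by ring
  have e2 : ∑ i ∈ s, ν i * (J i / m) * x i = (∑ i ∈ s, ν i * J i * x i) / m := by
    rw [sum_div]
    exact sum_congr rfl fun i _ => by ring
  rwa [e1, e2] at h1

/-- The bound used for the part of the rate of a point outside of the sub-measure. -/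
theorem ring_ext (h : Sub s y ν) (hx : ∀ i ∈ s, 0 ≤ x i) (hε : 0 ≤ ε) (hp : 0 ≤ p) (hq : 0 ≤ q)
    (hJ0 : ∀ i ∈ s, 0 ≤ J i) (hJ1 : ∀ i ∈ s, J i ≤ 1) (hm : 1 ≤ m)
    (hy' : ∀ i ∈ s, y i * (1 - J i / m) ≤ y' i) (hb' : 0 ≤ b') (hb : b' ≤ b) :
    m * (Psi s x ε b' p q y' - psi s x ε b p q ν) ≤
      ext ε b p q (∑ i ∈ s, ν i) (∑ i ∈ s, ν i * x i) b' (∑ i ∈ s, ν i * J i)
        (∑ i ∈ s, ν i * J i * x i) := by
  have hm0 : 0 < m := by linarith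
  refine (mul_le_mul_of_nonneg_left (thin_div h hx hε hp hq hJ0 hJ1 hm hy' hb' hb) hm0.le).trans ?_
  have hT : 0 ≤ ∑ i ∈ s, ν i * J i := sum_nonneg fun i hi => mul_nonneg (h.1 i hi).1 (hJ0 i hi)
  have hH : 0 ≤ ∑ i ∈ s, ν i * J i * x i :=
    sum_nonneg fun i hi => mul_nonneg (mul_nonneg (h.1 i hi).1 (hJ0 i hi)) (hx i hi)
  have ha := h.2
  generalize ∑ i ∈ s, ν i * J i = T at *
  generalize ∑ i ∈ s, ν i * J i * x i = H at *
  generalize ∑ i ∈ s, ν i = a at *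
  generalize ∑ i ∈ s, ν i * x i = G at *
  have e : m * ext ε b p q a G b' (T / m) (H / m) = ext ε b p q a G b' T H -
      p * T * H * (1 - 1 / m) - (m - 1) * (1 - a) * (b - b') := by
    unfold ext
    field_simp
    ring
  have h1 : 0 ≤ 1 - 1 / m := sub_nonneg.2 ((div_le_one hm0).2 hm)
  have h2 : 0 ≤ p * T * H * (1 - 1 / m) := by positivity
  have h3 : 0 ≤ (m - 1) * (1 - a) * (b - b') :=
    mul_nonneg (mul_nonneg (by linarith) (by linarith)) (by linarith)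
  linarith

theorem int_scalar {a G T H EX EJ z Δ : ℝ} (hp : 0 ≤ p) (hm : 1 ≤ m) (hb' : 0 ≤ b') (hb : b' ≤ b)
    (hz : b' ≤ z) (hT : 0 ≤ T) (hH : 0 ≤ H) (hTa : T ≤ a) (hHG : H ≤ G) (ha : a ≤ 1)
    (h1 : Δ ≤ ext ε b p q a G b' (T / m) (H / m))
    (h2 : Δ ≤ z - (EX + (1 - 1 / m) * EJ) + 2 * ε ^ 2 * (z / 4) + 40 * ε * (G - H / m) -
      ((1 - a) * (1 + 2 * ε ^ 2 * a) * b + (q + p * a + 40 * ε) * G))
    (h3 : z * T - (q + p * a) * H ≤ EJ) : m * Δ ≤ int ε b p q a G z EX H := by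
  have hm0 : 0 < m := by linarith
  have h4 := mul_le_mul_of_nonneg_left h1 (sub_nonneg.2 hm)
  have hw : 0 ≤ 1 - 1 / m := sub_nonneg.2 ((div_le_one hm0).2 hm)
  have hw1 : 1 - 1 / m ≤ 1 := by
    have : 0 ≤ 1 / m := by positivity
    linarith
  have e : (m - 1) * ext ε b p q a G b' (T / m) (H / m) = (1 - 1 / m) *
      (T * b' - (q + p * a) * H - p * T * (G - H / m) +
        2 * ε ^ 2 * (max 0 (2 * a - 1) * T * b' - max 0 (1 - 2 * a) * T * b) - 40 * ε * H) -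
      (m - 1) * (1 - a) * (b - b') := by
    unfold ext
    field_simp
    ring
  have h5 : 0 ≤ (m - 1) * (1 - a) * (b - b') :=
    mul_nonneg (mul_nonneg (by linarith) (by linarith)) (by linarith)
  have h6 : H / m ≤ G := (div_le_self hH hm).trans hHG
  have h7 : 0 ≤ p * T * (G - H / m) := mul_nonneg (mul_nonneg hp hT) (by linarith)
  have h8 : T * b' ≤ z * T := by nlinarith
  have h9 : max 0 (2 * a - 1) * T * b' - max 0 (1 - 2 * a) * T * b ≤ z := by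
    have i1 : 0 ≤ max 0 (1 - 2 * a) * T * b :=
      mul_nonneg (mul_nonneg (le_max_left _ _) hT) (by linarith)
    have i2 : max 0 (2 * a - 1) ≤ 1 := max_le zero_le_one (by linarith)
    have i3 : max 0 (2 * a - 1) * T ≤ 1 := mul_le_one₀ i2 hT (by linarith)
    have i4 := mul_le_mul_of_nonneg_right i3 hb'
    linarith
  have h10 := mul_le_mul_of_nonneg_left h9 (by positivity : 0 ≤ 2 * ε ^ 2)
  have h11 : (1 - 1 / m) * (T * b' - (q + p * a) * H - p * T * (G - H / m) +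
        2 * ε ^ 2 * (max 0 (2 * a - 1) * T * b' - max 0 (1 - 2 * a) * T * b) - 40 * ε * H) ≤
      (1 - 1 / m) * (EJ + 2 * ε ^ 2 * z - 40 * ε * H) :=
    mul_le_mul_of_nonneg_left (by linarith) hw
  have h12 : (1 - 1 / m) * (2 * ε ^ 2 * z) ≤ 2 * ε ^ 2 * z :=
    mul_le_of_le_one_left (mul_nonneg (by positivity) (by linarith)) hw1
  have e4 : 40 * ε * (G - H / m) = 40 * ε * G - 40 * ε * H + (1 - 1 / m) * (40 * ε * H) := by
    ring
  have e5 : (1 - 1 / m) * (EJ + 2 * ε ^ 2 * z - 40 * ε * H) =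
      (1 - 1 / m) * EJ + (1 - 1 / m) * (2 * ε ^ 2 * z) - (1 - 1 / m) * (40 * ε * H) := by ring
  have e6 : int ε b p q a G z EX H = z - EX + 2 * ε ^ 2 * (z / 4) + 2 * ε ^ 2 * z + 40 * ε * G -
      40 * ε * H - ((1 - a) * (1 + 2 * ε ^ 2 * a) * b + (q + p * a + 40 * ε) * G) := by
    unfold int
    ring
  have e7 : m * Δ = Δ + (m - 1) * Δ := by ring
  rw [e6, e7]
  rw [e4] at h2
  rw [e] at h4
  rw [e5] at h11
  linarith

/-- The bound used for the part of the rate of a point inside of the sub-measure. -/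
theorem ring_int (h : Sub s y ν) (hx : ∀ i ∈ s, 0 ≤ x i) (hε : 0 ≤ ε) (hp : 0 ≤ p) (hq : 0 ≤ q)
    (hJ0 : ∀ i ∈ s, 0 ≤ J i) (hJ1 : ∀ i ∈ s, J i ≤ 1) (hm : 1 ≤ m)
    (hy' : ∀ i ∈ s, y i * (1 - J i / m) ≤ y' i) (hb' : 0 ≤ b') (hb : b' ≤ b) {z : ℝ}
    (hz : b' ≤ z) :
    m * (Psi s x ε b' p q y' - psi s x ε b p q ν) ≤
      int ε b p q (∑ i ∈ s, ν i) (∑ i ∈ s, ν i * x i) z
        (∑ i ∈ s, ν i * (1 - J i) * max 0 (z - (q + p * ∑ i ∈ s, ν i) * x i))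
        (∑ i ∈ s, ν i * J i * x i) := by
  have hm0 : 0 < m := by linarith
  have h1 := thin_div (b := b) h hx hε hp hq hJ0 hJ1 hm hy' hb' hb
  have h2 := thin_int h hx hε hp hq (t := fun i => J i / m)
    (fun i hi => div_nonneg (hJ0 i hi) hm0.le)
    (fun i hi => (div_le_one hm0).2 ((hJ1 i hi).trans hm)) hy' hb' hz
  have e2 : ∑ i ∈ s, ν i * (J i / m) * x i = (∑ i ∈ s, ν i * J i * x i) / m := by
    rw [sum_div]
    exact sum_congr rfl fun i _ => by ring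
  have e3 : ∀ C : ℝ, ∑ i ∈ s, ν i * (1 - J i / m) * max 0 (z - C * x i) =
      ∑ i ∈ s, ν i * (1 - J i) * max 0 (z - C * x i) +
        (1 - 1 / m) * ∑ i ∈ s, ν i * J i * max 0 (z - C * x i) := fun C => by
    rw [mul_sum, ← sum_add_distrib]
    exact sum_congr rfl fun i _ => by ring
  have h3 : ∀ C : ℝ, z * ∑ i ∈ s, ν i * J i - C * ∑ i ∈ s, ν i * J i * x i ≤
      ∑ i ∈ s, ν i * J i * max 0 (z - C * x i) := fun C => by
    rw [mul_sum, mul_sum, ← sum_sub_distrib]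
    refine sum_le_sum fun i hi => ?_
    have := mul_le_mul_of_nonneg_left (le_max_right 0 (z - C * x i))
      (mul_nonneg (h.1 i hi).1 (hJ0 i hi))
    linarith
  rw [e2, e3] at h2
  refine int_scalar hp hm hb' hb hz (sum_nonneg fun i hi => mul_nonneg (h.1 i hi).1 (hJ0 i hi))
    (sum_nonneg fun i hi => mul_nonneg (mul_nonneg (h.1 i hi).1 (hJ0 i hi)) (hx i hi))
    (sum_le_sum fun i hi => by nlinarith [(h.1 i hi).1, hJ1 i hi])
    (sum_le_sum fun i hi => by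
      nlinarith [mul_nonneg (mul_nonneg (h.1 i hi).1 (hx i hi)) (sub_nonneg.2 (hJ1 i hi))])
    h.2 h1 (sub_le_sub_right h2 _) (h3 _)

end ring

/-- Decay. -/
theorem decay_le (h : Sub s y ν) (hx : ∀ i ∈ s, 0 ≤ x i) (hε : 0 ≤ ε) (hp : 0 ≤ p) (hp1 : p ≤ 1)
    (hq : 0 ≤ q) (hb : 0 ≤ b) {σ y' : ι → ℝ} {t : ℝ} (hσ0 : ∀ i ∈ s, 0 ≤ σ i)
    (hσ1 : ∀ i ∈ s, σ i ≤ 1) (ht0 : 0 ≤ t) (ht : t ≤ ε) (hε1 : ε ≤ 1)
    (hy' : ∀ i ∈ s, y i * (1 - t * σ i) ≤ y' i) :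
    Psi s x ε b p q y' - psi s x ε b p q ν ≤ t * (ε * ∑ i ∈ s, ν i * x i +
      ∑ i ∈ s, ν i * σ i * (b - p * ∑ i ∈ s, ν i * x i - (q + p * ∑ i ∈ s, ν i) * x i +
        2 * ε ^ 2 * (max 0 (2 * ∑ i ∈ s, ν i - 1) - max 0 (1 - 2 * ∑ i ∈ s, ν i)) * b -
        40 * ε * x i)) := by
  have h1 := thin (b := b) h hx hε hp hq (t := fun i => t * σ i)
    (fun i hi => mul_nonneg ht0 (hσ0 i hi))
    (fun i hi => mul_le_one₀ (ht.trans hε1) (hσ0 i hi) (hσ1 i hi)) hy' hb le_rfl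
  have e1 : ∑ i ∈ s, ν i * (t * σ i) = t * ∑ i ∈ s, ν i * σ i := by
    rw [mul_sum]
    exact sum_congr rfl fun i _ => by ring
  have e2 : ∑ i ∈ s, ν i * (t * σ i) * x i = t * ∑ i ∈ s, ν i * σ i * x i := by
    rw [mul_sum]
    exact sum_congr rfl fun i _ => by ring
  have e3 : ∀ A C D : ℝ, ∑ i ∈ s, ν i * σ i * (A - C * x i + D - 40 * ε * x i) =
      (A + D) * ∑ i ∈ s, ν i * σ i - (C + 40 * ε) * ∑ i ∈ s, ν i * σ i * x i := fun A C D => by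
    rw [mul_sum, mul_sum, ← sum_sub_distrib]
    exact sum_congr rfl fun i _ => by ring
  have hT : 0 ≤ ∑ i ∈ s, ν i * σ i := sum_nonneg fun i hi => mul_nonneg (h.1 i hi).1 (hσ0 i hi)
  have hH : 0 ≤ ∑ i ∈ s, ν i * σ i * x i :=
    sum_nonneg fun i hi => mul_nonneg (mul_nonneg (h.1 i hi).1 (hσ0 i hi)) (hx i hi)
  have hT1 : ∑ i ∈ s, ν i * σ i ≤ 1 :=
    (sum_le_sum fun i hi => by nlinarith [(h.1 i hi).1, hσ1 i hi]).trans h.2
  have hHG : ∑ i ∈ s, ν i * σ i * x i ≤ ∑ i ∈ s, ν i * x i :=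
    sum_le_sum fun i hi => by
      nlinarith [mul_nonneg (mul_nonneg (h.1 i hi).1 (hx i hi)) (sub_nonneg.2 (hσ1 i hi))]
  rw [e1, e2] at h1
  rw [e3]
  refine h1.trans ?_
  generalize ∑ i ∈ s, ν i * σ i = T at *
  generalize ∑ i ∈ s, ν i * σ i * x i = H at *
  generalize ∑ i ∈ s, ν i = a at *
  generalize ∑ i ∈ s, ν i * x i = G at *
  have i1 : p * T ≤ 1 := mul_le_one₀ hp1 hT hT1
  have i2 : p * T * H ≤ G := (mul_le_of_le_one_left hH i1).trans hHG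
  have i3 : t * (p * T * H) ≤ ε * G := mul_le_mul ht i2 (by positivity) hε
  have i4 := mul_le_mul_of_nonneg_left i3 ht0
  unfold ext
  nlinarith

/-- Tick of the clock. -/
theorem tick_le (h : Sub s y ν) (hx : ∀ i ∈ s, 0 ≤ x i) (hε : 0 ≤ ε) (hb : 0 ≤ b) {p' q' w : ℝ}
    (hp : 0 ≤ p') (hq : 0 ≤ q')
    (hw : q' + p' * ∑ i ∈ s, ν i ≤ q + p * ∑ i ∈ s, ν i + w) :
    Psi s x ε b p' q' y - psi s x ε b p q ν ≤ w * ∑ i ∈ s, ν i * x i := by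
  have h1 := Psi_le h hx hε hb hp hq
  have h2 := mul_le_mul_of_nonneg_right hw (h.G_nonneg hx)
  unfold psi at h1 ⊢
  nlinarith

end Vale.Agent.P334.Step
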