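import Vale.Agent.P334.StepRing

/-!
Scalar inequalities for the drift of the potential of a client.
-/

namespace Vale.Agent.P334.Step

/-- The cost per unit of lost mass. -/
noncomputable def unit (ε b a G x v f : ℝ) : ℝ :=
  f + 2 * ε ^ 2 * max 0 (2 * a - 1) * min b (x + 2 * v) + ε * (2 * x + G) -
    (1 - ε ^ 2) * (40 * ε * x + 2 * ε ^ 2 * max 0 (1 - 2 * a) * b)

theorem spare {ε b b' x v p J : ℝ} (hε : 0 ≤ ε) (hx : 0 ≤ x) (hv : 0 ≤ v) (hp : 0 ≤ p) (hJ : 0 ≤ J)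
    (hb : b' ≤ b) (hk : b' ≤ x + v - p * v * J / 2) (hcap : (1 + 3 * ε) * v ≤ b + x) :
    max 0 (b - x - 4 * ε * v - v + p * v * J / 2) + max 0 (3 * ε * v - 2 * x) ≤ b - b' := by
  have h1 : 0 ≤ p * v * J := by positivity
  have h2 : 0 ≤ ε * v := by positivity
  rcases le_total 0 (b - x - 4 * ε * v - v + p * v * J / 2) with h | h <;>
    rcases le_total 0 (3 * ε * v - 2 * x) with h' | h'
  · rw [max_eq_right h, max_eq_right h']
    linarith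
  · rw [max_eq_right h, max_eq_left h']
    linarith
  · rw [max_eq_left h, max_eq_right h']
    linarith
  · rw [max_eq_left h, max_eq_left h']
    linarith

theorem unit_ring {ε b b' a G x v f w : ℝ} (hε : 0 ≤ ε) (hε' : ε ≤ 1 / 20) (hx : 0 ≤ x)
    (hv : 0 ≤ v) (hG : 0 ≤ G) (ha : a ≤ 1) (hb' : 0 ≤ b') (hb : b' ≤ b) (hk : b' ≤ x + v)
    (hf0 : -(G + 2 * x) ≤ f) (hf1 : f ≤ (1 + 4 * ε) * v + 3 / 2 * x) (hw0 : 1 - ε ^ 2 ≤ w)
    (hw1 : w ≤ 1 + ε ^ 2) :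
    w * (f - max 0 (3 * ε * v - 2 * x) + 2 * ε ^ 2 * max 0 (2 * a - 1) * b' -
      2 * ε ^ 2 * max 0 (1 - 2 * a) * b - 40 * ε * x) ≤ unit ε b a G x v f := by
  have hη : ε ^ 2 ≤ ε / 20 := by nlinarith
  have hm0 : 0 ≤ max 0 (2 * a - 1) := le_max_left _ _
  have hm1 : max 0 (2 * a - 1) ≤ 1 := max_le zero_le_one (by linarith)
  have hn0 : 0 ≤ max 0 (1 - 2 * a) := le_max_left _ _
  have he0 : 0 ≤ max 0 (3 * ε * v - 2 * x) := le_max_left _ _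
  have he1 : 3 * ε * v - 2 * x ≤ max 0 (3 * ε * v - 2 * x) := le_max_right _ _
  have hM0 : b' ≤ min b (x + 2 * v) := le_min hb (by linarith)
  have hM1 : min b (x + 2 * v) ≤ x + 2 * v := min_le_right _ _
  unfold unit
  generalize max 0 (2 * a - 1) = m at *
  generalize max 0 (1 - 2 * a) = n at *
  generalize max 0 (3 * ε * v - 2 * x) = e at *
  generalize min b (x + 2 * v) = M at *
  have hb0 : 0 ≤ b := hb'.trans hb
  have hM : 0 ≤ M := hb'.trans hM0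
  have hw : 0 ≤ w := by nlinarith
  have h1 : 2 * ε ^ 2 * m * b' ≤ 2 * ε ^ 2 * m * M :=
    mul_le_mul_of_nonneg_left hM0 (by positivity)
  have h2 : 0 ≤ 2 * ε ^ 2 * m * M := by positivity
  have h3 : 2 * ε ^ 2 * m * M ≤ 1 / 200 * (x + 2 * v) := by
    refine mul_le_mul ?_ hM1 hM (by norm_num)
    nlinarith [mul_le_mul_of_nonneg_left hm1 (sq_nonneg ε)]
  have h4 : ε * v ≤ 1 / 20 * v := mul_le_mul_of_nonneg_right hε' hv
  have h5 : w * (f + 2 * ε ^ 2 * m * M) ≤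
      f + 2 * ε ^ 2 * m * M + ε ^ 2 * (2 * v + 2 * x + G) := by
    have i1 : f + 2 * ε ^ 2 * m * M ≤ 2 * v + 2 * x + G := by linarith
    have i2 : -(2 * v + 2 * x + G) ≤ f + 2 * ε ^ 2 * m * M := by linarith
    generalize f + 2 * ε ^ 2 * m * M = u at *
    generalize 2 * v + 2 * x + G = A at *
    nlinarith [mul_nonneg (sub_nonneg.2 hw0) (sub_nonneg.2 i1),
      mul_nonneg (sub_nonneg.2 hw1) (sub_nonneg.2 i2)]
  have h6 : (1 - ε ^ 2) * (e + (40 * ε * x + 2 * ε ^ 2 * n * b)) ≤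
      w * (e + (40 * ε * x + 2 * ε ^ 2 * n * b)) :=
    mul_le_mul_of_nonneg_right hw0 (by positivity)
  have h7 := mul_le_mul_of_nonneg_left h1 hw
  have h8 : ε ^ 2 * (2 * v + 2 * x + G) - (1 - ε ^ 2) * e ≤ ε * (2 * x + G) := by
    have i1 := mul_le_mul_of_nonneg_left he1 hε
    have i2 := mul_le_mul_of_nonneg_right hη hx
    have i3 := mul_le_mul_of_nonneg_right hη hG
    have i4 := mul_le_mul_of_nonneg_right hη he0
    have i5 := mul_le_mul_of_nonneg_right hε' he0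
    have i6 : 0 ≤ ε * x := by positivity
    have i7 : 0 ≤ ε * G := by positivity
    nlinarith
  nlinarith

theorem unit_decay {ε b a G x v f g : ℝ} (hε : 0 ≤ ε) (hx : 0 ≤ x) (hG : 0 ≤ G) (hb : 0 ≤ b)
    (hk : b ≤ x + 2 * v) (hg : g ≤ f) :
    g + 2 * ε ^ 2 * (max 0 (2 * a - 1) - max 0 (1 - 2 * a)) * b - 40 * ε * x ≤
      unit ε b a G x v f := by
  have hn0 : 0 ≤ max 0 (1 - 2 * a) := le_max_left _ _
  have h1 : 0 ≤ ε ^ 2 * (40 * ε * x + 2 * ε ^ 2 * max 0 (1 - 2 * a) * b) := by positivity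
  have h2 : 0 ≤ ε * (2 * x + G) := by positivity
  unfold unit
  rw [min_eq_left hk]
  nlinarith

theorem unit_row {ε b a G x v f n δ : ℝ} (hε : 0 ≤ ε) (hε' : ε ≤ 1 / 20) (hx : 0 ≤ x)
    (hv : 0 ≤ v) (hG : 0 ≤ G) (ha : a ≤ 1) (hb : 0 ≤ b) (hf1 : f ≤ (1 + 4 * ε) * v + 3 / 2 * x)
    (hn : 0 ≤ n) (hna : n ≤ a) (hδ0 : 0 ≤ δ) (hδ : δ ≤ ε) (hδv : δ * v ≤ ε * x) :
    unit ε b a G x v f * (1 - a + n + δ) ≤ f * (1 - a + n) + 9 * ε * x + 2 * ε * G +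
      2 * ε ^ 2 * (n * x + 2 * (n * v)) - (1 - ε ^ 2) * (40 * ε) * (x * (1 - a + n)) +
      2 * ε ^ 2 * (max 0 (2 * a - 1) - (1 - ε ^ 2) * max 0 (1 - 2 * a)) * ((1 - a) * b) := by
  have hη : ε ^ 2 ≤ ε / 20 := by nlinarith
  have hm0 : 0 ≤ max 0 (2 * a - 1) := le_max_left _ _
  have hm1 : max 0 (2 * a - 1) ≤ 1 := max_le zero_le_one (by linarith)
  have hn0 : 0 ≤ max 0 (1 - 2 * a) := le_max_left _ _
  have hM0 : min b (x + 2 * v) ≤ b := min_le_left _ _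
  have hM1 : min b (x + 2 * v) ≤ x + 2 * v := min_le_right _ _
  unfold unit
  generalize max 0 (2 * a - 1) = m at *
  generalize max 0 (1 - 2 * a) = m' at *
  generalize min b (x + 2 * v) = M at *
  have hδx : δ * x ≤ ε * x := mul_le_mul_of_nonneg_right hδ hx
  have hεx : 0 ≤ ε * x := by positivity
  have h1 : f * δ ≤ 4 * ε * x := by
    have i1 := mul_le_mul_of_nonneg_right hf1 hδ0
    have i2 : ε * (δ * v) ≤ 1 / 20 * (δ * v) := mul_le_mul_of_nonneg_right hε' (by positivity)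
    nlinarith
  have h2 : M * (1 - a + n + δ) ≤ (1 - a) * b + (n * x + 2 * (n * v)) + 3 * ε * x := by
    have i1 := mul_le_mul_of_nonneg_left hM0 (sub_nonneg.2 ha)
    have i2 := mul_le_mul_of_nonneg_left hM1 hn
    have i3 := mul_le_mul_of_nonneg_left hM1 hδ0
    nlinarith
  have h3 := mul_le_mul_of_nonneg_left h2 (by positivity : 0 ≤ 2 * ε ^ 2 * m)
  have h4 : 2 * ε ^ 2 * m * (n * x + 2 * (n * v) + 3 * ε * x) ≤
      2 * ε ^ 2 * (n * x + 2 * (n * v) + 3 * ε * x) := by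
    have i1 : 2 * ε ^ 2 * m ≤ 2 * ε ^ 2 := mul_le_of_le_one_right (by positivity) hm1
    exact mul_le_mul_of_nonneg_right i1 (by positivity)
  have h5 : ε * (2 * x + G) * (1 - a + n + δ) ≤ ε * (2 * x + G) * 2 :=
    mul_le_mul_of_nonneg_left (by linarith) (by positivity)
  have hw : 0 ≤ 1 - ε ^ 2 := by nlinarith
  have h6 : 0 ≤ (1 - ε ^ 2) * (40 * ε * x) * δ := by positivity
  have h7 : 0 ≤ (1 - ε ^ 2) * (2 * ε ^ 2 * m' * b) * (n + δ) := by positivity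
  have h8 : 2 * ε ^ 2 * (3 * ε * x) ≤ ε * x := by
    have : ε ^ 2 * (ε * x) ≤ 1 / 400 * (ε * x) :=
      mul_le_mul_of_nonneg_right (by nlinarith) hεx
    linarith
  nlinarith

theorem int_weight {ε b p q a G z X H T w : ℝ} (hε : 0 ≤ ε) (hε' : ε ≤ 1 / 20) (hb : 0 ≤ b)
    (hp : 0 ≤ p) (hq : 0 ≤ q) (ha0 : 0 ≤ a) (ha : a ≤ 1) (hG : 0 ≤ G) (hX0 : 0 ≤ X) (hX : X ≤ z)
    (hH : 0 ≤ H) (hw0 : 1 - ε ^ 2 ≤ w) (hw1 : w ≤ 1 + ε ^ 2) (hwT : 1 - ε ^ 2 * (1 - T) ≤ w) :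
    w * int ε b p q a G z X H ≤ (1 + 5 * ε ^ 2) * z - X -
      (1 - ε ^ 2 * (1 - T)) * ((1 - a) * b + (q + p * a) * G + 2 * ε ^ 2 * (a * (1 - a) * b)) -
      (1 - ε ^ 2) * (40 * ε) * H := by
  have hz : 0 ≤ z := hX0.trans hX
  have ha' : 0 ≤ 1 - a := by linarith
  have hη : ε ^ 2 ≤ 1 / 400 := by nlinarith
  have h1 : w * (z - X + 5 / 2 * ε ^ 2 * z) ≤ (1 + ε ^ 2) * (z - X + 5 / 2 * ε ^ 2 * z) :=
    mul_le_mul_of_nonneg_right hw1 (add_nonneg (by linarith) (by positivity))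
  have h2 := mul_le_mul_of_nonneg_right hwT
    (by positivity : 0 ≤ (1 - a) * b + (q + p * a) * G + 2 * ε ^ 2 * (a * (1 - a) * b))
  have h3 := mul_le_mul_of_nonneg_right hw0 (by positivity : 0 ≤ 40 * ε * H)
  have h4 : ε ^ 2 * (ε ^ 2 * z) ≤ 1 / 400 * (ε ^ 2 * z) :=
    mul_le_mul_of_nonneg_right hη (by positivity)
  have h5 : 0 ≤ ε ^ 2 * X := by positivity
  have h6 : 0 ≤ ε ^ 2 * z := by positivity
  unfold int
  nlinarith

/-- The terms that are proportional to `a (1 - a) b`. -/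
theorem coef_le {ε a : ℝ} (hε : 0 ≤ ε) (hε' : ε ≤ 1 / 20) (ha0 : 0 ≤ a) (ha : a ≤ 1) :
    2 * (max 0 (2 * a - 1) - (1 - ε ^ 2) * max 0 (1 - 2 * a)) - 2 * a +
      (1 - a) * (1 + 2 * ε ^ 2 * a) ≤ 0 := by
  have hη : ε ^ 2 ≤ 1 / 400 := by nlinarith
  have h0 : 0 ≤ ε ^ 2 := by positivity
  generalize ε ^ 2 = η at *
  have h1 : η * a ≤ 1 / 400 := by nlinarith
  have h2 : (1 - a) * (η * a) ≤ (1 - a) * (1 / 400) := mul_le_mul_of_nonneg_left h1 (by linarith)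
  rcases le_total 0 (2 * a - 1) with h | h
  · rw [max_eq_right h, max_eq_left (by linarith)]
    nlinarith
  · rw [max_eq_left h, max_eq_right (by linarith)]
    nlinarith

end Vale.Agent.P334.Step
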